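import Vale.Agent.P237.Quant.PosData.SR14SuperPolys

/-!
Parts of the heavy checks of a spectral certificate, evaluated in the kernel.
-/

namespace Vale.Agent.P237.Quant

open Four.Checker

theorem superSR14_2_c8 : QP.checkTree elemSR14_2_0 ⟨11024728064, 754057216, 760741888, 689045504, 1378091008⟩
    (.cutT 757399552 (.cutY 1033568256 .leaf .leaf) (.cutY 1033568256 .leaf .leaf)) = true := by decide +kernel

theorem superSR14_2_c9 : QP.checkTree elemSR14_2_0 ⟨11024728064, 747372544, 760741888, 1378091008, 2756182016⟩
    .leaf = true := by decide +kernel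

theorem superSR14_2_c10 : QP.checkTree elemSR14_2_0 ⟨11024728064, 734003200, 760741888, 2756182016, 5512364032⟩
    .leaf = true := by decide +kernel

theorem superSR14_2_c11 : QP.checkTree elemSR14_2_0 ⟨11024728064, 760741888, 767426560, 0, 689045504⟩
    .leaf = true := by decide +kernel

theorem superSR14_2_c12 : QP.checkTree elemSR14_2_0 ⟨11024728064, 760741888, 767426560, 689045504, 1378091008⟩
    (.cutT 764084224 (.cutY 1033568256 .leaf .leaf) (.cutY 1033568256 .leaf .leaf)) = true := by decide +kernel

theorem superSR14_2_c13 : QP.checkTree elemSR14_2_0 ⟨11024728064, 767426560, 774111232, 0, 689045504⟩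
    .leaf = true := by decide +kernel

theorem superSR14_2_c14 : QP.checkTree elemSR14_2_0 ⟨11024728064, 767426560, 774111232, 689045504, 1378091008⟩
    (.cutT 770768896 (.cutY 1033568256 .leaf .leaf) (.cutY 1033568256 .leaf .leaf)) = true := by decide +kernel

theorem superSR14_2_c15 : QP.checkTree elemSR14_2_0 ⟨11024728064, 760741888, 774111232, 1378091008, 2756182016⟩
    .leaf = true := by decide +kernel

end Vale.Agent.P237.Quant
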