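import Vale.Agent.P237.Quant.PosData.SR14SuperPolys

/-!
Parts of the heavy checks of a spectral certificate, evaluated in the kernel.
-/

namespace Vale.Agent.P237.Quant

open Four.Checker

theorem superSR14_2_c16 : QP.checkTree elemSR14_2_0 ⟨11024728064, 774111232, 780795904, 0, 689045504⟩
    .leaf = true := by decide +kernel

theorem superSR14_2_c17 : QP.checkTree elemSR14_2_0 ⟨11024728064, 774111232, 780795904, 689045504, 1378091008⟩
    (.cutT 777453568 (.cutY 1033568256 .leaf .leaf) (.cutY 1033568256 .leaf .leaf)) = true := by decide +kernel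

theorem superSR14_2_c18 : QP.checkTree elemSR14_2_0 ⟨11024728064, 780795904, 787480576, 0, 689045504⟩
    .leaf = true := by decide +kernel

theorem superSR14_2_c19 : QP.checkTree elemSR14_2_0 ⟨11024728064, 780795904, 784138240, 689045504, 1378091008⟩
    (.cutY 1033568256 .leaf .leaf) = true := by decide +kernel

theorem superSR14_2_c20 : QP.checkTree elemSR14_2_0 ⟨11024728064, 784138240, 787480576, 689045504, 1378091008⟩
    (.cutY 1033568256 (.cutT 785809408 .leaf (.cutY 861306880 .leaf .leaf)) .leaf) = true := by decide +kernel

theorem superSR14_2_c21 : QP.checkTree elemSR14_2_0 ⟨11024728064, 774111232, 787480576, 1378091008, 2756182016⟩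
    .leaf = true := by decide +kernel

theorem superSR14_2_c22 : QP.checkTree elemSR14_2_0 ⟨11024728064, 760741888, 787480576, 2756182016, 5512364032⟩
    .leaf = true := by decide +kernel

theorem superSR14_2_c23 : QP.checkTree elemSR14_2_0 ⟨11024728064, 734003200, 787480576, 5512364032, 11024728064⟩
    .leaf = true := by decide +kernel

end Vale.Agent.P237.Quant
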