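import Vale.Agent.P237.Quant.PosData.SR14SuperPolys

/-!
Parts of the heavy checks of a spectral certificate, evaluated in the kernel.
-/

namespace Vale.Agent.P237.Quant

open Four.Checker

theorem superSR14_2_c24 : QP.checkTree elemSR14_2_1 ⟨11024728064, 734003200, 787480576, 0, 5512364032⟩
    (.cutT 760741888 (.cutY 2756182016 .leaf .leaf) (.cutY 2756182016 .leaf .leaf)) = true := by decide +kernel

theorem superSR14_2_c25 : QP.checkTree elemSR14_2_1 ⟨11024728064, 734003200, 787480576, 5512364032, 11024728064⟩
    .leaf = true := by decide +kernel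

theorem superSR14_2_rest : checkAll ⟨11024728064, 734003200, 787480576, 0, 11024728064⟩ (polysSR14_2.tail.tail)
    [.leaf, .leaf, .leaf] = true := by decide +kernel

end Vale.Agent.P237.Quant
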