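import Vale.Agent.P237.Quant.PosData.SR14SuperPart0
import Vale.Agent.P237.Quant.PosData.SR14SuperPart1
import Vale.Agent.P237.Quant.PosData.SR14SuperPart2
import Vale.Agent.P237.Quant.PosData.SR14SuperPart3

/-!
Data of a spectral certificate, checked by evaluation in the kernel.
-/

namespace Vale.Agent.P237.Quant

open Four.Checker

theorem superSR14_g : checkAll gridSR14.box (potSR14.cen.qp QP.X :: potSR14.s0.qp QP.X :: (((junctionSR14.qp QP.X).sub (gridSR14.Y₂.qp QP.X)).sub (QP.const 1 999999)) :: (((gridSR14.Y₃.qp QP.X).sub (junctionSR14.qp QP.X)).sub (QP.const 1 999999)) :: (((QP.const 1 0).sub (QP.X.mul (junctionSR14.qp QP.X))).sub (QP.const 1 999999)) :: gridSR14.gridPolys)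
    [.leaf, .leaf, .leaf, .leaf, .leaf, .leaf, .leaf, .leaf, .leaf, .leaf, .leaf, .leaf, .leaf] = true := by decide +kernel

theorem superSR14_0 : checkAll gridSR14.box (superPolys potSR14 famSR140 (CertGrid.chart (QP.const 0 0) (gridSR14.Y₁.qp QP.X)))
    [.leaf, .leaf, .leaf, .leaf, .leaf] = true := by decide +kernel

theorem superSR14_1 : checkAll gridSR14.box (superPolys potSR14 famSR141 (CertGrid.chart (gridSR14.Y₁.qp QP.X) (gridSR14.Y₂.qp QP.X)))
    [.leaf, .leaf, .leaf, .leaf, .leaf] = true := by decide +kernel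

theorem superSR14_2 : checkAll gridSR14.box (superPolys potSR14 famSR142 (CertGrid.chart (gridSR14.Y₂.qp QP.X) (junctionSR14.qp QP.X)))
    [(.cutY 5512364032 (.cutT 760741888 (.cutY 2756182016 (.cutT 747372544 (.cutY 1378091008 (.cutT 740687872 (.cutY 689045504 .leaf (.cutT 737345536 (.cutY 1033568256 .leaf .leaf) (.cutY 1033568256 .leaf .leaf))) (.cutY 689045504 .leaf (.cutT 744030208 (.cutY 1033568256 .leaf .leaf) (.cutY 1033568256 .leaf .leaf)))) .leaf) (.cutY 1378091008 (.cutT 754057216 (.cutY 689045504 .leaf (.cutT 750714880 (.cutY 1033568256 .leaf .leaf) (.cutY 1033568256 .leaf .leaf))) (.cutY 689045504 .leaf (.cutT 757399552 (.cutY 1033568256 .leaf .leaf) (.cutY 1033568256 .leaf .leaf)))) .leaf)) .leaf) (.cutY 2756182016 (.cutT 774111232 (.cutY 1378091008 (.cutT 767426560 (.cutY 689045504 .leaf (.cutT 764084224 (.cutY 1033568256 .leaf .leaf) (.cutY 1033568256 .leaf .leaf))) (.cutY 689045504 .leaf (.cutT 770768896 (.cutY 1033568256 .leaf .leaf) (.cutY 1033568256 .leaf .leaf)))) .leaf) (.cutY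 1378091008 (.cutT 780795904 (.cutY 689045504 .leaf (.cutT 777453568 (.cutY 1033568256 .leaf .leaf) (.cutY 1033568256 .leaf .leaf))) (.cutY 689045504 .leaf (.cutT 784138240 (.cutY 1033568256 .leaf .leaf) (.cutY 1033568256 (.cutT 785809408 .leaf (.cutY 861306880 .leaf .leaf)) .leaf)))) .leaf)) .leaf)) .leaf), (.cutY 5512364032 (.cutT 760741888 (.cutY 2756182016 .leaf .leaf) (.cutY 2756182016 .leaf .leaf)) .leaf), .leaf, .leaf, .leaf] = true :=
  (checkAll_headTail (by decide +kernel)
    (checkTree_cutY (by decide +kernel) (checkTree_cutT (by decide +kernel) (checkTree_cutY (by decide +kernel) (checkTree_cutT (by decide +kernel) (checkTree_cutY (by decide +kernel) (checkTree_cutT (by decide +kernel) (checkTree_cutY (by decide +kernel) superSR14_2_c0 superSR14_2_c1) (checkTree_cutY (by decide +kernel) superSR14_2_c2 superSR14_2_c3)) superSR14_2_c4) (checkTree_cutY (by decide +kernel) (checkTree_cutT (by decide +kernel) (checkTree_cutY (by decide +kernel) superSR14_2_c5 superSR14_2_c6) (checkTree_cutY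 (by decide +kernel) superSR14_2_c7 superSR14_2_c8)) superSR14_2_c9)) superSR14_2_c10) (checkTree_cutY (by decide +kernel) (checkTree_cutT (by decide +kernel) (checkTree_cutY (by decide +kernel) (checkTree_cutT (by decide +kernel) (checkTree_cutY (by decide +kernel) superSR14_2_c11 superSR14_2_c12) (checkTree_cutY (by decide +kernel) superSR14_2_c13 superSR14_2_c14)) superSR14_2_c15) (checkTree_cutY (by decide +kernel) (checkTree_cutT (by decide +kernel) (checkTree_cutY (by decide +kernel) superSR14_2_c16 superSR14_2_c17) (checkTree_cutY (by decide +kernel) superSR14_2_c18 (checkTree_cutT (by decide +kernel) superSR14_2_c19 superSR14_2_c20))) superSR14_2_c21)) superSR14_2_c22)) superSR14_2_c23)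
    (checkAll_headTail (by decide +kernel)
    (checkTree_cutY (by decide +kernel) superSR14_2_c24 superSR14_2_c25)
    superSR14_2_rest))

theorem superSR14_j : checkAll gridSR14.box ([junctionPoly famSR142 famSR143 (CertGrid.chart (junctionSR14.qp QP.X) (junctionSR14.qp QP.X))])
    [.leaf] = true := by decide +kernel

theorem superSR14_3 : checkAll gridSR14.box (fluxPoly famSR143 (CertGrid.chart (junctionSR14.qp QP.X) (gridSR14.Y₃.qp QP.X)) :: superPolys potSR14 famSR143 (CertGrid.chart (junctionSR14.qp QP.X) (gridSR14.Y₃.qp QP.X)))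
    [.leaf, .leaf, .leaf, .leaf, .leaf, .leaf] = true := by decide +kernel

theorem superSR14_4 : checkAll gridSR14.farBoxS (fluxPoly famSR143 CertGrid.farChartS :: superPolys potSR14 famSR143 CertGrid.farChartS)
    [.leaf, .leaf, .leaf, .leaf, .leaf, .leaf] = true := by decide +kernel

/-- The supersolutions of the data. -/
theorem superSR14_check : splitCheck potSR14 famSR140 famSR141 famSR142 famSR143 gridSR14
    junctionSR14
    [.leaf, .leaf, .leaf, .leaf, .leaf, .leaf, .leaf, .leaf, .leaf, .leaf, .leaf, .leaf, .leaf]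
    [.leaf, .leaf, .leaf, .leaf, .leaf]
    [.leaf, .leaf, .leaf, .leaf, .leaf]
    [(.cutY 5512364032 (.cutT 760741888 (.cutY 2756182016 (.cutT 747372544 (.cutY 1378091008 (.cutT 740687872 (.cutY 689045504 .leaf (.cutT 737345536 (.cutY 1033568256 .leaf .leaf) (.cutY 1033568256 .leaf .leaf))) (.cutY 689045504 .leaf (.cutT 744030208 (.cutY 1033568256 .leaf .leaf) (.cutY 1033568256 .leaf .leaf)))) .leaf) (.cutY 1378091008 (.cutT 754057216 (.cutY 689045504 .leaf (.cutT 750714880 (.cutY 1033568256 .leaf .leaf) (.cutY 1033568256 .leaf .leaf))) (.cutY 689045504 .leaf (.cutT 757399552 (.cutY 1033568256 .leaf .leaf) (.cutY 1033568256 .leaf .leaf)))) .leaf)) .leaf) (.cutY 2756182016 (.cutT 774111232 (.cutY 1378091008 (.cutT 767426560 (.cutY 689045504 .leaf (.cutT 764084224 (.cutY 1033568256 .leaf .leaf) (.cutY 1033568256 .leaf .leaf))) (.cutY 689045504 .leaf (.cutT 770768896 (.cutY 1033568256 .leaf .leaf) (.cutY 1033568256 .leaf .leaf)))) .leaf) (.cutY 1378091008 (.cutT 780795904 (.cutY 689045504 .leaf (.cutT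 777453568 (.cutY 1033568256 .leaf .leaf) (.cutY 1033568256 .leaf .leaf))) (.cutY 689045504 .leaf (.cutT 784138240 (.cutY 1033568256 .leaf .leaf) (.cutY 1033568256 (.cutT 785809408 .leaf (.cutY 861306880 .leaf .leaf)) .leaf)))) .leaf)) .leaf)) .leaf), (.cutY 5512364032 (.cutT 760741888 (.cutY 2756182016 .leaf .leaf) (.cutY 2756182016 .leaf .leaf)) .leaf), .leaf, .leaf, .leaf]
    [.leaf]
    [.leaf, .leaf, .leaf, .leaf, .leaf, .leaf]
    [.leaf, .leaf, .leaf, .leaf, .leaf, .leaf] = true :=
  splitCheck_of_parts superSR14_g superSR14_0 superSR14_1 superSR14_2 superSR14_j superSR14_3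
    ((if_neg (by decide)).trans superSR14_4)

end Vale.Agent.P237.Quant
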