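import Vale.Agent.P237.Quant.PosData.SR14TestsEntry0
import Vale.Agent.P237.Quant.PosData.SR14TestsEntry1
import Vale.Agent.P237.Quant.CertSplitTests

/-!
Data of a spectral certificate, checked by evaluation in the kernel.
-/

namespace Vale.Agent.P237.Quant

open Four.Checker

theorem testsSR14_shape : testsSR14.shapeOK potSR14 = true := by decide +kernel

theorem testsSR14_scalars : checkAll gridSR14.box (testsSR14.scalars potSR14 gridSR14)
    [.leaf, .leaf, .leaf, .leaf, .leaf, .leaf, .leaf, .leaf, .leaf, .leaf, .leaf, .leaf, .leaf] = true := by decide +kernel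

theorem testsSR14_rest : checkAll gridSR14.box (testsSR14.matrix potSR14).tail.tail [.leaf, .leaf] = true := by decide +kernel

/-- The quadratic condition of the data. -/
theorem testsSR14_check : testsSR14.check potSR14 gridSR14
    [.leaf, .leaf, .leaf, .leaf, .leaf, .leaf, .leaf, .leaf, .leaf, .leaf, .leaf, .leaf, .leaf]
    [.leaf, .leaf, .leaf, .leaf] = true :=
  CertTests.check_of_parts testsSR14_shape testsSR14_scalars
    (checkAll_headTail (by decide +kernel) testsSR14_e0
      (checkAll_headTail (by decide +kernel) testsSR14_e1 testsSR14_rest))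

end Vale.Agent.P237.Quant
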