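import Vale.Agent.P237.Quant.PosData.SR16SuperPolys

/-!
Parts of the heavy checks of a spectral certificate, evaluated in the kernel.
-/

namespace Vale.Agent.P237.Quant

open Four.Checker

theorem superSR16_2_c8 : QP.checkTree elemSR16_2_0 ⟨15955132416, 838860800, 997195776, 7977566208, 15955132416⟩
    .leaf = true := by decide +kernel

theorem superSR16_2_rest : checkAll ⟨15955132416, 838860800, 997195776, 0, 15955132416⟩ (polysSR16_2.tail)
    [(.cutY 7977566208 .leaf .leaf), .leaf, .leaf, .leaf] = true := by decide +kernel

end Vale.Agent.P237.Quant
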