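import Vale.Agent.P237.Quant.PosData.SR16SuperPart0
import Vale.Agent.P237.Quant.PosData.SR16SuperPart1

/-!
Data of a spectral certificate, checked by evaluation in the kernel.
-/

namespace Vale.Agent.P237.Quant

open Four.Checker

theorem superSR16_g : checkAll gridSR16.box (potSR16.cen.qp QP.X :: potSR16.s0.qp QP.X :: (((junctionSR16.qp QP.X).sub (gridSR16.Y₂.qp QP.X)).sub (QP.const 1 999999)) :: (((gridSR16.Y₃.qp QP.X).sub (junctionSR16.qp QP.X)).sub (QP.const 1 999999)) :: (((QP.const 1 0).sub (QP.X.mul (junctionSR16.qp QP.X))).sub (QP.const 1 999999)) :: gridSR16.gridPolys)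
    [.leaf, .leaf, .leaf, .leaf, .leaf, .leaf, .leaf, .leaf, .leaf, .leaf, .leaf, .leaf, .leaf] = true := by decide +kernel

theorem superSR16_0 : checkAll gridSR16.box (superPolys potSR16 famSR160 (CertGrid.chart (QP.const 0 0) (gridSR16.Y₁.qp QP.X)))
    [.leaf, .leaf, .leaf, .leaf, .leaf] = true := by decide +kernel

theorem superSR16_1 : checkAll gridSR16.box (superPolys potSR16 famSR161 (CertGrid.chart (gridSR16.Y₁.qp QP.X) (gridSR16.Y₂.qp QP.X)))
    [.leaf, .leaf, .leaf, .leaf, .leaf] = true := by decide +kernel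

theorem superSR16_2 : checkAll gridSR16.box (superPolys potSR16 famSR162 (CertGrid.chart (gridSR16.Y₂.qp QP.X) (junctionSR16.qp QP.X)))
    [(.cutY 7977566208 (.cutT 918028288 (.cutY 3988783104 (.cutT 878444544 (.cutY 1994391552 (.cutT 858652672 (.cutY 997195776 .leaf .leaf) .leaf) .leaf) (.cutY 1994391552 .leaf .leaf)) .leaf) (.cutY 3988783104 (.cutT 957612032 (.cutY 1994391552 .leaf .leaf) (.cutY 1994391552 (.cutT 977403904 (.cutY 997195776 .leaf .leaf) (.cutY 997195776 .leaf (.cutT 987299840 .leaf (.cutY 1495793664 .leaf .leaf)))) .leaf)) .leaf)) .leaf), (.cutY 7977566208 .leaf .leaf), .leaf, .leaf, .leaf] = true :=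
  (checkAll_headTail (by decide +kernel)
    (checkTree_cutY (by decide +kernel) (checkTree_cutT (by decide +kernel) (checkTree_cutY (by decide +kernel) (checkTree_cutT (by decide +kernel) superSR16_2_c0 superSR16_2_c1) superSR16_2_c2) (checkTree_cutY (by decide +kernel) (checkTree_cutT (by decide +kernel) superSR16_2_c3 (checkTree_cutY (by decide +kernel) (checkTree_cutT (by decide +kernel) superSR16_2_c4 superSR16_2_c5) superSR16_2_c6)) superSR16_2_c7)) superSR16_2_c8)
    superSR16_2_rest)

theorem superSR16_j : checkAll gridSR16.box ([junctionPoly famSR162 famSR163 (CertGrid.chart (junctionSR16.qp QP.X) (junctionSR16.qp QP.X))])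
    [.leaf] = true := by decide +kernel

theorem superSR16_3 : checkAll gridSR16.box (fluxPoly famSR163 (CertGrid.chart (junctionSR16.qp QP.X) (gridSR16.Y₃.qp QP.X)) :: superPolys potSR16 famSR163 (CertGrid.chart (junctionSR16.qp QP.X) (gridSR16.Y₃.qp QP.X)))
    [.leaf, .leaf, .leaf, .leaf, .leaf, .leaf] = true := by decide +kernel

theorem superSR16_4 : checkAll gridSR16.farBoxS (fluxPoly famSR163 CertGrid.farChartS :: superPolys potSR16 famSR163 CertGrid.farChartS)
    [.leaf, .leaf, .leaf, .leaf, .leaf, .leaf] = true := by decide +kernel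

/-- The supersolutions of the data. -/
theorem superSR16_check : splitCheck potSR16 famSR160 famSR161 famSR162 famSR163 gridSR16
    junctionSR16
    [.leaf, .leaf, .leaf, .leaf, .leaf, .leaf, .leaf, .leaf, .leaf, .leaf, .leaf, .leaf, .leaf]
    [.leaf, .leaf, .leaf, .leaf, .leaf]
    [.leaf, .leaf, .leaf, .leaf, .leaf]
    [(.cutY 7977566208 (.cutT 918028288 (.cutY 3988783104 (.cutT 878444544 (.cutY 1994391552 (.cutT 858652672 (.cutY 997195776 .leaf .leaf) .leaf) .leaf) (.cutY 1994391552 .leaf .leaf)) .leaf) (.cutY 3988783104 (.cutT 957612032 (.cutY 1994391552 .leaf .leaf) (.cutY 1994391552 (.cutT 977403904 (.cutY 997195776 .leaf .leaf) (.cutY 997195776 .leaf (.cutT 987299840 .leaf (.cutY 1495793664 .leaf .leaf)))) .leaf)) .leaf)) .leaf), (.cutY 7977566208 .leaf .leaf), .leaf, .leaf, .leaf]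
    [.leaf]
    [.leaf, .leaf, .leaf, .leaf, .leaf, .leaf]
    [.leaf, .leaf, .leaf, .leaf, .leaf, .leaf] = true :=
  splitCheck_of_parts superSR16_g superSR16_0 superSR16_1 superSR16_2 superSR16_j superSR16_3
    ((if_neg (by decide)).trans superSR16_4)

end Vale.Agent.P237.Quant
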