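import Vale.Agent.P237.Quant.PosData.SR16TestsEntry0
import Vale.Agent.P237.Quant.PosData.SR16TestsEntry1
import Vale.Agent.P237.Quant.CertSplitTests

/-!
Data of a spectral certificate, checked by evaluation in the kernel.
-/

namespace Vale.Agent.P237.Quant

open Four.Checker

theorem testsSR16_shape : testsSR16.shapeOK potSR16 = true := by decide +kernel

theorem testsSR16_scalars : checkAll gridSR16.box (testsSR16.scalars potSR16 gridSR16)
    [.leaf, .leaf, .leaf, .leaf, .leaf, .leaf, .leaf, .leaf, .leaf, .leaf, .leaf, .leaf, .leaf] = true := by decide +kernel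

theorem testsSR16_rest : checkAll gridSR16.box (testsSR16.matrix potSR16).tail.tail [.leaf, .leaf] = true := by decide +kernel

/-- The quadratic condition of the data. -/
theorem testsSR16_check : testsSR16.check potSR16 gridSR16
    [.leaf, .leaf, .leaf, .leaf, .leaf, .leaf, .leaf, .leaf, .leaf, .leaf, .leaf, .leaf, .leaf]
    [.leaf, .leaf, .leaf, .leaf] = true :=
  CertTests.check_of_parts testsSR16_shape testsSR16_scalars
    (checkAll_headTail (by decide +kernel) testsSR16_e0
      (checkAll_headTail (by decide +kernel) testsSR16_e1 testsSR16_rest))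

end Vale.Agent.P237.Quant
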