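import Vale.Agent.P237.Quant.PosData.SR20SuperPolys

/-!
Parts of the heavy checks of a spectral certificate, evaluated in the kernel.
-/

namespace Vale.Agent.P237.Quant

open Four.Checker

theorem superSR20_2_c8 : QP.checkTree elemSR20_2_0 ⟨25186795520, 1232994304, 1259339776, 0, 1574174720⟩
    .leaf = true := by decide +kernel

theorem superSR20_2_c9 : QP.checkTree elemSR20_2_0 ⟨25186795520, 1232994304, 1259339776, 1574174720, 3148349440⟩
    (.cutT 1246167040 (.cutY 2361262080 .leaf .leaf) (.cutY 2361262080 .leaf .leaf)) = true := by decide +kernel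

theorem superSR20_2_c10 : QP.checkTree elemSR20_2_0 ⟨25186795520, 1206648832, 1259339776, 3148349440, 6296698880⟩
    .leaf = true := by decide +kernel

theorem superSR20_2_c11 : QP.checkTree elemSR20_2_0 ⟨25186795520, 1153957888, 1259339776, 6296698880, 12593397760⟩
    .leaf = true := by decide +kernel

theorem superSR20_2_c12 : QP.checkTree elemSR20_2_0 ⟨25186795520, 1048576000, 1259339776, 12593397760, 25186795520⟩
    .leaf = true := by decide +kernel

theorem superSR20_2_rest : checkAll ⟨25186795520, 1048576000, 1259339776, 0, 25186795520⟩ (polysSR20_2.tail)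
    [(.cutY 12593397760 .leaf .leaf), .leaf, .leaf, .leaf] = true := by decide +kernel

end Vale.Agent.P237.Quant
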