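import Vale.Agent.P237.Quant.PosData.SR20SuperPart0
import Vale.Agent.P237.Quant.PosData.SR20SuperPart1

/-!
Data of a spectral certificate, checked by evaluation in the kernel.
-/

namespace Vale.Agent.P237.Quant

open Four.Checker

theorem superSR20_g : checkAll gridSR20.box (potSR20.cen.qp QP.X :: potSR20.s0.qp QP.X :: (((junctionSR20.qp QP.X).sub (gridSR20.Y₂.qp QP.X)).sub (QP.const 1 999999)) :: (((gridSR20.Y₃.qp QP.X).sub (junctionSR20.qp QP.X)).sub (QP.const 1 999999)) :: (((QP.const 1 0).sub (QP.X.mul (junctionSR20.qp QP.X))).sub (QP.const 1 999999)) :: gridSR20.gridPolys)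
    [.leaf, .leaf, .leaf, .leaf, .leaf, .leaf, .leaf, .leaf, .leaf, .leaf, .leaf, .leaf, .leaf] = true := by decide +kernel

theorem superSR20_0 : checkAll gridSR20.box (superPolys potSR20 famSR200 (CertGrid.chart (QP.const 0 0) (gridSR20.Y₁.qp QP.X)))
    [.leaf, .leaf, .leaf, .leaf, .leaf] = true := by decide +kernel

theorem superSR20_1 : checkAll gridSR20.box (superPolys potSR20 famSR201 (CertGrid.chart (gridSR20.Y₁.qp QP.X) (gridSR20.Y₂.qp QP.X)))
    [.leaf, .leaf, .leaf, .leaf, .leaf] = true := by decide +kernel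

theorem superSR20_2 : checkAll gridSR20.box (superPolys potSR20 famSR202 (CertGrid.chart (gridSR20.Y₂.qp QP.X) (junctionSR20.qp QP.X)))
    [(.cutY 12593397760 (.cutT 1153957888 (.cutY 6296698880 (.cutT 1101266944 (.cutY 3148349440 (.cutT 1074921472 (.cutY 1574174720 .leaf .leaf) (.cutY 1574174720 .leaf .leaf)) .leaf) (.cutY 3148349440 (.cutT 1127612416 (.cutY 1574174720 .leaf .leaf) (.cutY 1574174720 .leaf .leaf)) .leaf)) .leaf) (.cutY 6296698880 (.cutT 1206648832 (.cutY 3148349440 (.cutT 1180303360 (.cutY 1574174720 .leaf .leaf) (.cutY 1574174720 .leaf .leaf)) .leaf) (.cutY 3148349440 (.cutT 1232994304 (.cutY 1574174720 .leaf (.cutT 1219821568 .leaf (.cutY 2361262080 .leaf .leaf))) (.cutY 1574174720 .leaf (.cutT 1246167040 (.cutY 2361262080 .leaf .leaf) (.cutY 2361262080 .leaf .leaf)))) .leaf)) .leaf)) .leaf), (.cutY 12593397760 .leaf .leaf), .leaf, .leaf, .leaf] = true :=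
  (checkAll_headTail (by decide +kernel)
    (checkTree_cutY (by decide +kernel) (checkTree_cutT (by decide +kernel) (checkTree_cutY (by decide +kernel) (checkTree_cutT (by decide +kernel) (checkTree_cutY (by decide +kernel) superSR20_2_c0 superSR20_2_c1) (checkTree_cutY (by decide +kernel) superSR20_2_c2 superSR20_2_c3)) superSR20_2_c4) (checkTree_cutY (by decide +kernel) (checkTree_cutT (by decide +kernel) (checkTree_cutY (by decide +kernel) superSR20_2_c5 superSR20_2_c6) (checkTree_cutY (by decide +kernel) (checkTree_cutT (by decide +kernel) superSR20_2_c7 (checkTree_cutY (by decide +kernel) superSR20_2_c8 superSR20_2_c9)) superSR20_2_c10)) superSR20_2_c11)) superSR20_2_c12)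
    superSR20_2_rest)

theorem superSR20_j : checkAll gridSR20.box ([junctionPoly famSR202 famSR203 (CertGrid.chart (junctionSR20.qp QP.X) (junctionSR20.qp QP.X))])
    [.leaf] = true := by decide +kernel

theorem superSR20_3 : checkAll gridSR20.box (fluxPoly famSR203 (CertGrid.chart (junctionSR20.qp QP.X) (gridSR20.Y₃.qp QP.X)) :: superPolys potSR20 famSR203 (CertGrid.chart (junctionSR20.qp QP.X) (gridSR20.Y₃.qp QP.X)))
    [.leaf, .leaf, .leaf, .leaf, .leaf, .leaf] = true := by decide +kernel

theorem superSR20_4 : checkAll gridSR20.farBoxS (fluxPoly famSR203 CertGrid.farChartS :: superPolys potSR20 famSR203 CertGrid.farChartS)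
    [.leaf, .leaf, .leaf, .leaf, .leaf, .leaf] = true := by decide +kernel

/-- The supersolutions of the data. -/
theorem superSR20_check : splitCheck potSR20 famSR200 famSR201 famSR202 famSR203 gridSR20
    junctionSR20
    [.leaf, .leaf, .leaf, .leaf, .leaf, .leaf, .leaf, .leaf, .leaf, .leaf, .leaf, .leaf, .leaf]
    [.leaf, .leaf, .leaf, .leaf, .leaf]
    [.leaf, .leaf, .leaf, .leaf, .leaf]
    [(.cutY 12593397760 (.cutT 1153957888 (.cutY 6296698880 (.cutT 1101266944 (.cutY 3148349440 (.cutT 1074921472 (.cutY 1574174720 .leaf .leaf) (.cutY 1574174720 .leaf .leaf)) .leaf) (.cutY 3148349440 (.cutT 1127612416 (.cutY 1574174720 .leaf .leaf) (.cutY 1574174720 .leaf .leaf)) .leaf)) .leaf) (.cutY 6296698880 (.cutT 1206648832 (.cutY 3148349440 (.cutT 1180303360 (.cutY 1574174720 .leaf .leaf) (.cutY 1574174720 .leaf .leaf)) .leaf) (.cutY 3148349440 (.cutT 1232994304 (.cutY 1574174720 .leaf (.cutT 1219821568 .leaf (.cutY 2361262080 .leaf .leaf))) (.cutY 1574174720 .leaf (.cutT 1246167040 (.cutY 2361262080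 .leaf .leaf) (.cutY 2361262080 .leaf .leaf)))) .leaf)) .leaf)) .leaf), (.cutY 12593397760 .leaf .leaf), .leaf, .leaf, .leaf]
    [.leaf]
    [.leaf, .leaf, .leaf, .leaf, .leaf, .leaf]
    [.leaf, .leaf, .leaf, .leaf, .leaf, .leaf] = true :=
  splitCheck_of_parts superSR20_g superSR20_0 superSR20_1 superSR20_2 superSR20_j superSR20_3
    ((if_neg (by decide)).trans superSR20_4)

end Vale.Agent.P237.Quant
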