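import Vale.Agent.P237.Quant.PosData.SR25SuperPolys

/-!
Parts of the heavy checks of a spectral certificate, evaluated in the kernel.
-/

namespace Vale.Agent.P237.Quant

open Four.Checker

theorem superSR25_2_c8 : QP.checkTree elemSR25_2_0 ⟨38037094400, 1495138304, 1508311040, 2377318400, 4754636800⟩
    (.cutY 3565977600 .leaf .leaf) = true := by decide +kernel

theorem superSR25_2_c9 : QP.checkTree elemSR25_2_0 ⟨38037094400, 1508311040, 1521483776, 2377318400, 4754636800⟩
    (.cutY 3565977600 (.cutT 1514897408 .leaf (.cutY 2971648000 .leaf .leaf)) .leaf) = true := by decide +kernel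

theorem superSR25_2_c10 : QP.checkTree elemSR25_2_0 ⟨38037094400, 1468792832, 1521483776, 4754636800, 9509273600⟩
    .leaf = true := by decide +kernel

theorem superSR25_2_c11 : QP.checkTree elemSR25_2_0 ⟨38037094400, 1416101888, 1521483776, 9509273600, 19018547200⟩
    .leaf = true := by decide +kernel

theorem superSR25_2_c12 : QP.checkTree elemSR25_2_0 ⟨38037094400, 1310720000, 1521483776, 19018547200, 38037094400⟩
    .leaf = true := by decide +kernel

theorem superSR25_2_c13 : QP.checkTree elemSR25_2_1 ⟨38037094400, 1310720000, 1521483776, 0, 19018547200⟩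
    (.cutT 1416101888 (.cutY 9509273600 .leaf .leaf) (.cutY 9509273600 .leaf .leaf)) = true := by decide +kernel

theorem superSR25_2_c14 : QP.checkTree elemSR25_2_1 ⟨38037094400, 1310720000, 1521483776, 19018547200, 38037094400⟩
    .leaf = true := by decide +kernel

theorem superSR25_2_rest : checkAll ⟨38037094400, 1310720000, 1521483776, 0, 38037094400⟩ (polysSR25_2.tail.tail)
    [.leaf, .leaf, .leaf] = true := by decide +kernel

end Vale.Agent.P237.Quant
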