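import Vale.Agent.P237.Quant.PosData.SR25SuperPart0
import Vale.Agent.P237.Quant.PosData.SR25SuperPart1

/-!
Data of a spectral certificate, checked by evaluation in the kernel.
-/

namespace Vale.Agent.P237.Quant

open Four.Checker

theorem superSR25_g : checkAll gridSR25.box (potSR25.cen.qp QP.X :: potSR25.s0.qp QP.X :: (((junctionSR25.qp QP.X).sub (gridSR25.Y₂.qp QP.X)).sub (QP.const 1 999999)) :: (((gridSR25.Y₃.qp QP.X).sub (junctionSR25.qp QP.X)).sub (QP.const 1 999999)) :: (((QP.const 1 0).sub (QP.X.mul (junctionSR25.qp QP.X))).sub (QP.const 1 999999)) :: gridSR25.gridPolys)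
    [.leaf, .leaf, .leaf, .leaf, .leaf, .leaf, .leaf, .leaf, .leaf, .leaf, .leaf, .leaf, .leaf] = true := by decide +kernel

theorem superSR25_0 : checkAll gridSR25.box (superPolys potSR25 famSR250 (CertGrid.chart (QP.const 0 0) (gridSR25.Y₁.qp QP.X)))
    [.leaf, .leaf, .leaf, .leaf, .leaf] = true := by decide +kernel

theorem superSR25_1 : checkAll gridSR25.box (superPolys potSR25 famSR251 (CertGrid.chart (gridSR25.Y₁.qp QP.X) (gridSR25.Y₂.qp QP.X)))
    [.leaf, .leaf, .leaf, .leaf, .leaf] = true := by decide +kernel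

theorem superSR25_2 : checkAll gridSR25.box (superPolys potSR25 famSR252 (CertGrid.chart (gridSR25.Y₂.qp QP.X) (junctionSR25.qp QP.X)))
    [(.cutY 19018547200 (.cutT 1416101888 (.cutY 9509273600 (.cutT 1363410944 (.cutY 4754636800 (.cutT 1337065472 .leaf (.cutY 2377318400 .leaf .leaf)) .leaf) (.cutY 4754636800 (.cutT 1389756416 (.cutY 2377318400 .leaf .leaf) (.cutY 2377318400 .leaf .leaf)) .leaf)) .leaf) (.cutY 9509273600 (.cutT 1468792832 (.cutY 4754636800 (.cutT 1442447360 (.cutY 2377318400 .leaf .leaf) (.cutY 2377318400 .leaf .leaf)) .leaf) (.cutY 4754636800 (.cutT 1495138304 (.cutY 2377318400 .leaf .leaf) (.cutY 2377318400 .leaf (.cutT 1508311040 (.cutY 3565977600 .leaf .leaf) (.cutY 3565977600 (.cutT 1514897408 .leaf (.cutY 2971648000 .leaf .leaf)) .leaf)))) .leaf)) .leaf)) .leaf), (.cutY 19018547200 (.cutT 1416101888 (.cutY 9509273600 .leaf .leaf) (.cutY 9509273600 .leaf .leaf)) .leaf), .leaf, .leaf, .leaf] = true :=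
  (checkAll_headTail (by decide +kernel)
    (checkTree_cutY (by decide +kernel) (checkTree_cutT (by decide +kernel) (checkTree_cutY (by decide +kernel) (checkTree_cutT (by decide +kernel) superSR25_2_c0 (checkTree_cutY (by decide +kernel) superSR25_2_c1 superSR25_2_c2)) superSR25_2_c3) (checkTree_cutY (by decide +kernel) (checkTree_cutT (by decide +kernel) (checkTree_cutY (by decide +kernel) superSR25_2_c4 superSR25_2_c5) (checkTree_cutY (by decide +kernel) (checkTree_cutT (by decide +kernel) superSR25_2_c6 (checkTree_cutY (by decide +kernel) superSR25_2_c7 (checkTree_cutT (by decide +kernel) superSR25_2_c8 superSR25_2_c9))) superSR25_2_c10)) superSR25_2_c11)) superSR25_2_c12)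
    (checkAll_headTail (by decide +kernel)
    (checkTree_cutY (by decide +kernel) superSR25_2_c13 superSR25_2_c14)
    superSR25_2_rest))

theorem superSR25_j : checkAll gridSR25.box ([junctionPoly famSR252 famSR253 (CertGrid.chart (junctionSR25.qp QP.X) (junctionSR25.qp QP.X))])
    [.leaf] = true := by decide +kernel

theorem superSR25_3 : checkAll gridSR25.box (fluxPoly famSR253 (CertGrid.chart (junctionSR25.qp QP.X) (gridSR25.Y₃.qp QP.X)) :: superPolys potSR25 famSR253 (CertGrid.chart (junctionSR25.qp QP.X) (gridSR25.Y₃.qp QP.X)))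
    [.leaf, .leaf, (.cutY 19018547200 .leaf .leaf), .leaf, .leaf, .leaf] = true := by decide +kernel

theorem superSR25_4 : checkAll gridSR25.farBoxS (fluxPoly famSR253 CertGrid.farChartS :: superPolys potSR25 famSR253 CertGrid.farChartS)
    [.leaf, .leaf, .leaf, .leaf, .leaf, .leaf] = true := by decide +kernel

/-- The supersolutions of the data. -/
theorem superSR25_check : splitCheck potSR25 famSR250 famSR251 famSR252 famSR253 gridSR25
    junctionSR25
    [.leaf, .leaf, .leaf, .leaf, .leaf, .leaf, .leaf, .leaf, .leaf, .leaf, .leaf, .leaf, .leaf]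
    [.leaf, .leaf, .leaf, .leaf, .leaf]
    [.leaf, .leaf, .leaf, .leaf, .leaf]
    [(.cutY 19018547200 (.cutT 1416101888 (.cutY 9509273600 (.cutT 1363410944 (.cutY 4754636800 (.cutT 1337065472 .leaf (.cutY 2377318400 .leaf .leaf)) .leaf) (.cutY 4754636800 (.cutT 1389756416 (.cutY 2377318400 .leaf .leaf) (.cutY 2377318400 .leaf .leaf)) .leaf)) .leaf) (.cutY 9509273600 (.cutT 1468792832 (.cutY 4754636800 (.cutT 1442447360 (.cutY 2377318400 .leaf .leaf) (.cutY 2377318400 .leaf .leaf)) .leaf) (.cutY 4754636800 (.cutT 1495138304 (.cutY 2377318400 .leaf .leaf) (.cutY 2377318400 .leaf (.cutT 1508311040 (.cutY 3565977600 .leaf .leaf) (.cutY 3565977600 (.cutT 1514897408 .leaf (.cutY 2971648000 .leaf .leaf)) .leaf)))) .leaf)) .leaf)) .leaf), (.cutY 19018547200 (.cutT 1416101888 (.cutY 9509273600 .leaf .leaf) (.cutY 9509273600 .leaf .leaf)) .leaf), .leaf, .leaf, .leaf]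
    [.leaf]
    [.leaf, .leaf, (.cutY 19018547200 .leaf .leaf), .leaf, .leaf, .leaf]
    [.leaf, .leaf, .leaf, .leaf, .leaf, .leaf] = true :=
  splitCheck_of_parts superSR25_g superSR25_0 superSR25_1 superSR25_2 superSR25_j superSR25_3
    ((if_neg (by decide)).trans superSR25_4)

end Vale.Agent.P237.Quant
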