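import Vale.Agent.P237.Quant.PosData.SR25TestsEntry0
import Vale.Agent.P237.Quant.PosData.SR25TestsEntry1
import Vale.Agent.P237.Quant.CertSplitTests

/-!
Data of a spectral certificate, checked by evaluation in the kernel.
-/

namespace Vale.Agent.P237.Quant

open Four.Checker

theorem testsSR25_shape : testsSR25.shapeOK potSR25 = true := by decide +kernel

theorem testsSR25_scalars : checkAll gridSR25.box (testsSR25.scalars potSR25 gridSR25)
    [.leaf, .leaf, .leaf, .leaf, .leaf, .leaf, .leaf, .leaf, .leaf, .leaf, .leaf, .leaf, .leaf] = true := by decide +kernel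

theorem testsSR25_rest : checkAll gridSR25.box (testsSR25.matrix potSR25).tail.tail [.leaf, .leaf] = true := by decide +kernel

/-- The quadratic condition of the data. -/
theorem testsSR25_check : testsSR25.check potSR25 gridSR25
    [.leaf, .leaf, .leaf, .leaf, .leaf, .leaf, .leaf, .leaf, .leaf, .leaf, .leaf, .leaf, .leaf]
    [.leaf, .leaf, .leaf, .leaf] = true :=
  CertTests.check_of_parts testsSR25_shape testsSR25_scalars
    (checkAll_headTail (by decide +kernel) testsSR25_e0
      (checkAll_headTail (by decide +kernel) testsSR25_e1 testsSR25_rest))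

end Vale.Agent.P237.Quant
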