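import Vale.Agent.P237.Quant.PosData.SR30SuperPolys

/-!
Parts of the heavy checks of a spectral certificate, evaluated in the kernel.
-/

namespace Vale.Agent.P237.Quant

open Four.Checker

theorem superSR30_2_c8 : QP.checkTree elemSR30_2_0 ⟨56654561280, 1651769344, 1730674688, 7081820160, 14163640320⟩
    .leaf = true := by decide +kernel

theorem superSR30_2_c9 : QP.checkTree elemSR30_2_0 ⟨56654561280, 1572864000, 1730674688, 14163640320, 28327280640⟩
    .leaf = true := by decide +kernel

theorem superSR30_2_c10 : QP.checkTree elemSR30_2_0 ⟨56654561280, 1730674688, 1809580032, 0, 7081820160⟩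
    (.cutT 1770127360 (.cutY 3540910080 .leaf .leaf) (.cutY 3540910080 .leaf .leaf)) = true := by decide +kernel

theorem superSR30_2_c11 : QP.checkTree elemSR30_2_0 ⟨56654561280, 1730674688, 1809580032, 7081820160, 14163640320⟩
    .leaf = true := by decide +kernel

theorem superSR30_2_c12 : QP.checkTree elemSR30_2_0 ⟨56654561280, 1809580032, 1888485376, 0, 14163640320⟩
    (.cutY 7081820160 .leaf .leaf) = true := by decide +kernel

theorem superSR30_2_c13 : QP.checkTree elemSR30_2_0 ⟨56654561280, 1730674688, 1888485376, 14163640320, 28327280640⟩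
    .leaf = true := by decide +kernel

theorem superSR30_2_c14 : QP.checkTree elemSR30_2_0 ⟨56654561280, 1572864000, 1730674688, 28327280640, 56654561280⟩
    (.cutY 42490920960 (.cutT 1651769344 (.cutY 35409100800 .leaf .leaf) .leaf) .leaf) = true := by decide +kernel

theorem superSR30_2_c15 : QP.checkTree elemSR30_2_0 ⟨56654561280, 1730674688, 1888485376, 28327280640, 56654561280⟩
    .leaf = true := by decide +kernel

end Vale.Agent.P237.Quant
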