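import Vale.Agent.P237.Quant.PosData.SR30SuperPolys

/-!
Parts of the heavy checks of a spectral certificate, evaluated in the kernel.
-/

namespace Vale.Agent.P237.Quant

open Four.Checker

theorem superSR30_2_c16 : QP.checkTree elemSR30_2_1 ⟨56654561280, 1572864000, 1888485376, 0, 28327280640⟩
    (.cutT 1730674688 (.cutY 14163640320 .leaf .leaf) (.cutY 14163640320 .leaf .leaf)) = true := by decide +kernel

theorem superSR30_2_c17 : QP.checkTree elemSR30_2_1 ⟨56654561280, 1572864000, 1888485376, 28327280640, 56654561280⟩
    .leaf = true := by decide +kernel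

theorem superSR30_2_rest : checkAll ⟨56654561280, 1572864000, 1888485376, 0, 56654561280⟩ (polysSR30_2.tail.tail)
    [.leaf, .leaf, .leaf] = true := by decide +kernel

end Vale.Agent.P237.Quant
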