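import Vale.Agent.P237.Quant.PosData.SR30SuperPart0
import Vale.Agent.P237.Quant.PosData.SR30SuperPart1
import Vale.Agent.P237.Quant.PosData.SR30SuperPart2

/-!
Data of a spectral certificate, checked by evaluation in the kernel.
-/

namespace Vale.Agent.P237.Quant

open Four.Checker

theorem superSR30_g : checkAll gridSR30.box (potSR30.cen.qp QP.X :: potSR30.s0.qp QP.X :: (((junctionSR30.qp QP.X).sub (gridSR30.Y₂.qp QP.X)).sub (QP.const 1 999999)) :: (((gridSR30.Y₃.qp QP.X).sub (junctionSR30.qp QP.X)).sub (QP.const 1 999999)) :: (((QP.const 1 0).sub (QP.X.mul (junctionSR30.qp QP.X))).sub (QP.const 1 999999)) :: gridSR30.gridPolys)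
    [.leaf, .leaf, .leaf, .leaf, .leaf, .leaf, .leaf, .leaf, .leaf, .leaf, .leaf, .leaf, .leaf] = true := by decide +kernel

theorem superSR30_0 : checkAll gridSR30.box (superPolys potSR30 famSR300 (CertGrid.chart (QP.const 0 0) (gridSR30.Y₁.qp QP.X)))
    [.leaf, .leaf, .leaf, .leaf, .leaf] = true := by decide +kernel

theorem superSR30_1 : checkAll gridSR30.box (superPolys potSR30 famSR301 (CertGrid.chart (gridSR30.Y₁.qp QP.X) (gridSR30.Y₂.qp QP.X)))
    [.leaf, .leaf, .leaf, .leaf, .leaf] = true := by decide +kernel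

theorem superSR30_2 : checkAll gridSR30.box (superPolys potSR30 famSR302 (CertGrid.chart (gridSR30.Y₂.qp QP.X) (junctionSR30.qp QP.X)))
    [(.cutY 28327280640 (.cutT 1730674688 (.cutY 14163640320 (.cutT 1651769344 (.cutY 7081820160 (.cutT 1612316672 (.cutY 3540910080 .leaf (.cutT 1592590336 (.cutY 5311365120 (.cutT 1582727168 (.cutY 4426137600 (.cutT 1577795584 (.cutY 3983523840 .leaf .leaf) .leaf) .leaf) (.cutY 4426137600 .leaf .leaf)) .leaf) (.cutY 5311365120 .leaf .leaf))) (.cutY 3540910080 .leaf (.cutT 1632043008 (.cutY 5311365120 .leaf .leaf) .leaf))) .leaf) (.cutY 7081820160 (.cutT 1691222016 (.cutY 3540910080 .leaf .leaf) (.cutY 3540910080 .leaf .leaf)) .leaf)) .leaf) (.cutY 14163640320 (.cutT 1809580032 (.cutY 7081820160 (.cutT 1770127360 (.cutY 3540910080 .leaf .leaf) (.cutY 3540910080 .leaf .leaf)) .leaf) (.cutY 7081820160 .leaf .leaf)) .leaf)) (.cutT 1730674688 (.cutY 42490920960 (.cutT 1651769344 (.cutY 35409100800 .leaf .leaf) .leaf) .leaf) .leaf)), (.cutY 28327280640 (.cutT 1730674688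 (.cutY 14163640320 .leaf .leaf) (.cutY 14163640320 .leaf .leaf)) .leaf), .leaf, .leaf, .leaf] = true :=
  (checkAll_headTail (by decide +kernel)
    (checkTree_cutY (by decide +kernel) (checkTree_cutT (by decide +kernel) (checkTree_cutY (by decide +kernel) (checkTree_cutT (by decide +kernel) (checkTree_cutY (by decide +kernel) (checkTree_cutT (by decide +kernel) (checkTree_cutY (by decide +kernel) superSR30_2_c0 (checkTree_cutT (by decide +kernel) (checkTree_cutY (by decide +kernel) (checkTree_cutT (by decide +kernel) superSR30_2_c1 superSR30_2_c2) superSR30_2_c3) superSR30_2_c4)) superSR30_2_c5) superSR30_2_c6) (checkTree_cutY (by decide +kernel) superSR30_2_c7 superSR30_2_c8)) superSR30_2_c9) (checkTree_cutY (by decide +kernel) (checkTree_cutT (by decide +kernel) (checkTree_cutY (by decide +kernel) superSR30_2_c10 superSR30_2_c11) superSR30_2_c12) superSR30_2_c13)) (checkTree_cutT (by decide +kernel) superSR30_2_c14 superSR30_2_c15))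
    (checkAll_headTail (by decide +kernel)
    (checkTree_cutY (by decide +kernel) superSR30_2_c16 superSR30_2_c17)
    superSR30_2_rest))

theorem superSR30_j : checkAll gridSR30.box ([junctionPoly famSR302 famSR303 (CertGrid.chart (junctionSR30.qp QP.X) (junctionSR30.qp QP.X))])
    [.leaf] = true := by decide +kernel

theorem superSR30_3 : checkAll gridSR30.box (fluxPoly famSR303 (CertGrid.chart (junctionSR30.qp QP.X) (gridSR30.Y₃.qp QP.X)) :: superPolys potSR30 famSR303 (CertGrid.chart (junctionSR30.qp QP.X) (gridSR30.Y₃.qp QP.X)))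
    [.leaf, .leaf, (.cutY 28327280640 .leaf (.cutT 1730674688 .leaf (.cutY 42490920960 .leaf .leaf))), .leaf, .leaf, .leaf] = true := by decide +kernel

theorem superSR30_4 : checkAll gridSR30.farBoxS (fluxPoly famSR303 CertGrid.farChartS :: superPolys potSR30 famSR303 CertGrid.farChartS)
    [.leaf, .leaf, .leaf, .leaf, .leaf, .leaf] = true := by decide +kernel

/-- The supersolutions of the data. -/
theorem superSR30_check : splitCheck potSR30 famSR300 famSR301 famSR302 famSR303 gridSR30
    junctionSR30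
    [.leaf, .leaf, .leaf, .leaf, .leaf, .leaf, .leaf, .leaf, .leaf, .leaf, .leaf, .leaf, .leaf]
    [.leaf, .leaf, .leaf, .leaf, .leaf]
    [.leaf, .leaf, .leaf, .leaf, .leaf]
    [(.cutY 28327280640 (.cutT 1730674688 (.cutY 14163640320 (.cutT 1651769344 (.cutY 7081820160 (.cutT 1612316672 (.cutY 3540910080 .leaf (.cutT 1592590336 (.cutY 5311365120 (.cutT 1582727168 (.cutY 4426137600 (.cutT 1577795584 (.cutY 3983523840 .leaf .leaf) .leaf) .leaf) (.cutY 4426137600 .leaf .leaf)) .leaf) (.cutY 5311365120 .leaf .leaf))) (.cutY 3540910080 .leaf (.cutT 1632043008 (.cutY 5311365120 .leaf .leaf) .leaf))) .leaf) (.cutY 7081820160 (.cutT 1691222016 (.cutY 3540910080 .leaf .leaf) (.cutY 3540910080 .leaf .leaf)) .leaf)) .leaf) (.cutY 14163640320 (.cutT 1809580032 (.cutY 7081820160 (.cutT 1770127360 (.cutY 3540910080 .leaf .leaf) (.cutY 3540910080 .leaf .leaf)) .leaf) (.cutY 7081820160 .leaf .leaf)) .leaf)) (.cutT 1730674688 (.cutY 42490920960 (.cutT 1651769344 (.cutY 35409100800 .leaf .leaf) .leaf) .leaf)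 .leaf)), (.cutY 28327280640 (.cutT 1730674688 (.cutY 14163640320 .leaf .leaf) (.cutY 14163640320 .leaf .leaf)) .leaf), .leaf, .leaf, .leaf]
    [.leaf]
    [.leaf, .leaf, (.cutY 28327280640 .leaf (.cutT 1730674688 .leaf (.cutY 42490920960 .leaf .leaf))), .leaf, .leaf, .leaf]
    [.leaf, .leaf, .leaf, .leaf, .leaf, .leaf] = true :=
  splitCheck_of_parts superSR30_g superSR30_0 superSR30_1 superSR30_2 superSR30_j superSR30_3
    ((if_neg (by decide)).trans superSR30_4)

end Vale.Agent.P237.Quant
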