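import Vale.Agent.P237.Quant.PosData.SR43SuperPolys

/-!
Parts of the heavy checks of a spectral certificate, evaluated in the kernel.
-/

namespace Vale.Agent.P237.Quant

open Four.Checker

theorem superSR43_2_c8 : QP.checkTree elemSR43_2_0 ⟨121784762368, 2543321088, 2687762432, 0, 15223095296⟩
    (.cutT 2615541760 (.cutY 7611547648 .leaf .leaf) (.cutY 7611547648 .leaf .leaf)) = true := by decide +kernel

theorem superSR43_2_c9 : QP.checkTree elemSR43_2_0 ⟨121784762368, 2543321088, 2687762432, 15223095296, 30446190592⟩
    .leaf = true := by decide +kernel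

theorem superSR43_2_c10 : QP.checkTree elemSR43_2_0 ⟨121784762368, 2687762432, 2759983104, 0, 15223095296⟩
    (.cutY 7611547648 .leaf .leaf) = true := by decide +kernel

theorem superSR43_2_c11 : QP.checkTree elemSR43_2_0 ⟨121784762368, 2759983104, 2832203776, 0, 7611547648⟩
    .leaf = true := by decide +kernel

theorem superSR43_2_c12 : QP.checkTree elemSR43_2_0 ⟨121784762368, 2759983104, 2796093440, 7611547648, 15223095296⟩
    .leaf = true := by decide +kernel

theorem superSR43_2_c13 : QP.checkTree elemSR43_2_0 ⟨121784762368, 2796093440, 2832203776, 7611547648, 15223095296⟩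
    (.cutY 11417321472 (.cutT 2814148608 .leaf (.cutY 9514434560 .leaf .leaf)) .leaf) = true := by decide +kernel

theorem superSR43_2_c14 : QP.checkTree elemSR43_2_0 ⟨121784762368, 2687762432, 2832203776, 15223095296, 30446190592⟩
    .leaf = true := by decide +kernel

theorem superSR43_2_c15 : QP.checkTree elemSR43_2_0 ⟨121784762368, 2543321088, 2832203776, 30446190592, 60892381184⟩
    .leaf = true := by decide +kernel

end Vale.Agent.P237.Quant
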