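import Vale.Agent.P237.Quant.PosData.SR43SuperPolys

/-!
Parts of the heavy checks of a spectral certificate, evaluated in the kernel.
-/

namespace Vale.Agent.P237.Quant

open Four.Checker

theorem superSR43_2_c16 : QP.checkTree elemSR43_2_0 ⟨121784762368, 2254438400, 2832203776, 60892381184, 121784762368⟩
    (.cutT 2543321088 (.cutY 91338571776 .leaf .leaf) .leaf) = true := by decide +kernel

theorem superSR43_2_c17 : QP.checkTree elemSR43_2_1 ⟨121784762368, 2254438400, 2543321088, 0, 60892381184⟩
    (.cutY 30446190592 .leaf .leaf) = true := by decide +kernel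

theorem superSR43_2_c18 : QP.checkTree elemSR43_2_1 ⟨121784762368, 2543321088, 2832203776, 0, 60892381184⟩
    (.cutY 30446190592 (.cutT 2687762432 .leaf (.cutY 15223095296 .leaf .leaf)) .leaf) = true := by decide +kernel

theorem superSR43_2_c19 : QP.checkTree elemSR43_2_1 ⟨121784762368, 2254438400, 2832203776, 60892381184, 121784762368⟩
    .leaf = true := by decide +kernel

theorem superSR43_2_rest : checkAll ⟨121784762368, 2254438400, 2832203776, 0, 121784762368⟩ (polysSR43_2.tail.tail)
    [.leaf, .leaf, .leaf] = true := by decide +kernel

end Vale.Agent.P237.Quant
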