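import Vale.Agent.P237.Quant.PosData.SR43SuperPart0
import Vale.Agent.P237.Quant.PosData.SR43SuperPart1
import Vale.Agent.P237.Quant.PosData.SR43SuperPart2

/-!
Data of a spectral certificate, checked by evaluation in the kernel.
-/

namespace Vale.Agent.P237.Quant

open Four.Checker

theorem superSR43_g : checkAll gridSR43.box (potSR43.cen.qp QP.X :: potSR43.s0.qp QP.X :: (((junctionSR43.qp QP.X).sub (gridSR43.Y₂.qp QP.X)).sub (QP.const 1 999999)) :: (((gridSR43.Y₃.qp QP.X).sub (junctionSR43.qp QP.X)).sub (QP.const 1 999999)) :: (((QP.const 1 0).sub (QP.X.mul (junctionSR43.qp QP.X))).sub (QP.const 1 999999)) :: gridSR43.gridPolys)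
    [.leaf, .leaf, .leaf, .leaf, .leaf, .leaf, .leaf, .leaf, .leaf, .leaf, .leaf, .leaf, .leaf] = true := by decide +kernel

theorem superSR43_0 : checkAll gridSR43.box (superPolys potSR43 famSR430 (CertGrid.chart (QP.const 0 0) (gridSR43.Y₁.qp QP.X)))
    [.leaf, .leaf, .leaf, .leaf, .leaf] = true := by decide +kernel

theorem superSR43_1 : checkAll gridSR43.box (superPolys potSR43 famSR431 (CertGrid.chart (gridSR43.Y₁.qp QP.X) (gridSR43.Y₂.qp QP.X)))
    [.leaf, .leaf, .leaf, .leaf, .leaf] = true := by decide +kernel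

theorem superSR43_2 : checkAll gridSR43.box (superPolys potSR43 famSR432 (CertGrid.chart (gridSR43.Y₂.qp QP.X) (junctionSR43.qp QP.X)))
    [(.cutY 60892381184 (.cutT 2543321088 (.cutY 30446190592 (.cutT 2398879744 (.cutY 15223095296 (.cutT 2326659072 (.cutY 7611547648 .leaf (.cutT 2290548736 (.cutY 11417321472 (.cutT 2272493568 (.cutY 9514434560 .leaf .leaf) .leaf) .leaf) .leaf)) (.cutY 7611547648 .leaf .leaf)) .leaf) (.cutY 15223095296 (.cutT 2471100416 (.cutY 7611547648 .leaf .leaf) (.cutY 7611547648 .leaf .leaf)) .leaf)) .leaf) (.cutY 30446190592 (.cutT 2687762432 (.cutY 15223095296 (.cutT 2615541760 (.cutY 7611547648 .leaf .leaf) (.cutY 7611547648 .leaf .leaf)) .leaf) (.cutY 15223095296 (.cutT 2759983104 (.cutY 7611547648 .leaf .leaf) (.cutY 7611547648 .leaf (.cutT 2796093440 .leaf (.cutY 11417321472 (.cutT 2814148608 .leaf (.cutY 9514434560 .leaf .leaf)) .leaf)))) .leaf)) .leaf)) (.cutT 2543321088 (.cutY 91338571776 .leaf .leaf) .leaf)), (.cutY 60892381184 (.cutT 2543321088 (.cutY 30446190592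 .leaf .leaf) (.cutY 30446190592 (.cutT 2687762432 .leaf (.cutY 15223095296 .leaf .leaf)) .leaf)) .leaf), .leaf, .leaf, .leaf] = true :=
  (checkAll_headTail (by decide +kernel)
    (checkTree_cutY (by decide +kernel) (checkTree_cutT (by decide +kernel) (checkTree_cutY (by decide +kernel) (checkTree_cutT (by decide +kernel) (checkTree_cutY (by decide +kernel) (checkTree_cutT (by decide +kernel) (checkTree_cutY (by decide +kernel) superSR43_2_c0 (checkTree_cutT (by decide +kernel) superSR43_2_c1 superSR43_2_c2)) superSR43_2_c3) superSR43_2_c4) (checkTree_cutY (by decide +kernel) superSR43_2_c5 superSR43_2_c6)) superSR43_2_c7) (checkTree_cutY (by decide +kernel) (checkTree_cutT (by decide +kernel) (checkTree_cutY (by decide +kernel) superSR43_2_c8 superSR43_2_c9) (checkTree_cutY (by decide +kernel) (checkTree_cutT (by decide +kernel) superSR43_2_c10 (checkTree_cutY (by decide +kernel) superSR43_2_c11 (checkTree_cutT (by decide +kernel) superSR43_2_c12 superSR43_2_c13))) superSR43_2_c14)) superSR43_2_c15))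 superSR43_2_c16)
    (checkAll_headTail (by decide +kernel)
    (checkTree_cutY (by decide +kernel) (checkTree_cutT (by decide +kernel) superSR43_2_c17 superSR43_2_c18) superSR43_2_c19)
    superSR43_2_rest))

theorem superSR43_j : checkAll gridSR43.box ([junctionPoly famSR432 famSR433 (CertGrid.chart (junctionSR43.qp QP.X) (junctionSR43.qp QP.X))])
    [.leaf] = true := by decide +kernel

theorem superSR43_3 : checkAll gridSR43.box (fluxPoly famSR433 (CertGrid.chart (junctionSR43.qp QP.X) (gridSR43.Y₃.qp QP.X)) :: superPolys potSR43 famSR433 (CertGrid.chart (junctionSR43.qp QP.X) (gridSR43.Y₃.qp QP.X)))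
    [.leaf, .leaf, (.cutY 60892381184 .leaf .leaf), .leaf, .leaf, .leaf] = true := by decide +kernel

theorem superSR43_4 : checkAll gridSR43.farBoxS (fluxPoly famSR433 CertGrid.farChartS :: superPolys potSR43 famSR433 CertGrid.farChartS)
    [.leaf, .leaf, (.cutY 2543321088 (.cutT 12421955584 .leaf .leaf) .leaf), .leaf, .leaf, .leaf] = true := by decide +kernel

/-- The supersolutions of the data. -/
theorem superSR43_check : splitCheck potSR43 famSR430 famSR431 famSR432 famSR433 gridSR43
    junctionSR43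
    [.leaf, .leaf, .leaf, .leaf, .leaf, .leaf, .leaf, .leaf, .leaf, .leaf, .leaf, .leaf, .leaf]
    [.leaf, .leaf, .leaf, .leaf, .leaf]
    [.leaf, .leaf, .leaf, .leaf, .leaf]
    [(.cutY 60892381184 (.cutT 2543321088 (.cutY 30446190592 (.cutT 2398879744 (.cutY 15223095296 (.cutT 2326659072 (.cutY 7611547648 .leaf (.cutT 2290548736 (.cutY 11417321472 (.cutT 2272493568 (.cutY 9514434560 .leaf .leaf) .leaf) .leaf) .leaf)) (.cutY 7611547648 .leaf .leaf)) .leaf) (.cutY 15223095296 (.cutT 2471100416 (.cutY 7611547648 .leaf .leaf) (.cutY 7611547648 .leaf .leaf)) .leaf)) .leaf) (.cutY 30446190592 (.cutT 2687762432 (.cutY 15223095296 (.cutT 2615541760 (.cutY 7611547648 .leaf .leaf) (.cutY 7611547648 .leaf .leaf)) .leaf) (.cutY 15223095296 (.cutT 2759983104 (.cutY 7611547648 .leaf .leaf) (.cutY 7611547648 .leaf (.cutT 2796093440 .leaf (.cutY 11417321472 (.cutT 2814148608 .leaf (.cutY 9514434560 .leaf .leaf)) .leaf)))) .leaf)) .leaf)) (.cutT 2543321088 (.cutY 91338571776 .leaf .leaf) .leaf)), (.cutY 60892381184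 (.cutT 2543321088 (.cutY 30446190592 .leaf .leaf) (.cutY 30446190592 (.cutT 2687762432 .leaf (.cutY 15223095296 .leaf .leaf)) .leaf)) .leaf), .leaf, .leaf, .leaf]
    [.leaf]
    [.leaf, .leaf, (.cutY 60892381184 .leaf .leaf), .leaf, .leaf, .leaf]
    [.leaf, .leaf, (.cutY 2543321088 (.cutT 12421955584 .leaf .leaf) .leaf), .leaf, .leaf, .leaf] = true :=
  splitCheck_of_parts superSR43_g superSR43_0 superSR43_1 superSR43_2 superSR43_j superSR43_3
    ((if_neg (by decide)).trans superSR43_4)

end Vale.Agent.P237.Quant
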