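import Vale.Agent.P237.Quant.PosData.SR55SuperPolys

/-!
Parts of the heavy checks of a spectral certificate, evaluated in the kernel.
-/

namespace Vale.Agent.P237.Quant

open Four.Checker

theorem superSR55_2_c8 : QP.checkTree elemSR55_2_0 ⟨285532487680, 2883584000, 3460562944, 35691560960, 71383121920⟩
    .leaf = true := by decide +kernel

theorem superSR55_2_c9 : QP.checkTree elemSR55_2_0 ⟨285532487680, 3460562944, 4037541888, 0, 35691560960⟩
    (.cutT 3749052416 (.cutY 17845780480 .leaf .leaf) (.cutY 17845780480 .leaf .leaf)) = true := by decide +kernel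

theorem superSR55_2_c10 : QP.checkTree elemSR55_2_0 ⟨285532487680, 3460562944, 4037541888, 35691560960, 71383121920⟩
    .leaf = true := by decide +kernel

theorem superSR55_2_c11 : QP.checkTree elemSR55_2_0 ⟨285532487680, 2883584000, 4037541888, 71383121920, 142766243840⟩
    .leaf = true := by decide +kernel

theorem superSR55_2_c12 : QP.checkTree elemSR55_2_0 ⟨285532487680, 4037541888, 4614520832, 0, 35691560960⟩
    (.cutT 4326031360 (.cutY 17845780480 .leaf .leaf) (.cutY 17845780480 .leaf .leaf)) = true := by decide +kernel

theorem superSR55_2_c13 : QP.checkTree elemSR55_2_0 ⟨285532487680, 4037541888, 4614520832, 35691560960, 71383121920⟩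
    .leaf = true := by decide +kernel

theorem superSR55_2_c14 : QP.checkTree elemSR55_2_0 ⟨285532487680, 4614520832, 5191499776, 0, 35691560960⟩
    (.cutT 4903010304 (.cutY 17845780480 .leaf .leaf) (.cutY 17845780480 .leaf .leaf)) = true := by decide +kernel

theorem superSR55_2_c15 : QP.checkTree elemSR55_2_0 ⟨285532487680, 4614520832, 5191499776, 35691560960, 71383121920⟩
    .leaf = true := by decide +kernel

end Vale.Agent.P237.Quant
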