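import Vale.Agent.P237.Quant.PosData.SR55SuperPolys

/-!
Parts of the heavy checks of a spectral certificate, evaluated in the kernel.
-/

namespace Vale.Agent.P237.Quant

open Four.Checker

theorem superSR55_2_c16 : QP.checkTree elemSR55_2_0 ⟨285532487680, 4037541888, 5191499776, 71383121920, 142766243840⟩
    .leaf = true := by decide +kernel

theorem superSR55_2_c17 : QP.checkTree elemSR55_2_0 ⟨285532487680, 2883584000, 5191499776, 142766243840, 285532487680⟩
    .leaf = true := by decide +kernel

theorem superSR55_2_c18 : QP.checkTree elemSR55_2_1 ⟨285532487680, 2883584000, 4037541888, 0, 142766243840⟩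
    (.cutY 71383121920 .leaf .leaf) = true := by decide +kernel

theorem superSR55_2_c19 : QP.checkTree elemSR55_2_1 ⟨285532487680, 4037541888, 5191499776, 0, 71383121920⟩
    (.cutT 4614520832 (.cutY 35691560960 .leaf .leaf) (.cutY 35691560960 .leaf .leaf)) = true := by decide +kernel

theorem superSR55_2_c20 : QP.checkTree elemSR55_2_1 ⟨285532487680, 4037541888, 5191499776, 71383121920, 142766243840⟩
    .leaf = true := by decide +kernel

theorem superSR55_2_c21 : QP.checkTree elemSR55_2_1 ⟨285532487680, 2883584000, 5191499776, 142766243840, 285532487680⟩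
    .leaf = true := by decide +kernel

theorem superSR55_2_rest : checkAll ⟨285532487680, 2883584000, 5191499776, 0, 285532487680⟩ (polysSR55_2.tail.tail)
    [.leaf, .leaf, .leaf] = true := by decide +kernel

theorem superSR55_4_c23 : QP.checkTree elemSR55_4_0 ⟨285532487680, 0, 126935367681, 2883584000, 5191499776⟩
    .leaf = true := by decide +kernel

end Vale.Agent.P237.Quant
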