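import Vale.Agent.P237.Quant.PosData.SR55SuperPolys

/-!
Parts of the heavy checks of a spectral certificate, evaluated in the kernel.
-/

namespace Vale.Agent.P237.Quant

open Four.Checker

theorem superSR55_4_c24 : QP.checkTree elemSR55_4_1 ⟨285532487680, 0, 126935367681, 2883584000, 5191499776⟩
    .leaf = true := by decide +kernel

theorem superSR55_4_c25 : QP.checkTree elemSR55_4_2 ⟨285532487680, 0, 63467683840, 2883584000, 3460562944⟩
    (.cutT 31733841920 (.cutY 3172073472 (.cutT 15866920960 .leaf .leaf) .leaf) .leaf) = true := by decide +kernel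

theorem superSR55_4_c26 : QP.checkTree elemSR55_4_2 ⟨285532487680, 0, 63467683840, 3460562944, 4037541888⟩
    .leaf = true := by decide +kernel

theorem superSR55_4_c27 : QP.checkTree elemSR55_4_2 ⟨285532487680, 63467683840, 126935367681, 2883584000, 4037541888⟩
    .leaf = true := by decide +kernel

theorem superSR55_4_c28 : QP.checkTree elemSR55_4_2 ⟨285532487680, 0, 126935367681, 4037541888, 5191499776⟩
    (.cutT 63467683840 .leaf .leaf) = true := by decide +kernel

theorem superSR55_4_rest : checkAll ⟨285532487680, 0, 126935367681, 2883584000, 5191499776⟩ (polysSR55_4.tail.tail.tail)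
    [.leaf, .leaf, .leaf] = true := by decide +kernel

end Vale.Agent.P237.Quant
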