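import Vale.Agent.P237.Quant.PosData.SR55SuperPart0
import Vale.Agent.P237.Quant.PosData.SR55SuperPart1
import Vale.Agent.P237.Quant.PosData.SR55SuperPart2
import Vale.Agent.P237.Quant.PosData.SR55SuperPart3

/-!
Data of a spectral certificate, checked by evaluation in the kernel.
-/

namespace Vale.Agent.P237.Quant

open Four.Checker

theorem superSR55_g : checkAll gridSR55.box (potSR55.cen.qp QP.X :: potSR55.s0.qp QP.X :: (((junctionSR55.qp QP.X).sub (gridSR55.Y₂.qp QP.X)).sub (QP.const 1 999999)) :: (((gridSR55.Y₃.qp QP.X).sub (junctionSR55.qp QP.X)).sub (QP.const 1 999999)) :: (((QP.const 1 0).sub (QP.X.mul (junctionSR55.qp QP.X))).sub (QP.const 1 999999)) :: gridSR55.gridPolys)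
    [.leaf, .leaf, .leaf, .leaf, .leaf, .leaf, .leaf, .leaf, .leaf, .leaf, .leaf, .leaf, .leaf] = true := by decide +kernel

theorem superSR55_0 : checkAll gridSR55.box (superPolys potSR55 famSR550 (CertGrid.chart (QP.const 0 0) (gridSR55.Y₁.qp QP.X)))
    [.leaf, .leaf, .leaf, .leaf, .leaf] = true := by decide +kernel

theorem superSR55_1 : checkAll gridSR55.box (superPolys potSR55 famSR551 (CertGrid.chart (gridSR55.Y₁.qp QP.X) (gridSR55.Y₂.qp QP.X)))
    [.leaf, .leaf, .leaf, .leaf, .leaf] = true := by decide +kernel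

theorem superSR55_2 : checkAll gridSR55.box (superPolys potSR55 famSR552 (CertGrid.chart (gridSR55.Y₂.qp QP.X) (junctionSR55.qp QP.X)))
    [(.cutY 142766243840 (.cutT 4037541888 (.cutY 71383121920 (.cutT 3460562944 (.cutY 35691560960 (.cutT 3172073472 (.cutY 17845780480 .leaf (.cutT 3027828736 (.cutY 26768670720 (.cutT 2955706368 (.cutY 22307225600 (.cutT 2919645184 (.cutY 20076503040 (.cutT 2901614592 (.cutY 18961141760 .leaf .leaf) .leaf) .leaf) .leaf) .leaf) .leaf) .leaf) .leaf)) (.cutY 17845780480 .leaf .leaf)) .leaf) (.cutY 35691560960 (.cutT 3749052416 (.cutY 17845780480 .leaf .leaf) (.cutY 17845780480 .leaf .leaf)) .leaf)) .leaf) (.cutY 71383121920 (.cutT 4614520832 (.cutY 35691560960 (.cutT 4326031360 (.cutY 17845780480 .leaf .leaf) (.cutY 17845780480 .leaf .leaf)) .leaf) (.cutY 35691560960 (.cutT 4903010304 (.cutY 17845780480 .leaf .leaf) (.cutY 17845780480 .leaf .leaf)) .leaf)) .leaf)) .leaf), (.cutY 142766243840 (.cutT 4037541888 (.cutY 71383121920 .leaf .leaf) (.cutY 71383121920 (.cutT 4614520832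 (.cutY 35691560960 .leaf .leaf) (.cutY 35691560960 .leaf .leaf)) .leaf)) .leaf), .leaf, .leaf, .leaf] = true :=
  (checkAll_headTail (by decide +kernel)
    (checkTree_cutY (by decide +kernel) (checkTree_cutT (by decide +kernel) (checkTree_cutY (by decide +kernel) (checkTree_cutT (by decide +kernel) (checkTree_cutY (by decide +kernel) (checkTree_cutT (by decide +kernel) (checkTree_cutY (by decide +kernel) superSR55_2_c0 (checkTree_cutT (by decide +kernel) (checkTree_cutY (by decide +kernel) (checkTree_cutT (by decide +kernel) (checkTree_cutY (by decide +kernel) (checkTree_cutT (by decide +kernel) superSR55_2_c1 superSR55_2_c2) superSR55_2_c3) superSR55_2_c4) superSR55_2_c5) superSR55_2_c6)) superSR55_2_c7) superSR55_2_c8) (checkTree_cutY (by decide +kernel) superSR55_2_c9 superSR55_2_c10)) superSR55_2_c11) (checkTree_cutY (by decide +kernel) (checkTree_cutT (by decide +kernel) (checkTree_cutY (by decide +kernel) superSR55_2_c12 superSR55_2_c13) (checkTree_cutY (by decide +kernel) superSR55_2_c14 superSR55_2_c15))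 superSR55_2_c16)) superSR55_2_c17)
    (checkAll_headTail (by decide +kernel)
    (checkTree_cutY (by decide +kernel) (checkTree_cutT (by decide +kernel) superSR55_2_c18 (checkTree_cutY (by decide +kernel) superSR55_2_c19 superSR55_2_c20)) superSR55_2_c21)
    superSR55_2_rest))

theorem superSR55_j : checkAll gridSR55.box ([junctionPoly famSR552 famSR553 (CertGrid.chart (junctionSR55.qp QP.X) (junctionSR55.qp QP.X))])
    [.leaf] = true := by decide +kernel

theorem superSR55_3 : checkAll gridSR55.box (fluxPoly famSR553 (CertGrid.chart (junctionSR55.qp QP.X) (gridSR55.Y₃.qp QP.X)) :: superPolys potSR55 famSR553 (CertGrid.chart (junctionSR55.qp QP.X) (gridSR55.Y₃.qp QP.X)))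
    [.leaf, .leaf, (.cutY 142766243840 (.cutT 4037541888 (.cutY 71383121920 .leaf .leaf) .leaf) (.cutT 4037541888 .leaf (.cutY 214149365760 .leaf .leaf))), .leaf, .leaf, .leaf] = true := by decide +kernel

theorem superSR55_4 : checkAll gridSR55.farBoxS (fluxPoly famSR553 CertGrid.farChartS :: superPolys potSR55 famSR553 CertGrid.farChartS)
    [.leaf, .leaf, (.cutY 4037541888 (.cutT 63467683840 (.cutY 3460562944 (.cutT 31733841920 (.cutY 3172073472 (.cutT 15866920960 .leaf .leaf) .leaf) .leaf) .leaf) .leaf) (.cutT 63467683840 .leaf .leaf)), .leaf, .leaf, .leaf] = true :=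
  (checkAll_headTail (by decide +kernel)
    superSR55_4_c23
    (checkAll_headTail (by decide +kernel)
    superSR55_4_c24
    (checkAll_headTail (by decide +kernel)
    (checkTree_cutY (by decide +kernel) (checkTree_cutT (by decide +kernel) (checkTree_cutY (by decide +kernel) superSR55_4_c25 superSR55_4_c26) superSR55_4_c27) superSR55_4_c28)
    superSR55_4_rest)))

/-- The supersolutions of the data. -/
theorem superSR55_check : splitCheck potSR55 famSR550 famSR551 famSR552 famSR553 gridSR55
    junctionSR55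
    [.leaf, .leaf, .leaf, .leaf, .leaf, .leaf, .leaf, .leaf, .leaf, .leaf, .leaf, .leaf, .leaf]
    [.leaf, .leaf, .leaf, .leaf, .leaf]
    [.leaf, .leaf, .leaf, .leaf, .leaf]
    [(.cutY 142766243840 (.cutT 4037541888 (.cutY 71383121920 (.cutT 3460562944 (.cutY 35691560960 (.cutT 3172073472 (.cutY 17845780480 .leaf (.cutT 3027828736 (.cutY 26768670720 (.cutT 2955706368 (.cutY 22307225600 (.cutT 2919645184 (.cutY 20076503040 (.cutT 2901614592 (.cutY 18961141760 .leaf .leaf) .leaf) .leaf) .leaf) .leaf) .leaf) .leaf) .leaf)) (.cutY 17845780480 .leaf .leaf)) .leaf) (.cutY 35691560960 (.cutT 3749052416 (.cutY 17845780480 .leaf .leaf) (.cutY 17845780480 .leaf .leaf)) .leaf)) .leaf) (.cutY 71383121920 (.cutT 4614520832 (.cutY 35691560960 (.cutT 4326031360 (.cutY 17845780480 .leaf .leaf) (.cutY 17845780480 .leaf .leaf)) .leaf) (.cutY 35691560960 (.cutT 4903010304 (.cutY 17845780480 .leaf .leaf) (.cutY 17845780480 .leaf .leaf)) .leaf)) .leaf)) .leaf), (.cutY 142766243840 (.cutT 4037541888 (.cutY 71383121920 .leaf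 .leaf) (.cutY 71383121920 (.cutT 4614520832 (.cutY 35691560960 .leaf .leaf) (.cutY 35691560960 .leaf .leaf)) .leaf)) .leaf), .leaf, .leaf, .leaf]
    [.leaf]
    [.leaf, .leaf, (.cutY 142766243840 (.cutT 4037541888 (.cutY 71383121920 .leaf .leaf) .leaf) (.cutT 4037541888 .leaf (.cutY 214149365760 .leaf .leaf))), .leaf, .leaf, .leaf]
    [.leaf, .leaf, (.cutY 4037541888 (.cutT 63467683840 (.cutY 3460562944 (.cutT 31733841920 (.cutY 3172073472 (.cutT 15866920960 .leaf .leaf) .leaf) .leaf) .leaf) .leaf) (.cutT 63467683840 .leaf .leaf)), .leaf, .leaf, .leaf] = true :=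
  splitCheck_of_parts superSR55_g superSR55_0 superSR55_1 superSR55_2 superSR55_j superSR55_3
    ((if_neg (by decide)).trans superSR55_4)

end Vale.Agent.P237.Quant
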