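import Vale.Agent.P237.Quant.PosData.SR55TestsEntry0
import Vale.Agent.P237.Quant.PosData.SR55TestsEntry1
import Vale.Agent.P237.Quant.CertSplitTests

/-!
Data of a spectral certificate, checked by evaluation in the kernel.
-/

namespace Vale.Agent.P237.Quant

open Four.Checker

theorem testsSR55_shape : testsSR55.shapeOK potSR55 = true := by decide +kernel

theorem testsSR55_scalars : checkAll gridSR55.box (testsSR55.scalars potSR55 gridSR55)
    [.leaf, .leaf, .leaf, .leaf, .leaf, .leaf, .leaf, .leaf, .leaf, .leaf, .leaf, .leaf, .leaf] = true := by decide +kernel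

theorem testsSR55_rest : checkAll gridSR55.box (testsSR55.matrix potSR55).tail.tail [.leaf, .leaf] = true := by decide +kernel

/-- The quadratic condition of the data. -/
theorem testsSR55_check : testsSR55.check potSR55 gridSR55
    [.leaf, .leaf, .leaf, .leaf, .leaf, .leaf, .leaf, .leaf, .leaf, .leaf, .leaf, .leaf, .leaf]
    [.leaf, .leaf, .leaf, .leaf] = true :=
  CertTests.check_of_parts testsSR55_shape testsSR55_scalars
    (checkAll_headTail (by decide +kernel) testsSR55_e0
      (checkAll_headTail (by decide +kernel) testsSR55_e1 testsSR55_rest))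

end Vale.Agent.P237.Quant
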