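import Vale.Agent.P237.Quant.PosData.SU100SuperPolys

/-!
Parts of the heavy checks of a spectral certificate, evaluated in the kernel.
-/

namespace Vale.Agent.P237.Quant

open Four.Checker

theorem superSU100_2_c8 : QP.checkTree elemSU100_2_0 ⟨707893657600, 5701894144, 6160908288, 88486707200, 176973414400⟩
    .leaf = true := by decide +kernel

theorem superSU100_2_c9 : QP.checkTree elemSU100_2_0 ⟨707893657600, 5242880000, 6160908288, 176973414400, 353946828800⟩
    .leaf = true := by decide +kernel

theorem superSU100_2_c10 : QP.checkTree elemSU100_2_0 ⟨707893657600, 6160908288, 6619922432, 0, 88486707200⟩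
    (.cutT 6390415360 (.cutY 44243353600 .leaf .leaf) (.cutY 44243353600 .leaf .leaf)) = true := by decide +kernel

theorem superSU100_2_c11 : QP.checkTree elemSU100_2_0 ⟨707893657600, 6160908288, 6619922432, 88486707200, 176973414400⟩
    .leaf = true := by decide +kernel

theorem superSU100_2_c12 : QP.checkTree elemSU100_2_0 ⟨707893657600, 6619922432, 6849429504, 0, 44243353600⟩
    .leaf = true := by decide +kernel

theorem superSU100_2_c13 : QP.checkTree elemSU100_2_0 ⟨707893657600, 6619922432, 6849429504, 44243353600, 88486707200⟩
    (.cutT 6734675968 (.cutY 66365030400 .leaf .leaf) (.cutY 66365030400 .leaf .leaf)) = true := by decide +kernel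

theorem superSU100_2_c14 : QP.checkTree elemSU100_2_0 ⟨707893657600, 6849429504, 7078936576, 0, 44243353600⟩
    .leaf = true := by decide +kernel

theorem superSU100_2_c15 : QP.checkTree elemSU100_2_0 ⟨707893657600, 6849429504, 6964183040, 44243353600, 88486707200⟩
    (.cutY 66365030400 .leaf .leaf) = true := by decide +kernel

end Vale.Agent.P237.Quant
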