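import Vale.Agent.P237.Quant.PosData.SU100SuperPolys

/-!
Parts of the heavy checks of a spectral certificate, evaluated in the kernel.
-/

namespace Vale.Agent.P237.Quant

open Four.Checker

theorem superSU100_2_c16 : QP.checkTree elemSU100_2_0 ⟨707893657600, 6964183040, 7078936576, 44243353600, 66365030400⟩
    (.cutT 7021559808 (.cutY 55304192000 .leaf .leaf) (.cutY 55304192000 .leaf .leaf)) = true := by decide +kernel

theorem superSU100_2_c17 : QP.checkTree elemSU100_2_0 ⟨707893657600, 6964183040, 7078936576, 66365030400, 88486707200⟩
    .leaf = true := by decide +kernel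

theorem superSU100_2_c18 : QP.checkTree elemSU100_2_0 ⟨707893657600, 6619922432, 7078936576, 88486707200, 176973414400⟩
    .leaf = true := by decide +kernel

theorem superSU100_2_c19 : QP.checkTree elemSU100_2_0 ⟨707893657600, 6160908288, 7078936576, 176973414400, 353946828800⟩
    .leaf = true := by decide +kernel

theorem superSU100_2_c20 : QP.checkTree elemSU100_2_0 ⟨707893657600, 5242880000, 7078936576, 353946828800, 707893657600⟩
    .leaf = true := by decide +kernel

theorem superSU100_2_c21 : QP.checkTree elemSU100_2_1 ⟨707893657600, 5242880000, 7078936576, 0, 353946828800⟩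
    (.cutT 6160908288 (.cutY 176973414400 .leaf .leaf) (.cutY 176973414400 .leaf .leaf)) = true := by decide +kernel

theorem superSU100_2_c22 : QP.checkTree elemSU100_2_1 ⟨707893657600, 5242880000, 7078936576, 353946828800, 707893657600⟩
    .leaf = true := by decide +kernel

theorem superSU100_2_rest : checkAll ⟨707893657600, 5242880000, 7078936576, 0, 707893657600⟩ (polysSU100_2.tail.tail)
    [.leaf, .leaf, .leaf] = true := by decide +kernel

end Vale.Agent.P237.Quant
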