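import Vale.Agent.P237.Quant.PosData.SU100SuperPart0
import Vale.Agent.P237.Quant.PosData.SU100SuperPart1
import Vale.Agent.P237.Quant.PosData.SU100SuperPart2

/-!
Data of a spectral certificate, checked by evaluation in the kernel.
-/

namespace Vale.Agent.P237.Quant

open Four.Checker

theorem superSU100_g : checkAll gridSU100.box (potSU100.cen.qp QP.X :: potSU100.s0.qp QP.X :: (((junctionSU100.qp QP.X).sub (gridSU100.Y₂.qp QP.X)).sub (QP.const 1 999999)) :: (((gridSU100.Y₃.qp QP.X).sub (junctionSU100.qp QP.X)).sub (QP.const 1 999999)) :: (((QP.const 1 0).sub (QP.X.mul (junctionSU100.qp QP.X))).sub (QP.const 1 999999)) :: gridSU100.gridPolys)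
    [.leaf, .leaf, .leaf, .leaf, .leaf, .leaf, .leaf, .leaf, .leaf, .leaf, .leaf, .leaf, .leaf] = true := by decide +kernel

theorem superSU100_0 : checkAll gridSU100.box (superPolys potSU100 famSU1000 (CertGrid.chart (QP.const 0 0) (gridSU100.Y₁.qp QP.X)))
    [.leaf, .leaf, .leaf, .leaf, .leaf] = true := by decide +kernel

theorem superSU100_1 : checkAll gridSU100.box (superPolys potSU100 famSU1001 (CertGrid.chart (gridSU100.Y₁.qp QP.X) (gridSU100.Y₂.qp QP.X)))
    [.leaf, .leaf, .leaf, .leaf, .leaf] = true := by decide +kernel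

theorem superSU100_2 : checkAll gridSU100.box (superPolys potSU100 famSU1002 (CertGrid.chart (gridSU100.Y₂.qp QP.X) (junctionSU100.qp QP.X)))
    [(.cutY 353946828800 (.cutT 6160908288 (.cutY 176973414400 (.cutT 5701894144 (.cutY 88486707200 (.cutT 5472387072 (.cutY 44243353600 .leaf (.cutT 5357633536 (.cutY 66365030400 (.cutT 5300256768 (.cutY 55304192000 .leaf .leaf) (.cutY 55304192000 .leaf .leaf)) .leaf) (.cutY 66365030400 .leaf .leaf))) (.cutY 44243353600 .leaf (.cutT 5587140608 (.cutY 66365030400 .leaf .leaf) (.cutY 66365030400 .leaf .leaf)))) .leaf) (.cutY 88486707200 (.cutT 5931401216 (.cutY 44243353600 .leaf .leaf) (.cutY 44243353600 .leaf .leaf)) .leaf)) .leaf) (.cutY 176973414400 (.cutT 6619922432 (.cutY 88486707200 (.cutT 6390415360 (.cutY 44243353600 .leaf .leaf) (.cutY 44243353600 .leaf .leaf)) .leaf) (.cutY 88486707200 (.cutT 6849429504 (.cutY 44243353600 .leaf (.cutT 6734675968 (.cutY 66365030400 .leaf .leaf) (.cutY 66365030400 .leaf .leaf))) (.cutY 44243353600 .leaf (.cutT 6964183040 (.cutY 66365030400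 .leaf .leaf) (.cutY 66365030400 (.cutT 7021559808 (.cutY 55304192000 .leaf .leaf) (.cutY 55304192000 .leaf .leaf)) .leaf)))) .leaf)) .leaf)) .leaf), (.cutY 353946828800 (.cutT 6160908288 (.cutY 176973414400 .leaf .leaf) (.cutY 176973414400 .leaf .leaf)) .leaf), .leaf, .leaf, .leaf] = true :=
  (checkAll_headTail (by decide +kernel)
    (checkTree_cutY (by decide +kernel) (checkTree_cutT (by decide +kernel) (checkTree_cutY (by decide +kernel) (checkTree_cutT (by decide +kernel) (checkTree_cutY (by decide +kernel) (checkTree_cutT (by decide +kernel) (checkTree_cutY (by decide +kernel) superSU100_2_c0 (checkTree_cutT (by decide +kernel) (checkTree_cutY (by decide +kernel) superSU100_2_c1 superSU100_2_c2) superSU100_2_c3)) (checkTree_cutY (by decide +kernel) superSU100_2_c4 superSU100_2_c5)) superSU100_2_c6) (checkTree_cutY (by decide +kernel) superSU100_2_c7 superSU100_2_c8)) superSU100_2_c9) (checkTree_cutY (by decide +kernel) (checkTree_cutT (by decide +kernel) (checkTree_cutY (by decide +kernel) superSU100_2_c10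 superSU100_2_c11) (checkTree_cutY (by decide +kernel) (checkTree_cutT (by decide +kernel) (checkTree_cutY (by decide +kernel) superSU100_2_c12 superSU100_2_c13) (checkTree_cutY (by decide +kernel) superSU100_2_c14 (checkTree_cutT (by decide +kernel) superSU100_2_c15 (checkTree_cutY (by decide +kernel) superSU100_2_c16 superSU100_2_c17)))) superSU100_2_c18)) superSU100_2_c19)) superSU100_2_c20)
    (checkAll_headTail (by decide +kernel)
    (checkTree_cutY (by decide +kernel) superSU100_2_c21 superSU100_2_c22)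
    superSU100_2_rest))

theorem superSU100_j : checkAll gridSU100.box ([junctionPoly famSU1002 famSU1003 (CertGrid.chart (junctionSU100.qp QP.X) (junctionSU100.qp QP.X))])
    [.leaf] = true := by decide +kernel

theorem superSU100_3 : checkAll gridSU100.box (fluxPoly famSU1003 (CertGrid.chart (junctionSU100.qp QP.X) (gridSU100.Y₃.qp QP.X)) :: superPolys potSU100 famSU1003 (CertGrid.chart (junctionSU100.qp QP.X) (gridSU100.Y₃.qp QP.X)))
    [.leaf, .leaf, (.cutY 353946828800 (.cutT 6160908288 (.cutY 176973414400 .leaf .leaf) (.cutY 176973414400 .leaf .leaf)) .leaf), .leaf, .leaf, .leaf] = true := by decide +kernel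

theorem superSU100_4 : checkAll gridSU100.farBoxS (fluxPoly famSU1003 CertGrid.farChartS :: superPolys potSU100 famSU1003 CertGrid.farChartS)
    [.leaf, .leaf, .leaf, .leaf, .leaf, .leaf] = true := by decide +kernel

/-- The supersolutions of the data. -/
theorem superSU100_check : splitCheck potSU100 famSU1000 famSU1001 famSU1002 famSU1003 gridSU100
    junctionSU100
    [.leaf, .leaf, .leaf, .leaf, .leaf, .leaf, .leaf, .leaf, .leaf, .leaf, .leaf, .leaf, .leaf]
    [.leaf, .leaf, .leaf, .leaf, .leaf]
    [.leaf, .leaf, .leaf, .leaf, .leaf]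
    [(.cutY 353946828800 (.cutT 6160908288 (.cutY 176973414400 (.cutT 5701894144 (.cutY 88486707200 (.cutT 5472387072 (.cutY 44243353600 .leaf (.cutT 5357633536 (.cutY 66365030400 (.cutT 5300256768 (.cutY 55304192000 .leaf .leaf) (.cutY 55304192000 .leaf .leaf)) .leaf) (.cutY 66365030400 .leaf .leaf))) (.cutY 44243353600 .leaf (.cutT 5587140608 (.cutY 66365030400 .leaf .leaf) (.cutY 66365030400 .leaf .leaf)))) .leaf) (.cutY 88486707200 (.cutT 5931401216 (.cutY 44243353600 .leaf .leaf) (.cutY 44243353600 .leaf .leaf)) .leaf)) .leaf) (.cutY 176973414400 (.cutT 6619922432 (.cutY 88486707200 (.cutT 6390415360 (.cutY 44243353600 .leaf .leaf) (.cutY 44243353600 .leaf .leaf)) .leaf) (.cutY 88486707200 (.cutT 6849429504 (.cutY 44243353600 .leaf (.cutT 6734675968 (.cutY 66365030400 .leaf .leaf) (.cutY 66365030400 .leaf .leaf))) (.cutY 44243353600 .leaf (.cutT 6964183040 (.cutY 66365030400 .leaf .leaf) (.cutY 66365030400 (.cutT 7021559808 (.cutY 55304192000 .leaf .leaf) (.cutY 55304192000 .leaf .leaf)) .leaf)))) .leaf)) .leaf))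 .leaf), (.cutY 353946828800 (.cutT 6160908288 (.cutY 176973414400 .leaf .leaf) (.cutY 176973414400 .leaf .leaf)) .leaf), .leaf, .leaf, .leaf]
    [.leaf]
    [.leaf, .leaf, (.cutY 353946828800 (.cutT 6160908288 (.cutY 176973414400 .leaf .leaf) (.cutY 176973414400 .leaf .leaf)) .leaf), .leaf, .leaf, .leaf]
    [.leaf, .leaf, .leaf, .leaf, .leaf, .leaf] = true :=
  splitCheck_of_parts superSU100_g superSU100_0 superSU100_1 superSU100_2 superSU100_j superSU100_3
    ((if_neg (by decide)).trans superSU100_4)

end Vale.Agent.P237.Quant
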