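import Vale.Agent.P237.Quant.PosData.SU135SuperPolys

/-!
Parts of the heavy checks of a spectral certificate, evaluated in the kernel.
-/

namespace Vale.Agent.P237.Quant

open Four.Checker

theorem superSU135_2_c24 : QP.checkTree elemSU135_2_0 ⟨1486498037760, 9044492288, 9290317824, 92906127360, 139359191040⟩
    (.cutT 9167405056 (.cutY 116132659200 .leaf .leaf) (.cutY 116132659200 .leaf .leaf)) = true := by decide +kernel

theorem superSU135_2_c25 : QP.checkTree elemSU135_2_0 ⟨1486498037760, 9044492288, 9290317824, 139359191040, 185812254720⟩
    .leaf = true := by decide +kernel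

theorem superSU135_2_c26 : QP.checkTree elemSU135_2_0 ⟨1486498037760, 9290317824, 9536143360, 92906127360, 139359191040⟩
    (.cutT 9413230592 (.cutY 116132659200 .leaf .leaf) (.cutY 116132659200 .leaf .leaf)) = true := by decide +kernel

theorem superSU135_2_c27 : QP.checkTree elemSU135_2_0 ⟨1486498037760, 9290317824, 9536143360, 139359191040, 185812254720⟩
    .leaf = true := by decide +kernel

theorem superSU135_2_c28 : QP.checkTree elemSU135_2_0 ⟨1486498037760, 9536143360, 10027794432, 0, 92906127360⟩
    .leaf = true := by decide +kernel

theorem superSU135_2_c29 : QP.checkTree elemSU135_2_0 ⟨1486498037760, 9536143360, 9781968896, 92906127360, 139359191040⟩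
    (.cutT 9659056128 (.cutY 116132659200 .leaf .leaf) (.cutY 116132659200 .leaf .leaf)) = true := by decide +kernel

theorem superSU135_2_c30 : QP.checkTree elemSU135_2_0 ⟨1486498037760, 9536143360, 9781968896, 139359191040, 185812254720⟩
    .leaf = true := by decide +kernel

theorem superSU135_2_c31 : QP.checkTree elemSU135_2_0 ⟨1486498037760, 9781968896, 10027794432, 92906127360, 139359191040⟩
    (.cutT 9904881664 (.cutY 116132659200 .leaf .leaf) (.cutY 116132659200 .leaf .leaf)) = true := by decide +kernel

end Vale.Agent.P237.Quant
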