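import Vale.Agent.P237.Quant.PosData.SU135SuperPolys

/-!
Parts of the heavy checks of a spectral certificate, evaluated in the kernel.
-/

namespace Vale.Agent.P237.Quant

open Four.Checker

theorem superSU135_2_c32 : QP.checkTree elemSU135_2_0 ⟨1486498037760, 9781968896, 10027794432, 139359191040, 185812254720⟩
    .leaf = true := by decide +kernel

theorem superSU135_2_c33 : QP.checkTree elemSU135_2_0 ⟨1486498037760, 9044492288, 10027794432, 185812254720, 371624509440⟩
    .leaf = true := by decide +kernel

theorem superSU135_2_c34 : QP.checkTree elemSU135_2_0 ⟨1486498037760, 10027794432, 10519445504, 0, 92906127360⟩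
    .leaf = true := by decide +kernel

theorem superSU135_2_c35 : QP.checkTree elemSU135_2_0 ⟨1486498037760, 10027794432, 10273619968, 92906127360, 139359191040⟩
    (.cutT 10150707200 (.cutY 116132659200 .leaf .leaf) (.cutY 116132659200 .leaf .leaf)) = true := by decide +kernel

theorem superSU135_2_c36 : QP.checkTree elemSU135_2_0 ⟨1486498037760, 10027794432, 10273619968, 139359191040, 185812254720⟩
    .leaf = true := by decide +kernel

theorem superSU135_2_c37 : QP.checkTree elemSU135_2_0 ⟨1486498037760, 10273619968, 10519445504, 92906127360, 139359191040⟩
    (.cutT 10396532736 (.cutY 116132659200 .leaf .leaf) (.cutY 116132659200 .leaf .leaf)) = true := by decide +kernel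

theorem superSU135_2_c38 : QP.checkTree elemSU135_2_0 ⟨1486498037760, 10273619968, 10519445504, 139359191040, 185812254720⟩
    .leaf = true := by decide +kernel

theorem superSU135_2_c39 : QP.checkTree elemSU135_2_0 ⟨1486498037760, 10519445504, 11011096576, 0, 92906127360⟩
    .leaf = true := by decide +kernel

end Vale.Agent.P237.Quant
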