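import Vale.Agent.P237.Quant.PosData.SU135SuperPolys

/-!
Parts of the heavy checks of a spectral certificate, evaluated in the kernel.
-/

namespace Vale.Agent.P237.Quant

open Four.Checker

theorem superSU135_2_c40 : QP.checkTree elemSU135_2_0 ⟨1486498037760, 10519445504, 10765271040, 92906127360, 139359191040⟩
    (.cutT 10642358272 (.cutY 116132659200 .leaf .leaf) (.cutY 116132659200 .leaf .leaf)) = true := by decide +kernel

theorem superSU135_2_c41 : QP.checkTree elemSU135_2_0 ⟨1486498037760, 10519445504, 10765271040, 139359191040, 185812254720⟩
    .leaf = true := by decide +kernel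

theorem superSU135_2_c42 : QP.checkTree elemSU135_2_0 ⟨1486498037760, 10765271040, 11011096576, 92906127360, 139359191040⟩
    (.cutT 10888183808 (.cutY 116132659200 .leaf .leaf) (.cutY 116132659200 .leaf .leaf)) = true := by decide +kernel

theorem superSU135_2_c43 : QP.checkTree elemSU135_2_0 ⟨1486498037760, 10765271040, 11011096576, 139359191040, 185812254720⟩
    .leaf = true := by decide +kernel

theorem superSU135_2_c44 : QP.checkTree elemSU135_2_0 ⟨1486498037760, 10027794432, 11011096576, 185812254720, 371624509440⟩
    .leaf = true := by decide +kernel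

theorem superSU135_2_c45 : QP.checkTree elemSU135_2_0 ⟨1486498037760, 9044492288, 11011096576, 371624509440, 743249018880⟩
    .leaf = true := by decide +kernel

theorem superSU135_2_c46 : QP.checkTree elemSU135_2_0 ⟨1486498037760, 7077888000, 11011096576, 743249018880, 1486498037760⟩
    (.cutT 9044492288 .leaf (.cutY 1114873528320 .leaf .leaf)) = true := by decide +kernel

theorem superSU135_2_c47 : QP.checkTree elemSU135_2_1 ⟨1486498037760, 7077888000, 11011096576, 0, 743249018880⟩
    (.cutT 9044492288 (.cutY 371624509440 .leaf .leaf) (.cutY 371624509440 .leaf .leaf)) = true := by decide +kernel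

end Vale.Agent.P237.Quant
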