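import Vale.Agent.P237.Quant.PosData.SU135SuperPolys

/-!
Parts of the heavy checks of a spectral certificate, evaluated in the kernel.
-/

namespace Vale.Agent.P237.Quant

open Four.Checker

theorem superSU135_2_c48 : QP.checkTree elemSU135_2_1 ⟨1486498037760, 7077888000, 11011096576, 743249018880, 1486498037760⟩
    .leaf = true := by decide +kernel

theorem superSU135_2_rest : checkAll ⟨1486498037760, 7077888000, 11011096576, 0, 1486498037760⟩ (polysSU135_2.tail.tail)
    [.leaf, .leaf, .leaf] = true := by decide +kernel

theorem superSU135_3_c50 : QP.checkTree elemSU135_3_0 ⟨1486498037760, 7077888000, 11011096576, 0, 1486498037760⟩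
    .leaf = true := by decide +kernel

theorem superSU135_3_c51 : QP.checkTree elemSU135_3_1 ⟨1486498037760, 7077888000, 11011096576, 0, 1486498037760⟩
    .leaf = true := by decide +kernel

theorem superSU135_3_c52 : QP.checkTree elemSU135_3_2 ⟨1486498037760, 7077888000, 11011096576, 0, 743249018880⟩
    (.cutT 9044492288 (.cutY 371624509440 .leaf .leaf) (.cutY 371624509440 .leaf .leaf)) = true := by decide +kernel

theorem superSU135_3_c53 : QP.checkTree elemSU135_3_2 ⟨1486498037760, 7077888000, 9044492288, 743249018880, 1486498037760⟩
    .leaf = true := by decide +kernel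

theorem superSU135_3_c54 : QP.checkTree elemSU135_3_2 ⟨1486498037760, 9044492288, 11011096576, 743249018880, 1114873528320⟩
    .leaf = true := by decide +kernel

theorem superSU135_3_c55 : QP.checkTree elemSU135_3_2 ⟨1486498037760, 9044492288, 10027794432, 1114873528320, 1486498037760⟩
    .leaf = true := by decide +kernel

end Vale.Agent.P237.Quant
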