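import Vale.Agent.P237.Quant.PosData.SU135SuperPolys

/-!
Parts of the heavy checks of a spectral certificate, evaluated in the kernel.
-/

namespace Vale.Agent.P237.Quant

open Four.Checker

theorem superSU135_3_c56 : QP.checkTree elemSU135_3_2 ⟨1486498037760, 10027794432, 11011096576, 1114873528320, 1300685783040⟩
    .leaf = true := by decide +kernel

theorem superSU135_3_c57 : QP.checkTree elemSU135_3_2 ⟨1486498037760, 10027794432, 10519445504, 1300685783040, 1486498037760⟩
    .leaf = true := by decide +kernel

theorem superSU135_3_c58 : QP.checkTree elemSU135_3_2 ⟨1486498037760, 10519445504, 11011096576, 1300685783040, 1486498037760⟩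
    (.cutY 1393591910400 .leaf (.cutT 10765271040 .leaf (.cutY 1440044974080 .leaf .leaf))) = true := by decide +kernel

theorem superSU135_3_rest : checkAll ⟨1486498037760, 7077888000, 11011096576, 0, 1486498037760⟩ (polysSU135_3.tail.tail.tail)
    [.leaf, .leaf, .leaf] = true := by decide +kernel

theorem superSU135_4_c60 : QP.checkTree elemSU135_4_0 ⟨1486498037760, 0, 530983157761, 7077888000, 11011096576⟩
    .leaf = true := by decide +kernel

theorem superSU135_4_c61 : QP.checkTree elemSU135_4_1 ⟨1486498037760, 0, 530983157761, 7077888000, 11011096576⟩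
    .leaf = true := by decide +kernel

theorem superSU135_4_c62 : QP.checkTree elemSU135_4_2 ⟨1486498037760, 0, 530983157761, 7077888000, 9044492288⟩
    (.cutT 265491578880 .leaf .leaf) = true := by decide +kernel

theorem superSU135_4_c63 : QP.checkTree elemSU135_4_2 ⟨1486498037760, 0, 265491578880, 9044492288, 10027794432⟩
    (.cutT 132745789440 .leaf .leaf) = true := by decide +kernel

end Vale.Agent.P237.Quant
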