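import Vale.Agent.P237.Quant.PosData.SU135SuperPolys

/-!
Parts of the heavy checks of a spectral certificate, evaluated in the kernel.
-/

namespace Vale.Agent.P237.Quant

open Four.Checker

theorem superSU135_4_c64 : QP.checkTree elemSU135_4_2 ⟨1486498037760, 0, 132745789440, 10027794432, 10519445504⟩
    (.cutT 66372894720 .leaf .leaf) = true := by decide +kernel

theorem superSU135_4_c65 : QP.checkTree elemSU135_4_2 ⟨1486498037760, 0, 132745789440, 10519445504, 11011096576⟩
    (.cutT 66372894720 (.cutY 10765271040 .leaf (.cutT 33186447360 .leaf .leaf)) .leaf) = true := by decide +kernel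

theorem superSU135_4_c66 : QP.checkTree elemSU135_4_2 ⟨1486498037760, 132745789440, 265491578880, 10027794432, 11011096576⟩
    .leaf = true := by decide +kernel

theorem superSU135_4_c67 : QP.checkTree elemSU135_4_2 ⟨1486498037760, 265491578880, 530983157761, 9044492288, 11011096576⟩
    .leaf = true := by decide +kernel

theorem superSU135_4_rest : checkAll ⟨1486498037760, 0, 530983157761, 7077888000, 11011096576⟩ (polysSU135_4.tail.tail.tail)
    [.leaf, .leaf, .leaf] = true := by decide +kernel

end Vale.Agent.P237.Quant
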