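import Vale.Agent.P237.Quant.PosData.SU135SuperPart0
import Vale.Agent.P237.Quant.PosData.SU135SuperPart1
import Vale.Agent.P237.Quant.PosData.SU135SuperPart2
import Vale.Agent.P237.Quant.PosData.SU135SuperPart3
import Vale.Agent.P237.Quant.PosData.SU135SuperPart4
import Vale.Agent.P237.Quant.PosData.SU135SuperPart5
import Vale.Agent.P237.Quant.PosData.SU135SuperPart6
import Vale.Agent.P237.Quant.PosData.SU135SuperPart7
import Vale.Agent.P237.Quant.PosData.SU135SuperPart8

/-!
Data of a spectral certificate, checked by evaluation in the kernel.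
-/

namespace Vale.Agent.P237.Quant

open Four.Checker

theorem superSU135_g : checkAll gridSU135.box (potSU135.cen.qp QP.X :: potSU135.s0.qp QP.X :: (((junctionSU135.qp QP.X).sub (gridSU135.Y₂.qp QP.X)).sub (QP.const 1 999999)) :: (((gridSU135.Y₃.qp QP.X).sub (junctionSU135.qp QP.X)).sub (QP.const 1 999999)) :: (((QP.const 1 0).sub (QP.X.mul (junctionSU135.qp QP.X))).sub (QP.const 1 999999)) :: gridSU135.gridPolys)
    [.leaf, .leaf, .leaf, .leaf, .leaf, .leaf, .leaf, .leaf, .leaf, .leaf, .leaf, .leaf, .leaf] = true := by decide +kernel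

theorem superSU135_0 : checkAll gridSU135.box (superPolys potSU135 famSU1350 (CertGrid.chart (QP.const 0 0) (gridSU135.Y₁.qp QP.X)))
    [.leaf, .leaf, .leaf, .leaf, .leaf] = true := by decide +kernel

theorem superSU135_1 : checkAll gridSU135.box (superPolys potSU135 famSU1351 (CertGrid.chart (gridSU135.Y₁.qp QP.X) (gridSU135.Y₂.qp QP.X)))
    [.leaf, .leaf, .leaf, .leaf, .leaf] = true := by decide +kernel

theorem superSU135_2 : checkAll gridSU135.box (superPolys potSU135 famSU1352 (CertGrid.chart (gridSU135.Y₂.qp QP.X) (junctionSU135.qp QP.X)))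
    [(.cutY 743249018880 (.cutT 9044492288 (.cutY 371624509440 (.cutT 8061190144 (.cutY 185812254720 (.cutT 7569539072 (.cutY 92906127360 .leaf (.cutT 7323713536 (.cutY 139359191040 (.cutT 7200800768 (.cutY 116132659200 .leaf .leaf) (.cutY 116132659200 .leaf .leaf)) .leaf) (.cutY 139359191040 (.cutT 7446626304 (.cutY 116132659200 .leaf .leaf) (.cutY 116132659200 .leaf .leaf)) .leaf))) (.cutY 92906127360 .leaf (.cutT 7815364608 (.cutY 139359191040 (.cutT 7692451840 (.cutY 116132659200 .leaf .leaf) (.cutY 116132659200 .leaf .leaf)) .leaf) (.cutY 139359191040 (.cutT 7938277376 (.cutY 116132659200 .leaf .leaf) (.cutY 116132659200 .leaf .leaf)) .leaf)))) .leaf) (.cutY 185812254720 (.cutT 8552841216 (.cutY 92906127360 .leaf (.cutT 8307015680 (.cutY 139359191040 (.cutT 8184102912 (.cutY 116132659200 .leaf .leaf) (.cutY 116132659200 .leaf .leaf)) .leaf) (.cutY 139359191040 (.cutT 8429928448 (.cutY 116132659200 .leaf .leaf) (.cutY 116132659200 .leaf .leaf)) .leaf))) (.cutY 92906127360 .leaf (.cutT 8798666752 (.cutY 139359191040 (.cutT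 8675753984 (.cutY 116132659200 .leaf .leaf) (.cutY 116132659200 .leaf .leaf)) .leaf) (.cutY 139359191040 (.cutT 8921579520 (.cutY 116132659200 .leaf .leaf) (.cutY 116132659200 .leaf .leaf)) .leaf)))) .leaf)) .leaf) (.cutY 371624509440 (.cutT 10027794432 (.cutY 185812254720 (.cutT 9536143360 (.cutY 92906127360 .leaf (.cutT 9290317824 (.cutY 139359191040 (.cutT 9167405056 (.cutY 116132659200 .leaf .leaf) (.cutY 116132659200 .leaf .leaf)) .leaf) (.cutY 139359191040 (.cutT 9413230592 (.cutY 116132659200 .leaf .leaf) (.cutY 116132659200 .leaf .leaf)) .leaf))) (.cutY 92906127360 .leaf (.cutT 9781968896 (.cutY 139359191040 (.cutT 9659056128 (.cutY 116132659200 .leaf .leaf) (.cutY 116132659200 .leaf .leaf)) .leaf) (.cutY 139359191040 (.cutT 9904881664 (.cutY 116132659200 .leaf .leaf) (.cutY 116132659200 .leaf .leaf)) .leaf)))) .leaf) (.cutY 185812254720 (.cutT 10519445504 (.cutY 92906127360 .leaf (.cutT 10273619968 (.cutY 139359191040 (.cutT 10150707200 (.cutY 116132659200 .leaf .leaf) (.cutY 116132659200 .leaf .leaf)) .leaf) (.cutY 139359191040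 (.cutT 10396532736 (.cutY 116132659200 .leaf .leaf) (.cutY 116132659200 .leaf .leaf)) .leaf))) (.cutY 92906127360 .leaf (.cutT 10765271040 (.cutY 139359191040 (.cutT 10642358272 (.cutY 116132659200 .leaf .leaf) (.cutY 116132659200 .leaf .leaf)) .leaf) (.cutY 139359191040 (.cutT 10888183808 (.cutY 116132659200 .leaf .leaf) (.cutY 116132659200 .leaf .leaf)) .leaf)))) .leaf)) .leaf)) (.cutT 9044492288 .leaf (.cutY 1114873528320 .leaf .leaf))), (.cutY 743249018880 (.cutT 9044492288 (.cutY 371624509440 .leaf .leaf) (.cutY 371624509440 .leaf .leaf)) .leaf), .leaf, .leaf, .leaf] = true :=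
  (checkAll_headTail (by decide +kernel)
    (checkTree_cutY (by decide +kernel) (checkTree_cutT (by decide +kernel) (checkTree_cutY (by decide +kernel) (checkTree_cutT (by decide +kernel) (checkTree_cutY (by decide +kernel) (checkTree_cutT (by decide +kernel) (checkTree_cutY (by decide +kernel) superSU135_2_c0 (checkTree_cutT (by decide +kernel) (checkTree_cutY (by decide +kernel) superSU135_2_c1 superSU135_2_c2) (checkTree_cutY (by decide +kernel) superSU135_2_c3 superSU135_2_c4))) (checkTree_cutY (by decide +kernel) superSU135_2_c5 (checkTree_cutT (by decide +kernel) (checkTree_cutY (by decide +kernel) superSU135_2_c6 superSU135_2_c7) (checkTree_cutY (by decide +kernel) superSU135_2_c8 superSU135_2_c9)))) superSU135_2_c10) (checkTree_cutY (by decide +kernel) (checkTree_cutT (by decide +kernel) (checkTree_cutY (by decide +kernel) superSU135_2_c11 (checkTree_cutT (by decide +kernel) (checkTree_cutY (by decide +kernel) superSU135_2_c12 superSU135_2_c13) (checkTree_cutY (by decide +kernel) superSU135_2_c14 superSU135_2_c15))) (checkTree_cutY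 (by decide +kernel) superSU135_2_c16 (checkTree_cutT (by decide +kernel) (checkTree_cutY (by decide +kernel) superSU135_2_c17 superSU135_2_c18) (checkTree_cutY (by decide +kernel) superSU135_2_c19 superSU135_2_c20)))) superSU135_2_c21)) superSU135_2_c22) (checkTree_cutY (by decide +kernel) (checkTree_cutT (by decide +kernel) (checkTree_cutY (by decide +kernel) (checkTree_cutT (by decide +kernel) (checkTree_cutY (by decide +kernel) superSU135_2_c23 (checkTree_cutT (by decide +kernel) (checkTree_cutY (by decide +kernel) superSU135_2_c24 superSU135_2_c25) (checkTree_cutY (by decide +kernel) superSU135_2_c26 superSU135_2_c27))) (checkTree_cutY (by decide +kernel) superSU135_2_c28 (checkTree_cutT (by decide +kernel) (checkTree_cutY (by decide +kernel) superSU135_2_c29 superSU135_2_c30) (checkTree_cutY (by decide +kernel) superSU135_2_c31 superSU135_2_c32)))) superSU135_2_c33) (checkTree_cutY (by decide +kernel) (checkTree_cutT (by decide +kernel) (checkTree_cutY (by decide +kernel) superSU135_2_c34 (checkTree_cutT (by decide +kernel)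 (checkTree_cutY (by decide +kernel) superSU135_2_c35 superSU135_2_c36) (checkTree_cutY (by decide +kernel) superSU135_2_c37 superSU135_2_c38))) (checkTree_cutY (by decide +kernel) superSU135_2_c39 (checkTree_cutT (by decide +kernel) (checkTree_cutY (by decide +kernel) superSU135_2_c40 superSU135_2_c41) (checkTree_cutY (by decide +kernel) superSU135_2_c42 superSU135_2_c43)))) superSU135_2_c44)) superSU135_2_c45)) superSU135_2_c46)
    (checkAll_headTail (by decide +kernel)
    (checkTree_cutY (by decide +kernel) superSU135_2_c47 superSU135_2_c48)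
    superSU135_2_rest))

theorem superSU135_j : checkAll gridSU135.box ([junctionPoly famSU1352 famSU1353 (CertGrid.chart (junctionSU135.qp QP.X) (junctionSU135.qp QP.X))])
    [.leaf] = true := by decide +kernel

theorem superSU135_3 : checkAll gridSU135.box (fluxPoly famSU1353 (CertGrid.chart (junctionSU135.qp QP.X) (gridSU135.Y₃.qp QP.X)) :: superPolys potSU135 famSU1353 (CertGrid.chart (junctionSU135.qp QP.X) (gridSU135.Y₃.qp QP.X)))
    [.leaf, .leaf, (.cutY 743249018880 (.cutT 9044492288 (.cutY 371624509440 .leaf .leaf) (.cutY 371624509440 .leaf .leaf)) (.cutT 9044492288 .leaf (.cutY 1114873528320 .leaf (.cutT 10027794432 .leaf (.cutY 1300685783040 .leaf (.cutT 10519445504 .leaf (.cutY 1393591910400 .leaf (.cutT 10765271040 .leaf (.cutY 1440044974080 .leaf .leaf))))))))), .leaf, .leaf, .leaf] = true :=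
  (checkAll_headTail (by decide +kernel)
    superSU135_3_c50
    (checkAll_headTail (by decide +kernel)
    superSU135_3_c51
    (checkAll_headTail (by decide +kernel)
    (checkTree_cutY (by decide +kernel) superSU135_3_c52 (checkTree_cutT (by decide +kernel) superSU135_3_c53 (checkTree_cutY (by decide +kernel) superSU135_3_c54 (checkTree_cutT (by decide +kernel) superSU135_3_c55 (checkTree_cutY (by decide +kernel) superSU135_3_c56 (checkTree_cutT (by decide +kernel) superSU135_3_c57 superSU135_3_c58))))))
    superSU135_3_rest)))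

theorem superSU135_4 : checkAll gridSU135.farBoxS (fluxPoly famSU1353 CertGrid.farChartS :: superPolys potSU135 famSU1353 CertGrid.farChartS)
    [.leaf, .leaf, (.cutY 9044492288 (.cutT 265491578880 .leaf .leaf) (.cutT 265491578880 (.cutY 10027794432 (.cutT 132745789440 .leaf .leaf) (.cutT 132745789440 (.cutY 10519445504 (.cutT 66372894720 .leaf .leaf) (.cutT 66372894720 (.cutY 10765271040 .leaf (.cutT 33186447360 .leaf .leaf)) .leaf)) .leaf)) .leaf)), .leaf, .leaf, .leaf] = true :=
  (checkAll_headTail (by decide +kernel)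
    superSU135_4_c60
    (checkAll_headTail (by decide +kernel)
    superSU135_4_c61
    (checkAll_headTail (by decide +kernel)
    (checkTree_cutY (by decide +kernel) superSU135_4_c62 (checkTree_cutT (by decide +kernel) (checkTree_cutY (by decide +kernel) superSU135_4_c63 (checkTree_cutT (by decide +kernel) (checkTree_cutY (by decide +kernel) superSU135_4_c64 superSU135_4_c65) superSU135_4_c66)) superSU135_4_c67))
    superSU135_4_rest)))

/-- The supersolutions of the data. -/
theorem superSU135_check : splitCheck potSU135 famSU1350 famSU1351 famSU1352 famSU1353 gridSU135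
    junctionSU135
    [.leaf, .leaf, .leaf, .leaf, .leaf, .leaf, .leaf, .leaf, .leaf, .leaf, .leaf, .leaf, .leaf]
    [.leaf, .leaf, .leaf, .leaf, .leaf]
    [.leaf, .leaf, .leaf, .leaf, .leaf]
    [(.cutY 743249018880 (.cutT 9044492288 (.cutY 371624509440 (.cutT 8061190144 (.cutY 185812254720 (.cutT 7569539072 (.cutY 92906127360 .leaf (.cutT 7323713536 (.cutY 139359191040 (.cutT 7200800768 (.cutY 116132659200 .leaf .leaf) (.cutY 116132659200 .leaf .leaf)) .leaf) (.cutY 139359191040 (.cutT 7446626304 (.cutY 116132659200 .leaf .leaf) (.cutY 116132659200 .leaf .leaf)) .leaf))) (.cutY 92906127360 .leaf (.cutT 7815364608 (.cutY 139359191040 (.cutT 7692451840 (.cutY 116132659200 .leaf .leaf) (.cutY 116132659200 .leaf .leaf)) .leaf) (.cutY 139359191040 (.cutT 7938277376 (.cutY 116132659200 .leaf .leaf) (.cutY 116132659200 .leaf .leaf)) .leaf)))) .leaf) (.cutY 185812254720 (.cutT 8552841216 (.cutY 92906127360 .leaf (.cutT 8307015680 (.cutY 139359191040 (.cutT 8184102912 (.cutY 116132659200 .leaf .leaf) (.cutY 116132659200 .leaf .leaf))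 .leaf) (.cutY 139359191040 (.cutT 8429928448 (.cutY 116132659200 .leaf .leaf) (.cutY 116132659200 .leaf .leaf)) .leaf))) (.cutY 92906127360 .leaf (.cutT 8798666752 (.cutY 139359191040 (.cutT 8675753984 (.cutY 116132659200 .leaf .leaf) (.cutY 116132659200 .leaf .leaf)) .leaf) (.cutY 139359191040 (.cutT 8921579520 (.cutY 116132659200 .leaf .leaf) (.cutY 116132659200 .leaf .leaf)) .leaf)))) .leaf)) .leaf) (.cutY 371624509440 (.cutT 10027794432 (.cutY 185812254720 (.cutT 9536143360 (.cutY 92906127360 .leaf (.cutT 9290317824 (.cutY 139359191040 (.cutT 9167405056 (.cutY 116132659200 .leaf .leaf) (.cutY 116132659200 .leaf .leaf)) .leaf) (.cutY 139359191040 (.cutT 9413230592 (.cutY 116132659200 .leaf .leaf) (.cutY 116132659200 .leaf .leaf)) .leaf))) (.cutY 92906127360 .leaf (.cutT 9781968896 (.cutY 139359191040 (.cutT 9659056128 (.cutY 116132659200 .leaf .leaf) (.cutY 116132659200 .leaf .leaf)) .leaf) (.cutY 139359191040 (.cutT 9904881664 (.cutY 116132659200 .leaf .leaf) (.cutY 116132659200 .leaf .leaf)) .leaf)))) .leaf) (.cutY 185812254720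 (.cutT 10519445504 (.cutY 92906127360 .leaf (.cutT 10273619968 (.cutY 139359191040 (.cutT 10150707200 (.cutY 116132659200 .leaf .leaf) (.cutY 116132659200 .leaf .leaf)) .leaf) (.cutY 139359191040 (.cutT 10396532736 (.cutY 116132659200 .leaf .leaf) (.cutY 116132659200 .leaf .leaf)) .leaf))) (.cutY 92906127360 .leaf (.cutT 10765271040 (.cutY 139359191040 (.cutT 10642358272 (.cutY 116132659200 .leaf .leaf) (.cutY 116132659200 .leaf .leaf)) .leaf) (.cutY 139359191040 (.cutT 10888183808 (.cutY 116132659200 .leaf .leaf) (.cutY 116132659200 .leaf .leaf)) .leaf)))) .leaf)) .leaf)) (.cutT 9044492288 .leaf (.cutY 1114873528320 .leaf .leaf))), (.cutY 743249018880 (.cutT 9044492288 (.cutY 371624509440 .leaf .leaf) (.cutY 371624509440 .leaf .leaf)) .leaf), .leaf, .leaf, .leaf]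
    [.leaf]
    [.leaf, .leaf, (.cutY 743249018880 (.cutT 9044492288 (.cutY 371624509440 .leaf .leaf) (.cutY 371624509440 .leaf .leaf)) (.cutT 9044492288 .leaf (.cutY 1114873528320 .leaf (.cutT 10027794432 .leaf (.cutY 1300685783040 .leaf (.cutT 10519445504 .leaf (.cutY 1393591910400 .leaf (.cutT 10765271040 .leaf (.cutY 1440044974080 .leaf .leaf))))))))), .leaf, .leaf, .leaf]
    [.leaf, .leaf, (.cutY 9044492288 (.cutT 265491578880 .leaf .leaf) (.cutT 265491578880 (.cutY 10027794432 (.cutT 132745789440 .leaf .leaf) (.cutT 132745789440 (.cutY 10519445504 (.cutT 66372894720 .leaf .leaf) (.cutT 66372894720 (.cutY 10765271040 .leaf (.cutT 33186447360 .leaf .leaf)) .leaf)) .leaf)) .leaf)), .leaf, .leaf, .leaf] = true :=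
  splitCheck_of_parts superSU135_g superSU135_0 superSU135_1 superSU135_2 superSU135_j superSU135_3
    ((if_neg (by decide)).trans superSU135_4)

end Vale.Agent.P237.Quant
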