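import Vale.Agent.P237.Quant.PosData.SU210SuperPolys

/-!
Parts of the heavy checks of a spectral certificate, evaluated in the kernel.
-/

namespace Vale.Agent.P237.Quant

open Four.Checker

theorem superSU210_2_c8 : QP.checkTree elemSU210_2_0 ⟨660602880, 2097152, 2621440, 165150720, 330301440⟩
    .leaf = true := by decide +kernel

theorem superSU210_2_c9 : QP.checkTree elemSU210_2_0 ⟨660602880, 2621440, 2883584, 0, 82575360⟩
    (.cutT 2752512 (.cutY 41287680 .leaf .leaf) (.cutY 41287680 .leaf .leaf)) = true := by decide +kernel

theorem superSU210_2_c10 : QP.checkTree elemSU210_2_0 ⟨660602880, 2621440, 2883584, 82575360, 165150720⟩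
    .leaf = true := by decide +kernel

theorem superSU210_2_c11 : QP.checkTree elemSU210_2_0 ⟨660602880, 2883584, 3014656, 0, 82575360⟩
    (.cutY 41287680 .leaf (.cutT 2949120 .leaf (.cutY 61931520 .leaf .leaf))) = true := by decide +kernel

theorem superSU210_2_c12 : QP.checkTree elemSU210_2_0 ⟨660602880, 3014656, 3145728, 0, 41287680⟩
    .leaf = true := by decide +kernel

theorem superSU210_2_c13 : QP.checkTree elemSU210_2_0 ⟨660602880, 3014656, 3145728, 41287680, 82575360⟩
    (.cutT 3080192 (.cutY 61931520 .leaf .leaf) (.cutY 61931520 .leaf .leaf)) = true := by decide +kernel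

theorem superSU210_2_c14 : QP.checkTree elemSU210_2_0 ⟨660602880, 2883584, 3145728, 82575360, 165150720⟩
    .leaf = true := by decide +kernel

theorem superSU210_2_c15 : QP.checkTree elemSU210_2_0 ⟨660602880, 2621440, 3145728, 165150720, 330301440⟩
    .leaf = true := by decide +kernel

end Vale.Agent.P237.Quant
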