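import Vale.Agent.P237.Quant.PosData.SU210SuperPolys

/-!
Parts of the heavy checks of a spectral certificate, evaluated in the kernel.
-/

namespace Vale.Agent.P237.Quant

open Four.Checker

theorem superSU210_2_c16 : QP.checkTree elemSU210_2_0 ⟨660602880, 2097152, 3145728, 330301440, 660602880⟩
    .leaf = true := by decide +kernel

theorem superSU210_2_c17 : QP.checkTree elemSU210_2_1 ⟨660602880, 2097152, 3145728, 0, 330301440⟩
    (.cutT 2621440 (.cutY 165150720 .leaf .leaf) (.cutY 165150720 .leaf .leaf)) = true := by decide +kernel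

theorem superSU210_2_c18 : QP.checkTree elemSU210_2_1 ⟨660602880, 2097152, 3145728, 330301440, 660602880⟩
    .leaf = true := by decide +kernel

theorem superSU210_2_rest : checkAll ⟨660602880, 2097152, 3145728, 0, 660602880⟩ (polysSU210_2.tail.tail)
    [.leaf, .leaf, .leaf] = true := by decide +kernel

theorem superSU210_3_c20 : QP.checkTree elemSU210_3_0 ⟨660602880, 2097152, 3145728, 0, 660602880⟩
    .leaf = true := by decide +kernel

theorem superSU210_3_c21 : QP.checkTree elemSU210_3_1 ⟨660602880, 2097152, 3145728, 0, 660602880⟩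
    .leaf = true := by decide +kernel

theorem superSU210_3_c22 : QP.checkTree elemSU210_3_2 ⟨660602880, 2097152, 2621440, 0, 330301440⟩
    (.cutY 165150720 .leaf .leaf) = true := by decide +kernel

theorem superSU210_3_c23 : QP.checkTree elemSU210_3_2 ⟨660602880, 2621440, 3145728, 0, 165150720⟩
    (.cutT 2883584 (.cutY 82575360 .leaf .leaf) (.cutY 82575360 .leaf .leaf)) = true := by decide +kernel

end Vale.Agent.P237.Quant
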