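import Vale.Agent.P237.Quant.PosData.SU210SuperPolys

/-!
Parts of the heavy checks of a spectral certificate, evaluated in the kernel.
-/

namespace Vale.Agent.P237.Quant

open Four.Checker

theorem superSU210_3_c24 : QP.checkTree elemSU210_3_2 ⟨660602880, 2621440, 3145728, 165150720, 330301440⟩
    .leaf = true := by decide +kernel

theorem superSU210_3_c25 : QP.checkTree elemSU210_3_2 ⟨660602880, 2097152, 3145728, 330301440, 660602880⟩
    .leaf = true := by decide +kernel

theorem superSU210_3_rest : checkAll ⟨660602880, 2097152, 3145728, 0, 660602880⟩ (polysSU210_3.tail.tail.tail)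
    [.leaf, .leaf, .leaf] = true := by decide +kernel

end Vale.Agent.P237.Quant
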