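import Vale.Agent.P237.Quant.PosData.SU210SuperPart0
import Vale.Agent.P237.Quant.PosData.SU210SuperPart1
import Vale.Agent.P237.Quant.PosData.SU210SuperPart2
import Vale.Agent.P237.Quant.PosData.SU210SuperPart3

/-!
Data of a spectral certificate, checked by evaluation in the kernel.
-/

namespace Vale.Agent.P237.Quant

open Four.Checker

theorem superSU210_g : checkAll gridSU210.box (potSU210.cen.qp QP.X :: potSU210.s0.qp QP.X :: (((junctionSU210.qp QP.X).sub (gridSU210.Y₂.qp QP.X)).sub (QP.const 1 999999)) :: (((gridSU210.Y₃.qp QP.X).sub (junctionSU210.qp QP.X)).sub (QP.const 1 999999)) :: (((QP.const 1 0).sub (QP.X.mul (junctionSU210.qp QP.X))).sub (QP.const 1 999999)) :: gridSU210.gridPolys)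
    [.leaf, .leaf, .leaf, .leaf, .leaf, .leaf, .leaf, .leaf, .leaf, .leaf, .leaf, .leaf, .leaf] = true := by decide +kernel

theorem superSU210_0 : checkAll gridSU210.box (superPolys potSU210 famSU2100 (CertGrid.chart (QP.const 0 0) (gridSU210.Y₁.qp QP.X)))
    [.leaf, .leaf, .leaf, .leaf, .leaf] = true := by decide +kernel

theorem superSU210_1 : checkAll gridSU210.box (superPolys potSU210 famSU2101 (CertGrid.chart (gridSU210.Y₁.qp QP.X) (gridSU210.Y₂.qp QP.X)))
    [.leaf, .leaf, .leaf, .leaf, .leaf] = true := by decide +kernel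

theorem superSU210_2 : checkAll gridSU210.box (superPolys potSU210 famSU2102 (CertGrid.chart (gridSU210.Y₂.qp QP.X) (junctionSU210.qp QP.X)))
    [(.cutY 330301440 (.cutT 2621440 (.cutY 165150720 (.cutT 2359296 (.cutY 82575360 (.cutT 2228224 (.cutY 41287680 .leaf (.cutT 2162688 (.cutY 61931520 (.cutT 2129920 (.cutY 51609600 .leaf .leaf) .leaf) .leaf) (.cutY 61931520 .leaf .leaf))) (.cutY 41287680 .leaf (.cutT 2293760 (.cutY 61931520 .leaf .leaf) (.cutY 61931520 .leaf .leaf)))) .leaf) (.cutY 82575360 (.cutT 2490368 (.cutY 41287680 .leaf .leaf) (.cutY 41287680 .leaf .leaf)) .leaf)) .leaf) (.cutY 165150720 (.cutT 2883584 (.cutY 82575360 (.cutT 2752512 (.cutY 41287680 .leaf .leaf) (.cutY 41287680 .leaf .leaf)) .leaf) (.cutY 82575360 (.cutT 3014656 (.cutY 41287680 .leaf (.cutT 2949120 .leaf (.cutY 61931520 .leaf .leaf))) (.cutY 41287680 .leaf (.cutT 3080192 (.cutY 61931520 .leaf .leaf) (.cutY 61931520 .leaf .leaf)))) .leaf)) .leaf)) .leaf), (.cutY 330301440 (.cutT 2621440 (.cutY 165150720 .leaf .leaf)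 (.cutY 165150720 .leaf .leaf)) .leaf), .leaf, .leaf, .leaf] = true :=
  (checkAll_headTail (by decide +kernel)
    (checkTree_cutY (by decide +kernel) (checkTree_cutT (by decide +kernel) (checkTree_cutY (by decide +kernel) (checkTree_cutT (by decide +kernel) (checkTree_cutY (by decide +kernel) (checkTree_cutT (by decide +kernel) (checkTree_cutY (by decide +kernel) superSU210_2_c0 (checkTree_cutT (by decide +kernel) superSU210_2_c1 superSU210_2_c2)) (checkTree_cutY (by decide +kernel) superSU210_2_c3 superSU210_2_c4)) superSU210_2_c5) (checkTree_cutY (by decide +kernel) superSU210_2_c6 superSU210_2_c7)) superSU210_2_c8) (checkTree_cutY (by decide +kernel) (checkTree_cutT (by decide +kernel) (checkTree_cutY (by decide +kernel) superSU210_2_c9 superSU210_2_c10) (checkTree_cutY (by decide +kernel) (checkTree_cutT (by decide +kernel) superSU210_2_c11 (checkTree_cutY (by decide +kernel) superSU210_2_c12 superSU210_2_c13)) superSU210_2_c14)) superSU210_2_c15)) superSU210_2_c16)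
    (checkAll_headTail (by decide +kernel)
    (checkTree_cutY (by decide +kernel) superSU210_2_c17 superSU210_2_c18)
    superSU210_2_rest))

theorem superSU210_j : checkAll gridSU210.box ([junctionPoly famSU2102 famSU2103 (CertGrid.chart (junctionSU210.qp QP.X) (junctionSU210.qp QP.X))])
    [.leaf] = true := by decide +kernel

theorem superSU210_3 : checkAll gridSU210.box (fluxPoly famSU2103 (CertGrid.chart (junctionSU210.qp QP.X) (gridSU210.Y₃.qp QP.X)) :: superPolys potSU210 famSU2103 (CertGrid.chart (junctionSU210.qp QP.X) (gridSU210.Y₃.qp QP.X)))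
    [.leaf, .leaf, (.cutY 330301440 (.cutT 2621440 (.cutY 165150720 .leaf .leaf) (.cutY 165150720 (.cutT 2883584 (.cutY 82575360 .leaf .leaf) (.cutY 82575360 .leaf .leaf)) .leaf)) .leaf), .leaf, .leaf, .leaf] = true :=
  (checkAll_headTail (by decide +kernel)
    superSU210_3_c20
    (checkAll_headTail (by decide +kernel)
    superSU210_3_c21
    (checkAll_headTail (by decide +kernel)
    (checkTree_cutY (by decide +kernel) (checkTree_cutT (by decide +kernel) superSU210_3_c22 (checkTree_cutY (by decide +kernel) superSU210_3_c23 superSU210_3_c24)) superSU210_3_c25)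
    superSU210_3_rest)))

theorem superSU210_4 : checkAll gridSU210.farBoxS (fluxPoly famSU2103 CertGrid.farChartS :: superPolys potSU210 famSU2103 CertGrid.farChartS)
    [.leaf, .leaf, .leaf, .leaf, .leaf, .leaf] = true := by decide +kernel

/-- The supersolutions of the data. -/
theorem superSU210_check : splitCheck potSU210 famSU2100 famSU2101 famSU2102 famSU2103 gridSU210
    junctionSU210
    [.leaf, .leaf, .leaf, .leaf, .leaf, .leaf, .leaf, .leaf, .leaf, .leaf, .leaf, .leaf, .leaf]
    [.leaf, .leaf, .leaf, .leaf, .leaf]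
    [.leaf, .leaf, .leaf, .leaf, .leaf]
    [(.cutY 330301440 (.cutT 2621440 (.cutY 165150720 (.cutT 2359296 (.cutY 82575360 (.cutT 2228224 (.cutY 41287680 .leaf (.cutT 2162688 (.cutY 61931520 (.cutT 2129920 (.cutY 51609600 .leaf .leaf) .leaf) .leaf) (.cutY 61931520 .leaf .leaf))) (.cutY 41287680 .leaf (.cutT 2293760 (.cutY 61931520 .leaf .leaf) (.cutY 61931520 .leaf .leaf)))) .leaf) (.cutY 82575360 (.cutT 2490368 (.cutY 41287680 .leaf .leaf) (.cutY 41287680 .leaf .leaf)) .leaf)) .leaf) (.cutY 165150720 (.cutT 2883584 (.cutY 82575360 (.cutT 2752512 (.cutY 41287680 .leaf .leaf) (.cutY 41287680 .leaf .leaf)) .leaf) (.cutY 82575360 (.cutT 3014656 (.cutY 41287680 .leaf (.cutT 2949120 .leaf (.cutY 61931520 .leaf .leaf))) (.cutY 41287680 .leaf (.cutT 3080192 (.cutY 61931520 .leaf .leaf) (.cutY 61931520 .leaf .leaf)))) .leaf)) .leaf)) .leaf), (.cutY 330301440 (.cutT 2621440 (.cutY 165150720 .leaf .leaf) (.cutY 165150720 .leaf .leaf)) .leaf), .leaf, .leaf, .leaf]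
    [.leaf]
    [.leaf, .leaf, (.cutY 330301440 (.cutT 2621440 (.cutY 165150720 .leaf .leaf) (.cutY 165150720 (.cutT 2883584 (.cutY 82575360 .leaf .leaf) (.cutY 82575360 .leaf .leaf)) .leaf)) .leaf), .leaf, .leaf, .leaf]
    [.leaf, .leaf, .leaf, .leaf, .leaf, .leaf] = true :=
  splitCheck_of_parts superSU210_g superSU210_0 superSU210_1 superSU210_2 superSU210_j superSU210_3
    ((if_neg (by decide)).trans superSU210_4)

end Vale.Agent.P237.Quant
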