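import Vale.Agent.P237.Quant.PosData.SU210TestsEntry0
import Vale.Agent.P237.Quant.PosData.SU210TestsEntry1
import Vale.Agent.P237.Quant.CertSplitTests

/-!
Data of a spectral certificate, checked by evaluation in the kernel.
-/

namespace Vale.Agent.P237.Quant

open Four.Checker

theorem testsSU210_shape : testsSU210.shapeOK potSU210 = true := by decide +kernel

theorem testsSU210_scalars : checkAll gridSU210.box (testsSU210.scalars potSU210 gridSU210)
    [.leaf, .leaf, .leaf, .leaf, .leaf, .leaf, .leaf, .leaf, .leaf, .leaf, .leaf, .leaf, .leaf] = true := by decide +kernel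

theorem testsSU210_rest : checkAll gridSU210.box (testsSU210.matrix potSU210).tail.tail [.leaf, .leaf] = true := by decide +kernel

/-- The quadratic condition of the data. -/
theorem testsSU210_check : testsSU210.check potSU210 gridSU210
    [.leaf, .leaf, .leaf, .leaf, .leaf, .leaf, .leaf, .leaf, .leaf, .leaf, .leaf, .leaf, .leaf]
    [.leaf, .leaf, .leaf, .leaf] = true :=
  CertTests.check_of_parts testsSU210_shape testsSU210_scalars
    (checkAll_headTail (by decide +kernel) testsSU210_e0
      (checkAll_headTail (by decide +kernel) testsSU210_e1 testsSU210_rest))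

end Vale.Agent.P237.Quant
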