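import Vale.Agent.P237.Quant.PosData.SU315SuperPolys

/-!
Parts of the heavy checks of a spectral certificate, evaluated in the kernel.
-/

namespace Vale.Agent.P237.Quant

open Four.Checker

theorem superSU315_2_c8 : QP.checkTree elemSU315_2_0 ⟨3303014400, 9699328, 10485760, 412876800, 825753600⟩
    .leaf = true := by decide +kernel

theorem superSU315_2_c9 : QP.checkTree elemSU315_2_0 ⟨3303014400, 8912896, 10485760, 825753600, 1651507200⟩
    .leaf = true := by decide +kernel

theorem superSU315_2_c10 : QP.checkTree elemSU315_2_0 ⟨3303014400, 7340032, 10485760, 1651507200, 3303014400⟩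
    .leaf = true := by decide +kernel

theorem superSU315_2_c11 : QP.checkTree elemSU315_2_1 ⟨3303014400, 7340032, 10485760, 0, 1651507200⟩
    (.cutT 8912896 (.cutY 825753600 .leaf .leaf) (.cutY 825753600 .leaf .leaf)) = true := by decide +kernel

theorem superSU315_2_c12 : QP.checkTree elemSU315_2_1 ⟨3303014400, 7340032, 10485760, 1651507200, 3303014400⟩
    .leaf = true := by decide +kernel

theorem superSU315_2_rest : checkAll ⟨3303014400, 7340032, 10485760, 0, 3303014400⟩ (polysSU315_2.tail.tail)
    [.leaf, .leaf, .leaf] = true := by decide +kernel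

theorem superSU315_3_c14 : QP.checkTree elemSU315_3_0 ⟨3303014400, 7340032, 10485760, 0, 3303014400⟩
    .leaf = true := by decide +kernel

theorem superSU315_3_c15 : QP.checkTree elemSU315_3_1 ⟨3303014400, 7340032, 10485760, 0, 3303014400⟩
    .leaf = true := by decide +kernel

end Vale.Agent.P237.Quant
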