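import Vale.Agent.P237.Quant.PosData.SU315SuperPolys

/-!
Parts of the heavy checks of a spectral certificate, evaluated in the kernel.
-/

namespace Vale.Agent.P237.Quant

open Four.Checker

theorem superSU315_3_c16 : QP.checkTree elemSU315_3_2 ⟨3303014400, 7340032, 10485760, 0, 1651507200⟩
    .leaf = true := by decide +kernel

theorem superSU315_3_c17 : QP.checkTree elemSU315_3_2 ⟨3303014400, 7340032, 8912896, 1651507200, 3303014400⟩
    .leaf = true := by decide +kernel

theorem superSU315_3_c18 : QP.checkTree elemSU315_3_2 ⟨3303014400, 8912896, 10485760, 1651507200, 2477260800⟩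
    .leaf = true := by decide +kernel

theorem superSU315_3_c19 : QP.checkTree elemSU315_3_2 ⟨3303014400, 8912896, 9699328, 2477260800, 3303014400⟩
    .leaf = true := by decide +kernel

theorem superSU315_3_c20 : QP.checkTree elemSU315_3_2 ⟨3303014400, 9699328, 10485760, 2477260800, 3303014400⟩
    (.cutY 2890137600 .leaf (.cutT 10092544 .leaf (.cutY 3096576000 .leaf .leaf))) = true := by decide +kernel

theorem superSU315_3_rest : checkAll ⟨3303014400, 7340032, 10485760, 0, 3303014400⟩ (polysSU315_3.tail.tail.tail)
    [.leaf, .leaf, .leaf] = true := by decide +kernel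

theorem superSU315_4_c22 : QP.checkTree elemSU315_4_0 ⟨3303014400, 0, 990904321, 7340032, 10485760⟩
    .leaf = true := by decide +kernel

theorem superSU315_4_c23 : QP.checkTree elemSU315_4_1 ⟨3303014400, 0, 990904321, 7340032, 10485760⟩
    .leaf = true := by decide +kernel

end Vale.Agent.P237.Quant
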