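import Vale.Agent.P237.Quant.PosData.SU315SuperPolys

/-!
Parts of the heavy checks of a spectral certificate, evaluated in the kernel.
-/

namespace Vale.Agent.P237.Quant

open Four.Checker

theorem superSU315_4_c24 : QP.checkTree elemSU315_4_2 ⟨3303014400, 0, 990904321, 7340032, 8912896⟩
    .leaf = true := by decide +kernel

theorem superSU315_4_c25 : QP.checkTree elemSU315_4_2 ⟨3303014400, 0, 495452160, 8912896, 9699328⟩
    (.cutT 247726080 .leaf .leaf) = true := by decide +kernel

theorem superSU315_4_c26 : QP.checkTree elemSU315_4_2 ⟨3303014400, 0, 495452160, 9699328, 10485760⟩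
    (.cutT 247726080 (.cutY 10092544 .leaf (.cutT 123863040 .leaf .leaf)) .leaf) = true := by decide +kernel

theorem superSU315_4_c27 : QP.checkTree elemSU315_4_2 ⟨3303014400, 495452160, 990904321, 8912896, 10485760⟩
    .leaf = true := by decide +kernel

theorem superSU315_4_rest : checkAll ⟨3303014400, 0, 990904321, 7340032, 10485760⟩ (polysSU315_4.tail.tail.tail)
    [.leaf, .leaf, .leaf] = true := by decide +kernel

end Vale.Agent.P237.Quant
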