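import Vale.Agent.P237.Quant.PosData.SU315SuperPart0
import Vale.Agent.P237.Quant.PosData.SU315SuperPart1
import Vale.Agent.P237.Quant.PosData.SU315SuperPart2
import Vale.Agent.P237.Quant.PosData.SU315SuperPart3

/-!
Data of a spectral certificate, checked by evaluation in the kernel.
-/

namespace Vale.Agent.P237.Quant

open Four.Checker

theorem superSU315_g : checkAll gridSU315.box (potSU315.cen.qp QP.X :: potSU315.s0.qp QP.X :: (((junctionSU315.qp QP.X).sub (gridSU315.Y₂.qp QP.X)).sub (QP.const 1 999999)) :: (((gridSU315.Y₃.qp QP.X).sub (junctionSU315.qp QP.X)).sub (QP.const 1 999999)) :: (((QP.const 1 0).sub (QP.X.mul (junctionSU315.qp QP.X))).sub (QP.const 1 999999)) :: gridSU315.gridPolys)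
    [.leaf, .leaf, .leaf, .leaf, .leaf, .leaf, .leaf, .leaf, .leaf, .leaf, .leaf, .leaf, .leaf] = true := by decide +kernel

theorem superSU315_0 : checkAll gridSU315.box (superPolys potSU315 famSU3150 (CertGrid.chart (QP.const 0 0) (gridSU315.Y₁.qp QP.X)))
    [.leaf, .leaf, .leaf, .leaf, .leaf] = true := by decide +kernel

theorem superSU315_1 : checkAll gridSU315.box (superPolys potSU315 famSU3151 (CertGrid.chart (gridSU315.Y₁.qp QP.X) (gridSU315.Y₂.qp QP.X)))
    [.leaf, .leaf, .leaf, .leaf, .leaf] = true := by decide +kernel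

theorem superSU315_2 : checkAll gridSU315.box (superPolys potSU315 famSU3152 (CertGrid.chart (gridSU315.Y₂.qp QP.X) (junctionSU315.qp QP.X)))
    [(.cutY 1651507200 (.cutT 8912896 (.cutY 825753600 (.cutT 8126464 (.cutY 412876800 (.cutT 7733248 (.cutY 206438400 .leaf .leaf) (.cutY 206438400 .leaf .leaf)) .leaf) (.cutY 412876800 (.cutT 8519680 (.cutY 206438400 .leaf .leaf) (.cutY 206438400 .leaf .leaf)) .leaf)) .leaf) (.cutY 825753600 (.cutT 9699328 (.cutY 412876800 (.cutT 9306112 (.cutY 206438400 .leaf .leaf) (.cutY 206438400 .leaf .leaf)) .leaf) (.cutY 412876800 (.cutT 10092544 (.cutY 206438400 .leaf .leaf) (.cutY 206438400 .leaf .leaf)) .leaf)) .leaf)) .leaf), (.cutY 1651507200 (.cutT 8912896 (.cutY 825753600 .leaf .leaf) (.cutY 825753600 .leaf .leaf)) .leaf), .leaf, .leaf, .leaf] = true :=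
  (checkAll_headTail (by decide +kernel)
    (checkTree_cutY (by decide +kernel) (checkTree_cutT (by decide +kernel) (checkTree_cutY (by decide +kernel) (checkTree_cutT (by decide +kernel) (checkTree_cutY (by decide +kernel) superSU315_2_c0 superSU315_2_c1) (checkTree_cutY (by decide +kernel) superSU315_2_c2 superSU315_2_c3)) superSU315_2_c4) (checkTree_cutY (by decide +kernel) (checkTree_cutT (by decide +kernel) (checkTree_cutY (by decide +kernel) superSU315_2_c5 superSU315_2_c6) (checkTree_cutY (by decide +kernel) superSU315_2_c7 superSU315_2_c8)) superSU315_2_c9)) superSU315_2_c10)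
    (checkAll_headTail (by decide +kernel)
    (checkTree_cutY (by decide +kernel) superSU315_2_c11 superSU315_2_c12)
    superSU315_2_rest))

theorem superSU315_j : checkAll gridSU315.box ([junctionPoly famSU3152 famSU3153 (CertGrid.chart (junctionSU315.qp QP.X) (junctionSU315.qp QP.X))])
    [.leaf] = true := by decide +kernel

theorem superSU315_3 : checkAll gridSU315.box (fluxPoly famSU3153 (CertGrid.chart (junctionSU315.qp QP.X) (gridSU315.Y₃.qp QP.X)) :: superPolys potSU315 famSU3153 (CertGrid.chart (junctionSU315.qp QP.X) (gridSU315.Y₃.qp QP.X)))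
    [.leaf, .leaf, (.cutY 1651507200 .leaf (.cutT 8912896 .leaf (.cutY 2477260800 .leaf (.cutT 9699328 .leaf (.cutY 2890137600 .leaf (.cutT 10092544 .leaf (.cutY 3096576000 .leaf .leaf))))))), .leaf, .leaf, .leaf] = true :=
  (checkAll_headTail (by decide +kernel)
    superSU315_3_c14
    (checkAll_headTail (by decide +kernel)
    superSU315_3_c15
    (checkAll_headTail (by decide +kernel)
    (checkTree_cutY (by decide +kernel) superSU315_3_c16 (checkTree_cutT (by decide +kernel) superSU315_3_c17 (checkTree_cutY (by decide +kernel) superSU315_3_c18 (checkTree_cutT (by decide +kernel) superSU315_3_c19 superSU315_3_c20))))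
    superSU315_3_rest)))

theorem superSU315_4 : checkAll gridSU315.farBoxS (fluxPoly famSU3153 CertGrid.farChartS :: superPolys potSU315 famSU3153 CertGrid.farChartS)
    [.leaf, .leaf, (.cutY 8912896 .leaf (.cutT 495452160 (.cutY 9699328 (.cutT 247726080 .leaf .leaf) (.cutT 247726080 (.cutY 10092544 .leaf (.cutT 123863040 .leaf .leaf)) .leaf)) .leaf)), .leaf, .leaf, .leaf] = true :=
  (checkAll_headTail (by decide +kernel)
    superSU315_4_c22
    (checkAll_headTail (by decide +kernel)
    superSU315_4_c23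
    (checkAll_headTail (by decide +kernel)
    (checkTree_cutY (by decide +kernel) superSU315_4_c24 (checkTree_cutT (by decide +kernel) (checkTree_cutY (by decide +kernel) superSU315_4_c25 superSU315_4_c26) superSU315_4_c27))
    superSU315_4_rest)))

/-- The supersolutions of the data. -/
theorem superSU315_check : splitCheck potSU315 famSU3150 famSU3151 famSU3152 famSU3153 gridSU315
    junctionSU315
    [.leaf, .leaf, .leaf, .leaf, .leaf, .leaf, .leaf, .leaf, .leaf, .leaf, .leaf, .leaf, .leaf]
    [.leaf, .leaf, .leaf, .leaf, .leaf]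
    [.leaf, .leaf, .leaf, .leaf, .leaf]
    [(.cutY 1651507200 (.cutT 8912896 (.cutY 825753600 (.cutT 8126464 (.cutY 412876800 (.cutT 7733248 (.cutY 206438400 .leaf .leaf) (.cutY 206438400 .leaf .leaf)) .leaf) (.cutY 412876800 (.cutT 8519680 (.cutY 206438400 .leaf .leaf) (.cutY 206438400 .leaf .leaf)) .leaf)) .leaf) (.cutY 825753600 (.cutT 9699328 (.cutY 412876800 (.cutT 9306112 (.cutY 206438400 .leaf .leaf) (.cutY 206438400 .leaf .leaf)) .leaf) (.cutY 412876800 (.cutT 10092544 (.cutY 206438400 .leaf .leaf) (.cutY 206438400 .leaf .leaf)) .leaf)) .leaf)) .leaf), (.cutY 1651507200 (.cutT 8912896 (.cutY 825753600 .leaf .leaf) (.cutY 825753600 .leaf .leaf)) .leaf), .leaf, .leaf, .leaf]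
    [.leaf]
    [.leaf, .leaf, (.cutY 1651507200 .leaf (.cutT 8912896 .leaf (.cutY 2477260800 .leaf (.cutT 9699328 .leaf (.cutY 2890137600 .leaf (.cutT 10092544 .leaf (.cutY 3096576000 .leaf .leaf))))))), .leaf, .leaf, .leaf]
    [.leaf, .leaf, (.cutY 8912896 .leaf (.cutT 495452160 (.cutY 9699328 (.cutT 247726080 .leaf .leaf) (.cutT 247726080 (.cutY 10092544 .leaf (.cutT 123863040 .leaf .leaf)) .leaf)) .leaf)), .leaf, .leaf, .leaf] = true :=
  splitCheck_of_parts superSU315_g superSU315_0 superSU315_1 superSU315_2 superSU315_j superSU315_3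
    ((if_neg (by decide)).trans superSU315_4)

end Vale.Agent.P237.Quant
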