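import Vale.Agent.P237.Quant.PosData.SU450SuperPart0

/-!
Data of a spectral certificate, checked by evaluation in the kernel.
-/

namespace Vale.Agent.P237.Quant

open Four.Checker

theorem superSU450_g : checkAll gridSU450.box (potSU450.cen.qp QP.X :: potSU450.s0.qp QP.X :: (((junctionSU450.qp QP.X).sub (gridSU450.Y₂.qp QP.X)).sub (QP.const 1 999999)) :: (((gridSU450.Y₃.qp QP.X).sub (junctionSU450.qp QP.X)).sub (QP.const 1 999999)) :: (((QP.const 1 0).sub (QP.X.mul (junctionSU450.qp QP.X))).sub (QP.const 1 999999)) :: gridSU450.gridPolys)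
    [.leaf, .leaf, .leaf, .leaf, .leaf, .leaf, .leaf, .leaf, .leaf, .leaf, .leaf, .leaf, .leaf] = true := by decide +kernel

theorem superSU450_0 : checkAll gridSU450.box (superPolys potSU450 famSU4500 (CertGrid.chart (QP.const 0 0) (gridSU450.Y₁.qp QP.X)))
    [.leaf, .leaf, .leaf, .leaf, .leaf] = true := by decide +kernel

theorem superSU450_1 : checkAll gridSU450.box (superPolys potSU450 famSU4501 (CertGrid.chart (gridSU450.Y₁.qp QP.X) (gridSU450.Y₂.qp QP.X)))
    [.leaf, .leaf, .leaf, .leaf, .leaf] = true := by decide +kernel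

theorem superSU450_2 : checkAll gridSU450.box (superPolys potSU450 famSU4502 (CertGrid.chart (gridSU450.Y₂.qp QP.X) (junctionSU450.qp QP.X)))
    [(.cutY 235929600 .leaf .leaf), .leaf, .leaf, .leaf, .leaf] = true := by decide +kernel

theorem superSU450_j : checkAll gridSU450.box ([junctionPoly famSU4502 famSU4503 (CertGrid.chart (junctionSU450.qp QP.X) (junctionSU450.qp QP.X))])
    [.leaf] = true := by decide +kernel

theorem superSU450_3 : checkAll gridSU450.box (fluxPoly famSU4503 (CertGrid.chart (junctionSU450.qp QP.X) (gridSU450.Y₃.qp QP.X)) :: superPolys potSU450 famSU4503 (CertGrid.chart (junctionSU450.qp QP.X) (gridSU450.Y₃.qp QP.X)))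
    [.leaf, .leaf, (.cutY 235929600 (.cutT 524288 (.cutY 117964800 .leaf .leaf) (.cutY 117964800 (.cutT 786432 (.cutY 58982400 .leaf .leaf) (.cutY 58982400 .leaf .leaf)) .leaf)) .leaf), .leaf, .leaf, .leaf] = true :=
  (checkAll_headTail (by decide +kernel)
    superSU450_3_c0
    (checkAll_headTail (by decide +kernel)
    superSU450_3_c1
    (checkAll_headTail (by decide +kernel)
    (checkTree_cutY (by decide +kernel) (checkTree_cutT (by decide +kernel) superSU450_3_c2 (checkTree_cutY (by decide +kernel) superSU450_3_c3 superSU450_3_c4)) superSU450_3_c5)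
    superSU450_3_rest)))

theorem superSU450_4 : checkAll gridSU450.farBox (fluxPoly famSU4503 CertGrid.farChart :: superPolys potSU450 famSU4503 CertGrid.farChart)
    [.leaf, .leaf, .leaf, .leaf, .leaf, .leaf] = true := by decide +kernel

/-- The supersolutions of the data. -/
theorem superSU450_check : splitCheck potSU450 famSU4500 famSU4501 famSU4502 famSU4503 gridSU450
    junctionSU450
    [.leaf, .leaf, .leaf, .leaf, .leaf, .leaf, .leaf, .leaf, .leaf, .leaf, .leaf, .leaf, .leaf]
    [.leaf, .leaf, .leaf, .leaf, .leaf]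
    [.leaf, .leaf, .leaf, .leaf, .leaf]
    [(.cutY 235929600 .leaf .leaf), .leaf, .leaf, .leaf, .leaf]
    [.leaf]
    [.leaf, .leaf, (.cutY 235929600 (.cutT 524288 (.cutY 117964800 .leaf .leaf) (.cutY 117964800 (.cutT 786432 (.cutY 58982400 .leaf .leaf) (.cutY 58982400 .leaf .leaf)) .leaf)) .leaf), .leaf, .leaf, .leaf]
    [.leaf, .leaf, .leaf, .leaf, .leaf, .leaf] = true :=
  splitCheck_of_parts superSU450_g superSU450_0 superSU450_1 superSU450_2 superSU450_j superSU450_3
    ((if_pos rfl).trans superSU450_4)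

end Vale.Agent.P237.Quant
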