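import Vale.Agent.P237.Quant.PosData.SU450TestsEntry0
import Vale.Agent.P237.Quant.PosData.SU450TestsEntry1
import Vale.Agent.P237.Quant.CertSplitTests

/-!
Data of a spectral certificate, checked by evaluation in the kernel.
-/

namespace Vale.Agent.P237.Quant

open Four.Checker

theorem testsSU450_shape : testsSU450.shapeOK potSU450 = true := by decide +kernel

theorem testsSU450_scalars : checkAll gridSU450.box (testsSU450.scalars potSU450 gridSU450)
    [.leaf, .leaf, .leaf, .leaf, .leaf, .leaf, .leaf, .leaf, .leaf, .leaf, .leaf, .leaf, .leaf] = true := by decide +kernel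

theorem testsSU450_rest : checkAll gridSU450.box (testsSU450.matrix potSU450).tail.tail [.leaf, .leaf] = true := by decide +kernel

/-- The quadratic condition of the data. -/
theorem testsSU450_check : testsSU450.check potSU450 gridSU450
    [.leaf, .leaf, .leaf, .leaf, .leaf, .leaf, .leaf, .leaf, .leaf, .leaf, .leaf, .leaf, .leaf]
    [.leaf, .leaf, .leaf, .leaf] = true :=
  CertTests.check_of_parts testsSU450_shape testsSU450_scalars
    (checkAll_headTail (by decide +kernel) testsSU450_e0
      (checkAll_headTail (by decide +kernel) testsSU450_e1 testsSU450_rest))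

end Vale.Agent.P237.Quant
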