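import Vale.Agent.P237.Quant.CertDefs

/-!
Data of a spectral certificate, checked by evaluation in the kernel.
-/

namespace Vale.Agent.P237.Quant

open Four.Checker

def potR6 : CertPot := ⟨⟨361, 0, 249⟩, ⟨1707, 0, 9999⟩, ⟨401, -400, 1999⟩, ⟨4257, -4257, 3999999⟩, ⟨-15232850, 12490937, 399999999⟩, ⟨2288057, 0, 1999999⟩, ⟨681, 0, 9999⟩⟩

def famR60 : CertFam := ⟨⟨352318, -109, 999999⟩, ⟨-1, 0, 0⟩, ⟨1, 0, 0⟩, ⟨-87345, -147743, 999999⟩, ⟨1, 0, 0⟩, ⟨0, 0, 0⟩, ⟨1, 0, 0⟩, ⟨1, 0, 0⟩, ⟨0, 0, 0⟩, ⟨0, 0, 0⟩⟩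

def famR61 : CertFam := ⟨⟨-346987, -28276, 999999⟩, ⟨1, 0, 0⟩, ⟨2813820, -27123, 999999⟩, ⟨-1, 0, 0⟩, ⟨1, 0, 0⟩, ⟨-159693, 591768, 999999⟩, ⟨1, 0, 0⟩, ⟨1, 0, 0⟩, ⟨2923746, 863935, 999999⟩, ⟨123293, -238108, 199999⟩⟩

def famR62 : CertFam := ⟨⟨-2788335, -122186, 999999⟩, ⟨1, 0, 0⟩, ⟨1, 0, 0⟩, ⟨-80507, -157948, 999999⟩, ⟨1, 0, 0⟩, ⟨147612230, -46244657, 999999⟩, ⟨1, 0, 0⟩, ⟨1191473, 2919420, 999999⟩, ⟨1, 0, 0⟩, ⟨444602, 22765, 999999⟩⟩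

def gridR6 : CertGrid := ⟨⟨44, 0, 124⟩, ⟨2809, 0, 999⟩, ⟨6, 0, 0⟩, 1893728256, 314572800, 315621376, 315621632, 6291457⟩

def testsR6 : CertTests where
  P₁ := [(⟨1, 0, 0⟩, 2, 0), (⟨327, -600, 9999⟩, 2, 2)]
  P₂ := [(⟨1, 0, 0⟩, 0, 1), (⟨-13333, 80994, 1999⟩, 0, 2)]
  T₁ := ⟨-743, 2165, 4999⟩
  T₂ := ⟨803877, -5050970, 9999⟩
  S₁ := ⟨9001, -2590, 4999⟩
  S₂ := ⟨-103857, 668380, 2499⟩
  mu := ⟨17921, 0, 9999⟩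
  th := ⟨130699, -780820, 9999⟩
  y₀ := ⟨5997, -18024, 499⟩
  R := ⟨46053, -92260, 9999⟩
  bnd := QP.ofNum 999999999 [[-60399333], [393364105]]
  ka := QP.ofNum 999999 [[8171324], [-46175492]]
  I := 10
  J := 6
  N := 30

theorem superR6_check : superCheck potR6 famR60 famR61 famR62 gridR6
    [.leaf, .leaf, .leaf, .leaf, .leaf, .leaf, .leaf, .leaf, .leaf, .leaf]
    [.leaf, .leaf, .leaf, .leaf, .leaf]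
    [.leaf, .leaf, .leaf, .leaf, .leaf]
    [.leaf, .leaf, .leaf, .leaf, .leaf, .leaf]
    [.leaf, .leaf, .leaf, .leaf, .leaf, .leaf] = true := by decide +kernel

theorem testsR6_check : testsR6.check potR6 gridR6
    [.leaf, .leaf, .leaf, .leaf, .leaf, .leaf, .leaf, .leaf, .leaf, .leaf, .leaf, .leaf, .leaf]
    [.leaf, .leaf, .leaf, .leaf] = true := by decide +kernel

end Vale.Agent.P237.Quant
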