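import Vale.Agent.P237.Quant.CertDefs

/-!
Data of a spectral certificate, checked by evaluation in the kernel.
-/

namespace Vale.Agent.P237.Quant

open Four.Checker

def potR7 : CertPot := ⟨⟨2957, 0, 1999⟩, ⟨7213, 0, 39999⟩, ⟨281, -280, 1999⟩, ⟨1781, -1781, 31999⟩, ⟨-28050, 23001, 639999⟩, ⟨18797, 0, 15999⟩, ⟨2554, -16585, 2499⟩⟩

def famR70 : CertFam := ⟨⟨350163, 92220, 999999⟩, ⟨-1, 0, 0⟩, ⟨1, 0, 0⟩, ⟨-107112, 57625, 999999⟩, ⟨1, 0, 0⟩, ⟨0, 0, 0⟩, ⟨1, 0, 0⟩, ⟨1, 0, 0⟩, ⟨0, 0, 0⟩, ⟨0, 0, 0⟩⟩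

def famR71 : CertFam := ⟨⟨-362553, -1028, 999999⟩, ⟨1, 0, 0⟩, ⟨1472785, 23621, 499999⟩, ⟨-1, 0, 0⟩, ⟨1, 0, 0⟩, ⟨-75405, 50759, 999999⟩, ⟨1, 0, 0⟩, ⟨1, 0, 0⟩, ⟨473193, 357088, 199999⟩, ⟨651081, -1718142, 999999⟩⟩

def famR72 : CertFam := ⟨⟨-2964783, 91851, 999999⟩, ⟨1, 0, 0⟩, ⟨1, 0, 0⟩, ⟨-176769, 564307, 999999⟩, ⟨1, 0, 0⟩, ⟨142569548, -73130233, 999999⟩, ⟨1, 0, 0⟩, ⟨1093277, -983162, 499999⟩, ⟨1, 0, 0⟩, ⟨192660, 177601, 499999⟩⟩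

def gridR7 : CertGrid := ⟨⟨363, 0, 999⟩, ⟨369, 0, 124⟩, ⟨7, 0, 0⟩, 2576351232, 367001600, 368050176, 368050432, 7340033⟩

def testsR7 : CertTests where
  P₁ := [(⟨1, 0, 0⟩, 2, 0), (⟨10339, -73320, 4999⟩, 2, 2)]
  P₂ := [(⟨1, 0, 0⟩, 0, 1), (⟨-897, 9305, 4999⟩, 0, 2)]
  T₁ := ⟨-15563, 109722, 1999⟩
  T₂ := ⟨1647, -270740, 9999⟩
  S₁ := ⟨3647, -21122, 399⟩
  S₂ := ⟨8973, 40810, 4999⟩
  mu := ⟨33, 0, 15⟩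
  th := ⟨8586, -51175, 4999⟩
  y₀ := ⟨6995, -24521, 499⟩
  R := ⟨49737, -116220, 9999⟩
  bnd := QP.ofNum 999999999 [[-8222691], [61808172]]
  ka := QP.ofNum 999999 [[509882], [-272060]]
  I := 10
  J := 6
  N := 30

theorem superR7_check : superCheck potR7 famR70 famR71 famR72 gridR7
    [.leaf, .leaf, .leaf, .leaf, .leaf, .leaf, .leaf, .leaf, .leaf, .leaf]
    [.leaf, .leaf, .leaf, .leaf, .leaf]
    [.leaf, .leaf, .leaf, .leaf, .leaf]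
    [.leaf, .leaf, .leaf, .leaf, .leaf, .leaf]
    [.leaf, .leaf, .leaf, .leaf, .leaf, .leaf] = true := by decide +kernel

theorem testsR7_check : testsR7.check potR7 gridR7
    [.leaf, .leaf, .leaf, .leaf, .leaf, .leaf, .leaf, .leaf, .leaf, .leaf, .leaf, .leaf, .leaf]
    [.leaf, .leaf, .leaf, .leaf] = true := by decide +kernel

end Vale.Agent.P237.Quant
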