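import Vale.Agent.P237.Quant.CertDefs

/-!
Data of a spectral certificate, checked by evaluation in the kernel.
-/

namespace Vale.Agent.P237.Quant

open Four.Checker

def potR8 : CertPot := ⟨⟨549, 0, 399⟩, ⟨181, 0, 999⟩, ⟨256, -255, 1999⟩, ⟨192599, -192599, 1999999⟩, ⟨-8369950, 6863359, 199999999⟩, ⟨1154099, 0, 999999⟩, ⟨291, -1226, 1999⟩⟩

def famR80 : CertFam := ⟨⟨382199, 812, 999999⟩, ⟨-1, 0, 0⟩, ⟨1, 0, 0⟩, ⟨-67533, -37748, 999999⟩, ⟨1, 0, 0⟩, ⟨0, 0, 0⟩, ⟨1, 0, 0⟩, ⟨1, 0, 0⟩, ⟨0, 0, 0⟩, ⟨0, 0, 0⟩⟩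

def famR81 : CertFam := ⟨⟨-382372, 5391, 999999⟩, ⟨1, 0, 0⟩, ⟨6709562, -28641525, 999999⟩, ⟨-1, 0, 0⟩, ⟨1, 0, 0⟩, ⟨-123710, 315471, 999999⟩, ⟨1, 0, 0⟩, ⟨1, 0, 0⟩, ⟨2711322, -2145361, 999999⟩, ⟨467997, -213656, 999999⟩⟩

def famR82 : CertFam := ⟨⟨-6724559, 28767332, 999999⟩, ⟨1, 0, 0⟩, ⟨1, 0, 0⟩, ⟨-55748, -255877, 999999⟩, ⟨1, 0, 0⟩, ⟨103766579, -17152637, 499999⟩, ⟨1, 0, 0⟩, ⟨1555489, 253218, 499999⟩, ⟨1, 0, 0⟩, ⟨497541, 19723, 999999⟩⟩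

def gridR8 : CertGrid := ⟨⟨191, 0, 499⟩, ⟨3369, -14436, 499⟩, ⟨8, 0, 0⟩, 3363831808, 419430400, 420478976, 420479232, 8388609⟩

def testsR8 : CertTests where
  P₁ := [(⟨1, 0, 0⟩, 2, 0), (⟨-5099, 40020, 9999⟩, 2, 2)]
  P₂ := [(⟨1, 0, 0⟩, 0, 1), (⟨-4308, 39955, 4999⟩, 0, 2)]
  T₁ := ⟨10017, -81775, 4999⟩
  T₂ := ⟨94929, -1071040, 9999⟩
  S₁ := ⟨-213, 123910, 9999⟩
  S₂ := ⟨-37687, 544840, 9999⟩
  mu := ⟨9847, 0, 4999⟩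
  th := ⟨-2261, 45780, 9999⟩
  y₀ := ⟨1030, 45079, 999⟩
  R := ⟨10773, -16335, 2499⟩
  bnd := QP.ofNum 999999999 [[5809150], [-40579631]]
  ka := QP.ofNum 999999 [[481636], [0]]
  I := 10
  J := 6
  N := 30

theorem superR8_check : superCheck potR8 famR80 famR81 famR82 gridR8
    [.leaf, .leaf, .leaf, .leaf, .leaf, .leaf, .leaf, .leaf, .leaf, .leaf]
    [.leaf, .leaf, .leaf, .leaf, .leaf]
    [.leaf, .leaf, .leaf, .leaf, .leaf]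
    [.leaf, (.cutY 1681915904 .leaf .leaf), .leaf, .leaf, .leaf, .leaf]
    [.leaf, .leaf, .leaf, .leaf, .leaf, .leaf] = true := by decide +kernel

theorem testsR8_check : testsR8.check potR8 gridR8
    [.leaf, .leaf, .leaf, .leaf, .leaf, .leaf, .leaf, .leaf, .leaf, .leaf, .leaf, .leaf, .leaf]
    [.leaf, .leaf, .leaf, .leaf] = true := by decide +kernel

end Vale.Agent.P237.Quant
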