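import Vale.Agent.P237.Quant.CertDefs

/-!
Data of a spectral certificate, checked by evaluation in the kernel.
-/

namespace Vale.Agent.P237.Quant

open Four.Checker

def potR9 : CertPot := ⟨⟨5503, 0, 3999⟩, ⟨7641, 0, 39999⟩, ⟨121, -120, 1999⟩, ⟨14349, -14349, 199999⟩, ⟨-609450, 499749, 19999999⟩, ⟨106419, 0, 99999⟩, ⟨711, -2440, 9999⟩⟩

def famR90 : CertFam := ⟨⟨345042, 236319, 999999⟩, ⟨-1, 0, 0⟩, ⟨1, 0, 0⟩, ⟨-97174, -405, 999999⟩, ⟨1, 0, 0⟩, ⟨0, 0, 0⟩, ⟨1, 0, 0⟩, ⟨1, 0, 0⟩, ⟨0, 0, 0⟩, ⟨0, 0, 0⟩⟩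

def famR91 : CertFam := ⟨⟨-341217, -265345, 999999⟩, ⟨1, 0, 0⟩, ⟨3668481, -4861453, 999999⟩, ⟨-1, 0, 0⟩, ⟨1, 0, 0⟩, ⟨-99710, 682659, 999999⟩, ⟨1, 0, 0⟩, ⟨1, 0, 0⟩, ⟨4322583, 12422196, 999999⟩, ⟨310914, -1270007, 499999⟩⟩

def famR92 : CertFam := ⟨⟨-3509157, 3433118, 999999⟩, ⟨1, 0, 0⟩, ⟨1, 0, 0⟩, ⟨10747, 271647, 999999⟩, ⟨1, 0, 0⟩, ⟨377740309, 79133769, 999999⟩, ⟨1, 0, 0⟩, ⟨-15266775, -8304102, 999999⟩, ⟨1, 0, 0⟩, ⟨488755, 108256, 999999⟩⟩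

def gridR9 : CertGrid := ⟨⟨3415, 2652, 9999⟩, ⟨36683, -48626, 9999⟩, ⟨9, 0, 0⟩, 1576009728, 157286400, 175112192, 175112448, 160432129⟩

def testsR9 : CertTests where
  P₁ := [(⟨1, 0, 0⟩, 2, 0), (⟨-719, 6730, 4999⟩, 2, 2)]
  P₂ := [(⟨1, 0, 0⟩, 0, 1), (⟨-3761, 48540, 9999⟩, 0, 2)]
  T₁ := ⟨539, -5608, 999⟩
  T₂ := ⟨32653, -622240, 9999⟩
  S₁ := ⟨652, 2550, 624⟩
  S₂ := ⟨-684, 32221, 999⟩
  mu := ⟨717, 0, 499⟩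
  th := ⟨571, 12850, 9999⟩
  y₀ := ⟨5482, 4123, 999⟩
  R := ⟨21557, -35018, 4999⟩
  bnd := QP.ofNum 999999999 [[315992], [12669225]]
  ka := QP.ofNum 999999 [[731983], [-1802267]]
  I := 10
  J := 6
  N := 30

theorem superR9_check : superCheck potR9 famR90 famR91 famR92 gridR9
    [.leaf, .leaf, .leaf, .leaf, .leaf, .leaf, .leaf, .leaf, .leaf, .leaf]
    [.leaf, .leaf, .leaf, .leaf, .leaf]
    [.leaf, .leaf, .leaf, .leaf, .leaf]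
    [.leaf, (.cutY 788004864 (.cutT 166199296 .leaf (.cutY 394002432 .leaf (.cutT 170655744 .leaf (.cutY 591003648 .leaf .leaf)))) .leaf), (.cutY 788004864 .leaf .leaf), .leaf, .leaf, .leaf]
    [.leaf, .leaf, .leaf, .leaf, .leaf, .leaf] = true := by decide +kernel

theorem testsR9_check : testsR9.check potR9 gridR9
    [.leaf, .leaf, .leaf, .leaf, .leaf, .leaf, .leaf, .leaf, .leaf, .leaf, .leaf, .leaf, .leaf]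
    [.leaf, .leaf, .leaf, .leaf] = true := by decide +kernel

end Vale.Agent.P237.Quant
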