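import Vale.Agent.P237.Quant.PosData.SR11Defs

/-!
Data of a spectral certificate, checked by evaluation in the kernel.
-/

namespace Vale.Agent.P237.Quant

open Four.Checker

theorem superSR11_g : checkAll gridSR11.box (potSR11.cen.qp QP.X :: potSR11.s0.qp QP.X :: (((junctionSR11.qp QP.X).sub (gridSR11.Y₂.qp QP.X)).sub (QP.const 1 999999)) :: (((gridSR11.Y₃.qp QP.X).sub (junctionSR11.qp QP.X)).sub (QP.const 1 999999)) :: (((QP.const 1 0).sub (QP.X.mul (junctionSR11.qp QP.X))).sub (QP.const 1 999999)) :: gridSR11.gridPolys)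
    [.leaf, .leaf, .leaf, .leaf, .leaf, .leaf, .leaf, .leaf, .leaf, .leaf, .leaf, .leaf, .leaf] = true := by decide +kernel

theorem superSR11_0 : checkAll gridSR11.box (superPolys potSR11 famSR110 (CertGrid.chart (QP.const 0 0) (gridSR11.Y₁.qp QP.X)))
    [.leaf, .leaf, .leaf, .leaf, .leaf] = true := by decide +kernel

theorem superSR11_1 : checkAll gridSR11.box (superPolys potSR11 famSR111 (CertGrid.chart (gridSR11.Y₁.qp QP.X) (gridSR11.Y₂.qp QP.X)))
    [.leaf, .leaf, .leaf, .leaf, .leaf] = true := by decide +kernel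

theorem superSR11_2 : checkAll gridSR11.box (superPolys potSR11 famSR112 (CertGrid.chart (gridSR11.Y₂.qp QP.X) (junctionSR11.qp QP.X)))
    [(.cutY 3754426368 (.cutT 629669888 (.cutY 1877213184 (.cutT 603193344 (.cutY 938606592 (.cutT 589955072 (.cutY 469303296 (.cutT 583335936 (.cutY 234651648 .leaf (.cutT 580026368 (.cutY 351977472 (.cutT 578371584 (.cutY 293314560 .leaf .leaf) .leaf) .leaf) .leaf)) .leaf) .leaf) .leaf) .leaf) .leaf) .leaf) .leaf) .leaf), (.cutY 3754426368 (.cutT 629669888 (.cutY 1877213184 (.cutT 603193344 (.cutY 938606592 .leaf .leaf) .leaf) .leaf) .leaf) .leaf), .leaf, .leaf, .leaf] = true := by decide +kernel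

theorem superSR11_j : checkAll gridSR11.box ([junctionPoly famSR112 famSR113 (CertGrid.chart (junctionSR11.qp QP.X) (junctionSR11.qp QP.X))])
    [.leaf] = true := by decide +kernel

theorem superSR11_3 : checkAll gridSR11.box (fluxPoly famSR113 (CertGrid.chart (junctionSR11.qp QP.X) (gridSR11.Y₃.qp QP.X)) :: superPolys potSR11 famSR113 (CertGrid.chart (junctionSR11.qp QP.X) (gridSR11.Y₃.qp QP.X)))
    [.leaf, .leaf, .leaf, .leaf, .leaf, .leaf] = true := by decide +kernel

theorem superSR11_4 : checkAll gridSR11.farBoxS (fluxPoly famSR113 CertGrid.farChartS :: superPolys potSR11 famSR113 CertGrid.farChartS)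
    [.leaf, .leaf, .leaf, .leaf, .leaf, .leaf] = true := by decide +kernel

/-- The supersolutions of the data. -/
theorem superSR11_check : splitCheck potSR11 famSR110 famSR111 famSR112 famSR113 gridSR11
    junctionSR11
    [.leaf, .leaf, .leaf, .leaf, .leaf, .leaf, .leaf, .leaf, .leaf, .leaf, .leaf, .leaf, .leaf]
    [.leaf, .leaf, .leaf, .leaf, .leaf]
    [.leaf, .leaf, .leaf, .leaf, .leaf]
    [(.cutY 3754426368 (.cutT 629669888 (.cutY 1877213184 (.cutT 603193344 (.cutY 938606592 (.cutT 589955072 (.cutY 469303296 (.cutT 583335936 (.cutY 234651648 .leaf (.cutT 580026368 (.cutY 351977472 (.cutT 578371584 (.cutY 293314560 .leaf .leaf) .leaf) .leaf) .leaf)) .leaf) .leaf) .leaf) .leaf) .leaf) .leaf) .leaf) .leaf), (.cutY 3754426368 (.cutT 629669888 (.cutY 1877213184 (.cutT 603193344 (.cutY 938606592 .leaf .leaf) .leaf) .leaf) .leaf) .leaf), .leaf, .leaf, .leaf]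
    [.leaf]
    [.leaf, .leaf, .leaf, .leaf, .leaf, .leaf]
    [.leaf, .leaf, .leaf, .leaf, .leaf, .leaf] = true :=
  splitCheck_of_parts superSR11_g superSR11_0 superSR11_1 superSR11_2 superSR11_j superSR11_3
    ((if_neg (by decide)).trans superSR11_4)

end Vale.Agent.P237.Quant
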