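import Vale.Agent.P237.Quant.CertDefs

/-!
Data of a spectral certificate, checked by evaluation in the kernel.
-/

namespace Vale.Agent.P237.Quant

open Four.Checker

def potSR11 : CertPot := ⟨⟨6857, 0, 4999⟩, ⟨3743, 0, 19999⟩, ⟨121, -120, 1999⟩, ⟨6151, -6151, 99999⟩, ⟨-60450, 49569, 2499999⟩, ⟨12649, 0, 12499⟩, ⟨102, -559, 999⟩⟩

def famSR110 : CertFam := ⟨⟨369473, -132457, 999999⟩, ⟨-1, 0, 0⟩, ⟨1, 0, 0⟩, ⟨-185797, 686904, 999999⟩, ⟨1, 0, 0⟩, ⟨0, 0, 0⟩, ⟨1, 0, 0⟩, ⟨1, 0, 0⟩, ⟨0, 0, 0⟩, ⟨0, 0, 0⟩⟩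

def famSR111 : CertFam := ⟨⟨-73917, 28348, 199999⟩, ⟨1, 0, 0⟩, ⟨3636502, -5601223, 999999⟩, ⟨-1, 0, 0⟩, ⟨1, 0, 0⟩, ⟨90195, -374367, 999999⟩, ⟨1, 0, 0⟩, ⟨1, 0, 0⟩, ⟨-373719, 23244, 249999⟩, ⟨113759, 167704, 499999⟩⟩

def famSR112 : CertFam := ⟨⟨-1, 0, 0⟩, ⟨269019, 559024, 999999⟩, ⟨-1, 0, 0⟩, ⟨303143, 316504, 999999⟩, ⟨1, 0, 0⟩, ⟨-173, -981960, 999999⟩, ⟨493462, -149469, 499999⟩, ⟨450754, -4588773, 999999⟩, ⟨124804, -1925879, 999999⟩, ⟨294579, 609668, 999999⟩⟩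

def famSR113 : CertFam := ⟨⟨1, 0, 0⟩, ⟨19475, -1126287, 999999⟩, ⟨1, 0, 0⟩, ⟨-4317, -749830, 999999⟩, ⟨-1, 0, 0⟩, ⟨303447, 2314086, 999999⟩, ⟨703719, -8732374, 999999⟩, ⟨1453165, -4366187, 499999⟩, ⟨471526, -2118935, 249999⟩, ⟨459337, 465974, 999999⟩⟩

def junctionSR11 : Lin := ⟨31727, -18011, 4999⟩

def gridSR11 : CertGrid := ⟨⟨3699, -1418, 9999⟩, ⟨18181, -28006, 4999⟩, ⟨11, 0, 0⟩, 7508852736, 576716800, 682622976, 682623232, 1164967937⟩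

def testsSR11 : CertTests where
  P₁ := [(⟨1, 0, 0⟩, 2, 0), (⟨-123, 1181, 999⟩, 2, 2)]
  P₂ := [(⟨1, 0, 0⟩, 0, 1), (⟨-273, 5410, 2499⟩, 0, 2)]
  T₁ := ⟨5989, -63670, 9999⟩
  T₂ := ⟨857, -307980, 9999⟩
  S₁ := ⟨5416, 19105, 4999⟩
  S₂ := ⟨4712, 77705, 4999⟩
  mu := ⟨806, 0, 624⟩
  th := ⟨2711, -9180, 9999⟩
  y₀ := ⟨6323, -3595, 999⟩
  R := ⟨44544, -83103, 9999⟩
  bnd := QP.ofNum 999999999 [[-271958], [16661203]]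
  ka := QP.ofNum 999999 [[614321], [0]]
  I := 10
  J := 6
  N := 30

end Vale.Agent.P237.Quant
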