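import Vale.Agent.P237.Quant.CertDefs

/-!
Data of a spectral certificate, checked by evaluation in the kernel.
-/

namespace Vale.Agent.P237.Quant

open Four.Checker

def potSR14 : CertPot := ⟨⟨28351, 0, 19999⟩, ⟨29, 0, 159⟩, ⟨-269, 270, 1999⟩, ⟨17323, -17323, 399999⟩, ⟨-729150, 597903, 39999999⟩, ⟨173603, 0, 199999⟩, ⟨509, 0, 9999⟩⟩

def famSR140 : CertFam := ⟨⟨191026, -306049, 499999⟩, ⟨-1, 0, 0⟩, ⟨1, 0, 0⟩, ⟨-167110, -71859, 999999⟩, ⟨1, 0, 0⟩, ⟨0, 0, 0⟩, ⟨1, 0, 0⟩, ⟨1, 0, 0⟩, ⟨0, 0, 0⟩, ⟨0, 0, 0⟩⟩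

def famSR141 : CertFam := ⟨⟨-190831, 307733, 499999⟩, ⟨1, 0, 0⟩, ⟨3657780, -8070721, 999999⟩, ⟨-1, 0, 0⟩, ⟨1, 0, 0⟩, ⟨34135, -103634, 499999⟩, ⟨1, 0, 0⟩, ⟨1, 0, 0⟩, ⟨-1660725, 1958658, 999999⟩, ⟨218745, 44531, 999999⟩⟩

def famSR142 : CertFam := ⟨⟨-1, 0, 0⟩, ⟨264831, 836492, 999999⟩, ⟨-1, 0, 0⟩, ⟨527531, -1032692, 999999⟩, ⟨1, 0, 0⟩, ⟨517116, -4833385, 499999⟩, ⟨95508, -20977, 99999⟩, ⟨1351246, -9507713, 999999⟩, ⟨-2727939, 1591290, 999999⟩, ⟨507407, -1336570, 999999⟩⟩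

def famSR143 : CertFam := ⟨⟨-78978, -3557499, 499999⟩, ⟨1, 0, 0⟩, ⟨1, 0, 0⟩, ⟨34397, -1253399, 999999⟩, ⟨1, 0, 0⟩, ⟨-25166, -416987, 999999⟩, ⟨586686, 795645, 499999⟩, ⟨940691, -8045003, 999999⟩, ⟨2118968, -2687665, 999999⟩, ⟨572323, -1275611, 999999⟩⟩

def junctionSR14 : Lin := ⟨35131, -38181, 4999⟩

def gridSR14 : CertGrid := ⟨⟨3822, -6185, 9999⟩, ⟨36553, -80401, 9999⟩, ⟨14, 0, 0⟩, 11024728064, 734003200, 787480576, 787480832, 748683265⟩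

def testsSR14 : CertTests where
  P₁ := [(⟨1, 0, 0⟩, 2, 0), (⟨-231, 1175, 4999⟩, 2, 2)]
  P₂ := [(⟨1, 0, 0⟩, 0, 1), (⟨-477, 14130, 9999⟩, 0, 2)]
  T₁ := ⟨2329, -18290, 9999⟩
  T₂ := ⟨-1286, -52265, 2499⟩
  S₁ := ⟨11617, 12510, 9999⟩
  S₂ := ⟨2203, 21492, 1999⟩
  mu := ⟨4861, 0, 4999⟩
  th := ⟨534, -1545, 2499⟩
  y₀ := ⟨7009, -7621, 999⟩
  R := ⟨9321, -19916, 1999⟩
  bnd := QP.ofNum 999999999 [[-95691], [9186553]]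
  ka := QP.ofNum 999999 [[801688], [-1945390]]
  I := 10
  J := 6
  N := 30

end Vale.Agent.P237.Quant
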