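import Vale.Agent.P237.Quant.CertDefs

/-!
Data of a spectral certificate, checked by evaluation in the kernel.
-/

namespace Vale.Agent.P237.Quant

open Four.Checker

def potSR16 : CertPot := ⟨⟨3951, 0, 2499⟩, ⟨7731, 0, 39999⟩, ⟨-391, 392, 1999⟩, ⟨20389, -20389, 799999⟩, ⟨-1251450, 1026189, 79999999⟩, ⟨346309, 0, 399999⟩, ⟨176, 1815, 4999⟩⟩

def famSR160 : CertFam := ⟨⟨327153, -187400, 999999⟩, ⟨-1, 0, 0⟩, ⟨1, 0, 0⟩, ⟨-269130, 734971, 999999⟩, ⟨1, 0, 0⟩, ⟨0, 0, 0⟩, ⟨1, 0, 0⟩, ⟨1, 0, 0⟩, ⟨0, 0, 0⟩, ⟨0, 0, 0⟩⟩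

def famSR161 : CertFam := ⟨⟨-326813, 193815, 999999⟩, ⟨1, 0, 0⟩, ⟨815352, -1400431, 249999⟩, ⟨-1, 0, 0⟩, ⟨1, 0, 0⟩, ⟨78632, -188537, 999999⟩, ⟨1, 0, 0⟩, ⟨1, 0, 0⟩, ⟨-492949, -90617, 499999⟩, ⟨14525, 43116, 99999⟩⟩

def famSR162 : CertFam := ⟨⟨-1, 0, 0⟩, ⟨30342, 64185, 99999⟩, ⟨-1, 0, 0⟩, ⟨955090, -4439697, 999999⟩, ⟨1, 0, 0⟩, ⟨100264, 2403025, 999999⟩, ⟨1005341, -828496, 999999⟩, ⟨917032, 3774091, 999999⟩, ⟨-3748559, -1001692, 999999⟩, ⟨440873, -983276, 999999⟩⟩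

def famSR163 : CertFam := ⟨⟨1, 0, 0⟩, ⟨549378, 307283, 999999⟩, ⟨1, 0, 0⟩, ⟨8014, -285393, 499999⟩, ⟨1, 0, 0⟩, ⟨-6014, -668331, 999999⟩, ⟨1333058, -3774091, 999999⟩, ⟨-557235, 3774091, 999999⟩, ⟨1724469, -5899657, 999999⟩, ⟨224515, -248899, 499999⟩⟩

def junctionSR16 : Lin := ⟨75549, -116673, 9999⟩

def gridSR16 : CertGrid := ⟨⟨3276, -2015, 9999⟩, ⟨32574, -55423, 9999⟩, ⟨16, 0, 0⟩, 15955132416, 838860800, 997195776, 997196032, 2533359617⟩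

def testsSR16 : CertTests where
  P₁ := [(⟨1, 0, 0⟩, 2, 0), (⟨-283, 1310, 9999⟩, 2, 2)]
  P₂ := [(⟨1, 0, 0⟩, 0, 1), (⟨53, 295, 4999⟩, 0, 2)]
  T₁ := ⟨329, -2504, 1999⟩
  T₂ := ⟨-11769, -93190, 9999⟩
  S₁ := ⟨6506, 6385, 4999⟩
  S₂ := ⟨2917, 9590, 1999⟩
  mu := ⟨8343, 0, 9999⟩
  th := ⟨275, 102, 1999⟩
  y₀ := ⟨7533, -11644, 999⟩
  R := ⟨48209, -115448, 9999⟩
  bnd := QP.ofNum 999999999 [[-39673], [6076841]]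
  ka := QP.ofNum 999999 [[796283], [0]]
  I := 10
  J := 6
  N := 30

end Vale.Agent.P237.Quant
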