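import Vale.Agent.P237.Quant.PosData.SR16SuperPolys

/-!
Parts of the heavy checks of a spectral certificate, evaluated in the kernel.
-/

namespace Vale.Agent.P237.Quant

open Four.Checker

theorem superSR16_2_c0 : QP.checkTree elemSR16_2_0 ⟨15955132416, 838860800, 878444544, 0, 3988783104⟩
    (.cutY 1994391552 (.cutT 858652672 (.cutY 997195776 .leaf .leaf) .leaf) .leaf) = true := by decide +kernel

theorem superSR16_2_c1 : QP.checkTree elemSR16_2_0 ⟨15955132416, 878444544, 918028288, 0, 3988783104⟩
    (.cutY 1994391552 .leaf .leaf) = true := by decide +kernel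

theorem superSR16_2_c2 : QP.checkTree elemSR16_2_0 ⟨15955132416, 838860800, 918028288, 3988783104, 7977566208⟩
    .leaf = true := by decide +kernel

theorem superSR16_2_c3 : QP.checkTree elemSR16_2_0 ⟨15955132416, 918028288, 957612032, 0, 3988783104⟩
    (.cutY 1994391552 .leaf .leaf) = true := by decide +kernel

theorem superSR16_2_c4 : QP.checkTree elemSR16_2_0 ⟨15955132416, 957612032, 977403904, 0, 1994391552⟩
    (.cutY 997195776 .leaf .leaf) = true := by decide +kernel

theorem superSR16_2_c5 : QP.checkTree elemSR16_2_0 ⟨15955132416, 977403904, 997195776, 0, 1994391552⟩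
    (.cutY 997195776 .leaf (.cutT 987299840 .leaf (.cutY 1495793664 .leaf .leaf))) = true := by decide +kernel

theorem superSR16_2_c6 : QP.checkTree elemSR16_2_0 ⟨15955132416, 957612032, 997195776, 1994391552, 3988783104⟩
    .leaf = true := by decide +kernel

theorem superSR16_2_c7 : QP.checkTree elemSR16_2_0 ⟨15955132416, 918028288, 997195776, 3988783104, 7977566208⟩
    .leaf = true := by decide +kernel

end Vale.Agent.P237.Quant
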