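import Vale.Agent.P237.Quant.PosData.SR16Defs
import Vale.Agent.P237.Quant.CertSplit

/-!
The polynomials of the heavy checks of a spectral certificate, one by one.
-/

namespace Vale.Agent.P237.Quant

open Four.Checker

/-- Polynomials of a check of `SR16`. -/
def polysSR16_2 : List QP := (superPolys potSR16 famSR162 (CertGrid.chart (gridSR16.Y₂.qp QP.X) (junctionSR16.qp QP.X)))

/-- Polynomials of a check of `SR16`. -/
def elemSR16_2_0 : QP := (polysSR16_2).headD (QP.const 0 0)

end Vale.Agent.P237.Quant
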