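import Vale.Agent.P237.Quant.CertDefs

/-!
Data of a spectral certificate, checked by evaluation in the kernel.
-/

namespace Vale.Agent.P237.Quant

open Four.Checker

def potSR20 : CertPot := ⟨⟨3951, 0, 2499⟩, ⟨7731, 0, 39999⟩, ⟨-384, 385, 1999⟩, ⟨20389, -20389, 799999⟩, ⟨-1251450, 1026189, 79999999⟩, ⟨346309, 0, 399999⟩, ⟨169, 6450, 9999⟩⟩

def famSR200 : CertFam := ⟨⟨329937, -231487, 999999⟩, ⟨-1, 0, 0⟩, ⟨1, 0, 0⟩, ⟨-254907, 633495, 999999⟩, ⟨1, 0, 0⟩, ⟨0, 0, 0⟩, ⟨1, 0, 0⟩, ⟨1, 0, 0⟩, ⟨0, 0, 0⟩, ⟨0, 0, 0⟩⟩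

def famSR201 : CertFam := ⟨⟨-329398, 233955, 999999⟩, ⟨1, 0, 0⟩, ⟨841022, -1908315, 249999⟩, ⟨-1, 0, 0⟩, ⟨1, 0, 0⟩, ⟨92634, -349537, 999999⟩, ⟨1, 0, 0⟩, ⟨1, 0, 0⟩, ⟨-186612, -107889, 199999⟩, ⟨149357, 438358, 999999⟩⟩

def famSR202 : CertFam := ⟨⟨-1, 0, 0⟩, ⟨293271, 841752, 999999⟩, ⟨-1, 0, 0⟩, ⟨290839, -450742, 499999⟩, ⟨1, 0, 0⟩, ⟨543941, -1344599, 999999⟩, ⟨957254, -317227, 999999⟩, ⟨453889, 104382, 499999⟩, ⟨-508750, -2821007, 249999⟩, ⟨206929, -362727, 499999⟩⟩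

def famSR203 : CertFam := ⟨⟨1, 0, 0⟩, ⟨331930, 3185413, 999999⟩, ⟨1, 0, 0⟩, ⟨-2514, -900177, 999999⟩, ⟨1, 0, 0⟩, ⟨-661, -865151, 999999⟩, ⟨1462937, -5483345, 999999⟩, ⟨82703, -6880421, 999999⟩, ⟨2405256, -10451479, 999999⟩, ⟨457673, -337448, 999999⟩⟩

def junctionSR20 : Lin := ⟨19475, -40609, 2499⟩

def gridSR20 : CertGrid := ⟨⟨330, -239, 999⟩, ⟨16822, -38241, 4999⟩, ⟨20, 0, 0⟩, 25186795520, 1048576000, 1259339776, 1259340032, 4215275521⟩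

def testsSR20 : CertTests where
  P₁ := [(⟨1, 0, 0⟩, 2, 0), (⟨-1, -1735, 4999⟩, 2, 2)]
  P₂ := [(⟨1, 0, 0⟩, 0, 1), (⟨-8, 293, 999⟩, 0, 2)]
  T₁ := ⟨-33, 16280, 9999⟩
  T₂ := ⟨-533, -5267, 499⟩
  S₁ := ⟨6966, -1345, 4999⟩
  S₂ := ⟨13699, 59030, 9999⟩
  mu := ⟨8343, 0, 9999⟩
  th := ⟨807, -1540, 4999⟩
  y₀ := ⟨7769, -16211, 999⟩
  R := ⟨12241, -32530, 2499⟩
  bnd := QP.ofNum 999999999 [[-19619], [5672458]]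
  ka := QP.ofNum 999999 [[969335], [-2682389]]
  I := 10
  J := 6
  N := 30

end Vale.Agent.P237.Quant
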