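import Vale.Agent.P237.Quant.PosData.SR20SuperPolys

/-!
Parts of the heavy checks of a spectral certificate, evaluated in the kernel.
-/

namespace Vale.Agent.P237.Quant

open Four.Checker

theorem superSR20_2_c0 : QP.checkTree elemSR20_2_0 ⟨25186795520, 1048576000, 1101266944, 0, 3148349440⟩
    (.cutT 1074921472 (.cutY 1574174720 .leaf .leaf) (.cutY 1574174720 .leaf .leaf)) = true := by decide +kernel

theorem superSR20_2_c1 : QP.checkTree elemSR20_2_0 ⟨25186795520, 1048576000, 1101266944, 3148349440, 6296698880⟩
    .leaf = true := by decide +kernel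

theorem superSR20_2_c2 : QP.checkTree elemSR20_2_0 ⟨25186795520, 1101266944, 1153957888, 0, 3148349440⟩
    (.cutT 1127612416 (.cutY 1574174720 .leaf .leaf) (.cutY 1574174720 .leaf .leaf)) = true := by decide +kernel

theorem superSR20_2_c3 : QP.checkTree elemSR20_2_0 ⟨25186795520, 1101266944, 1153957888, 3148349440, 6296698880⟩
    .leaf = true := by decide +kernel

theorem superSR20_2_c4 : QP.checkTree elemSR20_2_0 ⟨25186795520, 1048576000, 1153957888, 6296698880, 12593397760⟩
    .leaf = true := by decide +kernel

theorem superSR20_2_c5 : QP.checkTree elemSR20_2_0 ⟨25186795520, 1153957888, 1206648832, 0, 3148349440⟩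
    (.cutT 1180303360 (.cutY 1574174720 .leaf .leaf) (.cutY 1574174720 .leaf .leaf)) = true := by decide +kernel

theorem superSR20_2_c6 : QP.checkTree elemSR20_2_0 ⟨25186795520, 1153957888, 1206648832, 3148349440, 6296698880⟩
    .leaf = true := by decide +kernel

theorem superSR20_2_c7 : QP.checkTree elemSR20_2_0 ⟨25186795520, 1206648832, 1232994304, 0, 3148349440⟩
    (.cutY 1574174720 .leaf (.cutT 1219821568 .leaf (.cutY 2361262080 .leaf .leaf))) = true := by decide +kernel

end Vale.Agent.P237.Quant
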