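import Vale.Agent.P237.Quant.CertDefs

/-!
Data of a spectral certificate, checked by evaluation in the kernel.
-/

namespace Vale.Agent.P237.Quant

open Four.Checker

def potSR25 : CertPot := ⟨⟨3951, 0, 2499⟩, ⟨7731, 0, 39999⟩, ⟨-383, 384, 1999⟩, ⟨20389, -20389, 799999⟩, ⟨-1251450, 1026189, 79999999⟩, ⟨346309, 0, 399999⟩, ⟨9, 4875, 4999⟩⟩

def famSR250 : CertFam := ⟨⟨334546, -355387, 999999⟩, ⟨-1, 0, 0⟩, ⟨1, 0, 0⟩, ⟨-39067, -185230, 199999⟩, ⟨1, 0, 0⟩, ⟨0, 0, 0⟩, ⟨1, 0, 0⟩, ⟨1, 0, 0⟩, ⟨0, 0, 0⟩, ⟨0, 0, 0⟩⟩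

def famSR251 : CertFam := ⟨⟨-83473, 88714, 249999⟩, ⟨1, 0, 0⟩, ⟨3410421, -8823935, 999999⟩, ⟨-1, 0, 0⟩, ⟨1, 0, 0⟩, ⟨80673, 18698, 999999⟩, ⟨1, 0, 0⟩, ⟨1, 0, 0⟩, ⟨-1067251, -492761, 999999⟩, ⟨85866, 58871, 499999⟩⟩

def famSR252 : CertFam := ⟨⟨-1, 0, 0⟩, ⟨289915, 930512, 999999⟩, ⟨-1, 0, 0⟩, ⟨268229, 4362078, 999999⟩, ⟨1, 0, 0⟩, ⟨-96401, 24389957, 999999⟩, ⟨508379, -967162, 499999⟩, ⟨-169311, 11717379, 499999⟩, ⟨-606621, -24438019, 999999⟩, ⟨415588, -1321059, 999999⟩⟩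

def famSR253 : CertFam := ⟨⟨1, 0, 0⟩, ⟨100391, 7895127, 999999⟩, ⟨1, 0, 0⟩, ⟨-331, -112175, 124999⟩, ⟨1, 0, 0⟩, ⟨6439, -1080309, 999999⟩, ⟨1630551, -9463746, 999999⟩, ⟨1036641, -3527020, 999999⟩, ⟨2095719, -1948661, 999999⟩, ⟨418155, 1792568, 999999⟩⟩

def junctionSR25 : Lin := ⟨19827, -49207, 2499⟩

def gridSR25 : CertGrid := ⟨⟨3344, -3609, 9999⟩, ⟨34107, -88432, 9999⟩, ⟨25, 0, 0⟩, 38037094400, 1310720000, 1521483776, 1521484032, 5269094401⟩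

def testsSR25 : CertTests where
  P₁ := [(⟨1, 0, 0⟩, 2, 0), (⟨127, -6340, 9999⟩, 2, 2)]
  P₂ := [(⟨1, 0, 0⟩, 0, 1), (⟨-139, 3980, 9999⟩, 0, 2)]
  T₁ := ⟨-458, 18125, 4999⟩
  T₂ := ⟨-207, -2195, 199⟩
  S₁ := ⟨14319, -11390, 9999⟩
  S₂ := ⟨334, 1629, 249⟩
  mu := ⟨8343, 0, 9999⟩
  th := ⟨931, -4355, 4999⟩
  y₀ := ⟨7911, -19643, 999⟩
  R := ⟨49481, -142620, 9999⟩
  bnd := QP.ofNum 499999999 [[1470], [2555263]]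
  ka := QP.ofNum 999999 [[1064252], [-4553344]]
  I := 10
  J := 6
  N := 30

end Vale.Agent.P237.Quant
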