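import Vale.Agent.P237.Quant.PosData.SR25SuperPolys

/-!
Parts of the heavy checks of a spectral certificate, evaluated in the kernel.
-/

namespace Vale.Agent.P237.Quant

open Four.Checker

theorem superSR25_2_c0 : QP.checkTree elemSR25_2_0 ⟨38037094400, 1310720000, 1363410944, 0, 9509273600⟩
    (.cutY 4754636800 (.cutT 1337065472 .leaf (.cutY 2377318400 .leaf .leaf)) .leaf) = true := by decide +kernel

theorem superSR25_2_c1 : QP.checkTree elemSR25_2_0 ⟨38037094400, 1363410944, 1416101888, 0, 4754636800⟩
    (.cutT 1389756416 (.cutY 2377318400 .leaf .leaf) (.cutY 2377318400 .leaf .leaf)) = true := by decide +kernel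

theorem superSR25_2_c2 : QP.checkTree elemSR25_2_0 ⟨38037094400, 1363410944, 1416101888, 4754636800, 9509273600⟩
    .leaf = true := by decide +kernel

theorem superSR25_2_c3 : QP.checkTree elemSR25_2_0 ⟨38037094400, 1310720000, 1416101888, 9509273600, 19018547200⟩
    .leaf = true := by decide +kernel

theorem superSR25_2_c4 : QP.checkTree elemSR25_2_0 ⟨38037094400, 1416101888, 1468792832, 0, 4754636800⟩
    (.cutT 1442447360 (.cutY 2377318400 .leaf .leaf) (.cutY 2377318400 .leaf .leaf)) = true := by decide +kernel

theorem superSR25_2_c5 : QP.checkTree elemSR25_2_0 ⟨38037094400, 1416101888, 1468792832, 4754636800, 9509273600⟩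
    .leaf = true := by decide +kernel

theorem superSR25_2_c6 : QP.checkTree elemSR25_2_0 ⟨38037094400, 1468792832, 1495138304, 0, 4754636800⟩
    (.cutY 2377318400 .leaf .leaf) = true := by decide +kernel

theorem superSR25_2_c7 : QP.checkTree elemSR25_2_0 ⟨38037094400, 1495138304, 1521483776, 0, 2377318400⟩
    .leaf = true := by decide +kernel

end Vale.Agent.P237.Quant
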