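import Vale.Agent.P237.Quant.PosData.SR25Defs
import Vale.Agent.P237.Quant.CertSplit

/-!
The polynomials of the heavy checks of a spectral certificate, one by one.
-/

namespace Vale.Agent.P237.Quant

open Four.Checker

/-- Polynomials of a check of `SR25`. -/
def polysSR25_2 : List QP := (superPolys potSR25 famSR252 (CertGrid.chart (gridSR25.Y₂.qp QP.X) (junctionSR25.qp QP.X)))

/-- Polynomials of a check of `SR25`. -/
def elemSR25_2_0 : QP := (polysSR25_2).headD (QP.const 0 0)

/-- Polynomials of a check of `SR25`. -/
def elemSR25_2_1 : QP := (polysSR25_2.tail).headD (QP.const 0 0)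

end Vale.Agent.P237.Quant
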