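import Vale.Agent.P237.Quant.CertDefs

/-!
Data of a spectral certificate, checked by evaluation in the kernel.
-/

namespace Vale.Agent.P237.Quant

open Four.Checker

def potSR30 : CertPot := ⟨⟨7953, 0, 4999⟩, ⟨8029, 0, 39999⟩, ⟨-375, 376, 1999⟩, ⟨5837, -5837, 399999⟩, ⟨-605850, 496797, 39999999⟩, ⟨171497, 0, 199999⟩, ⟨77, 2250, 4999⟩⟩

def famSR300 : CertFam := ⟨⟨328709, -302906, 999999⟩, ⟨-1, 0, 0⟩, ⟨1, 0, 0⟩, ⟨-111347, -235435, 499999⟩, ⟨1, 0, 0⟩, ⟨0, 0, 0⟩, ⟨1, 0, 0⟩, ⟨1, 0, 0⟩, ⟨0, 0, 0⟩, ⟨0, 0, 0⟩⟩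

def famSR301 : CertFam := ⟨⟨-167330, 269423, 499999⟩, ⟨1, 0, 0⟩, ⟨3382403, -9152790, 999999⟩, ⟨-1, 0, 0⟩, ⟨1, 0, 0⟩, ⟨41061, 10964, 499999⟩, ⟨1, 0, 0⟩, ⟨1, 0, 0⟩, ⟨-1298727, -626644, 999999⟩, ⟨184359, 32577, 999999⟩⟩

def famSR302 : CertFam := ⟨⟨-1, 0, 0⟩, ⟨293289, 951287, 999999⟩, ⟨-1, 0, 0⟩, ⟨391633, 1166071, 999999⟩, ⟨739348, -20997895, 249999⟩, ⟨1, 0, 0⟩, ⟨1047478, -4227927, 999999⟩, ⟨50923, 21457425, 999999⟩, ⟨-1937903, 4415424, 999999⟩, ⟨504322, -3302025, 999999⟩⟩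

def famSR303 : CertFam := ⟨⟨1, 0, 0⟩, ⟨176179, 2399497, 499999⟩, ⟨1, 0, 0⟩, ⟨-505, -934191, 999999⟩, ⟨1, 0, 0⟩, ⟨-2188, -846483, 999999⟩, ⟨1677012, -14848867, 999999⟩, ⟨492101, -6030204, 499999⟩, ⟨2482899, -47495822, 999999⟩, ⟨491869, -1371406, 999999⟩⟩

def junctionSR30 : Lin := ⟨77864, -214087, 9999⟩

def gridSR30 : CertGrid := ⟨⟨670, -1077, 1999⟩, ⟨16911, -45773, 4999⟩, ⟨30, 0, 0⟩, 56654561280, 1572864000, 1888485376, 1888485632, 9468641281⟩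

def testsSR30 : CertTests where
  P₁ := [(⟨1, 0, 0⟩, 2, 0), (⟨35, -1338, 1999⟩, 2, 2)]
  P₂ := [(⟨1, 0, 0⟩, 0, 1), (⟨49, -3120, 4999⟩, 0, 2)]
  T₁ := ⟨-301, 10220, 2499⟩
  T₂ := ⟨-2457, -4320, 1999⟩
  S₁ := ⟨2955, -3828, 1999⟩
  S₂ := ⟨7323, 5430, 4999⟩
  mu := ⟨4039, 0, 4999⟩
  th := ⟨691, 12260, 9999⟩
  y₀ := ⟨7767, -21366, 999⟩
  R := ⟨49115, -147803, 9999⟩
  bnd := QP.ofNum 499999999 [[13837], [2880991]]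
  ka := QP.ofNum 999999 [[1008873], [-1778152]]
  I := 10
  J := 6
  N := 30

end Vale.Agent.P237.Quant
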