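import Vale.Agent.P237.Quant.PosData.SR30SuperPolys

/-!
Parts of the heavy checks of a spectral certificate, evaluated in the kernel.
-/

namespace Vale.Agent.P237.Quant

open Four.Checker

theorem superSR30_2_c0 : QP.checkTree elemSR30_2_0 ⟨56654561280, 1572864000, 1612316672, 0, 3540910080⟩
    .leaf = true := by decide +kernel

theorem superSR30_2_c1 : QP.checkTree elemSR30_2_0 ⟨56654561280, 1572864000, 1582727168, 3540910080, 5311365120⟩
    (.cutY 4426137600 (.cutT 1577795584 (.cutY 3983523840 .leaf .leaf) .leaf) .leaf) = true := by decide +kernel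

theorem superSR30_2_c2 : QP.checkTree elemSR30_2_0 ⟨56654561280, 1582727168, 1592590336, 3540910080, 5311365120⟩
    (.cutY 4426137600 .leaf .leaf) = true := by decide +kernel

theorem superSR30_2_c3 : QP.checkTree elemSR30_2_0 ⟨56654561280, 1572864000, 1592590336, 5311365120, 7081820160⟩
    .leaf = true := by decide +kernel

theorem superSR30_2_c4 : QP.checkTree elemSR30_2_0 ⟨56654561280, 1592590336, 1612316672, 3540910080, 7081820160⟩
    (.cutY 5311365120 .leaf .leaf) = true := by decide +kernel

theorem superSR30_2_c5 : QP.checkTree elemSR30_2_0 ⟨56654561280, 1612316672, 1651769344, 0, 7081820160⟩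
    (.cutY 3540910080 .leaf (.cutT 1632043008 (.cutY 5311365120 .leaf .leaf) .leaf)) = true := by decide +kernel

theorem superSR30_2_c6 : QP.checkTree elemSR30_2_0 ⟨56654561280, 1572864000, 1651769344, 7081820160, 14163640320⟩
    .leaf = true := by decide +kernel

theorem superSR30_2_c7 : QP.checkTree elemSR30_2_0 ⟨56654561280, 1651769344, 1730674688, 0, 7081820160⟩
    (.cutT 1691222016 (.cutY 3540910080 .leaf .leaf) (.cutY 3540910080 .leaf .leaf)) = true := by decide +kernel

end Vale.Agent.P237.Quant
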