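import Vale.Agent.P237.Quant.CertDefs

/-!
Data of a spectral certificate, checked by evaluation in the kernel.
-/

namespace Vale.Agent.P237.Quant

open Four.Checker

def potSR37 : CertPot := ⟨⟨7953, 0, 4999⟩, ⟨8029, 0, 39999⟩, ⟨-385, 386, 1999⟩, ⟨5837, -5837, 399999⟩, ⟨-605850, 496797, 39999999⟩, ⟨171497, 0, 199999⟩, ⟨7, 5575, 4999⟩⟩

def famSR370 : CertFam := ⟨⟨326509, -302922, 999999⟩, ⟨-1, 0, 0⟩, ⟨1, 0, 0⟩, ⟨-121002, 47455, 499999⟩, ⟨1, 0, 0⟩, ⟨0, 0, 0⟩, ⟨1, 0, 0⟩, ⟨1, 0, 0⟩, ⟨0, 0, 0⟩, ⟨0, 0, 0⟩⟩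

def famSR371 : CertFam := ⟨⟨-163053, 155601, 499999⟩, ⟨1, 0, 0⟩, ⟨1689218, -4498019, 499999⟩, ⟨-1, 0, 0⟩, ⟨1, 0, 0⟩, ⟨106063, -270830, 999999⟩, ⟨1, 0, 0⟩, ⟨1, 0, 0⟩, ⟨-1247984, 247443, 999999⟩, ⟨196719, -173307, 999999⟩⟩

def famSR372 : CertFam := ⟨⟨-1, 0, 0⟩, ⟨294519, 905602, 999999⟩, ⟨-1, 0, 0⟩, ⟨305509, -3098964, 499999⟩, ⟨1, 0, 0⟩, ⟨345846, 7334073, 999999⟩, ⟨945753, 222573, 999999⟩, ⟨1161550, -17615297, 999999⟩, ⟨-2877977, 1499842, 999999⟩, ⟨466094, 257557, 999999⟩⟩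

def famSR373 : CertFam := ⟨⟨1, 0, 0⟩, ⟨153322, 4728083, 499999⟩, ⟨1, 0, 0⟩, ⟨-21, -965383, 999999⟩, ⟨1, 0, 0⟩, ⟨9, -983208, 999999⟩, ⟨1423568, -7250093, 999999⟩, ⟨1865688, -15986773, 999999⟩, ⟨1171028, -3273003, 499999⟩, ⟨231509, 763705, 499999⟩⟩

def junctionSR37 : Lin := ⟨78383, -232958, 9999⟩

def gridSR37 : CertGrid := ⟨⟨3264, -3097, 9999⟩, ⟨33777, -89816, 9999⟩, ⟨37, 0, 0⟩, 81513152512, 1939865600, 2203058176, 2203058432, 9738125313⟩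

def testsSR37 : CertTests where
  P₁ := [(⟨1, 0, 0⟩, 2, 0), (⟨133, -5195, 4999⟩, 2, 2)]
  P₂ := [(⟨1, 0, 0⟩, 0, 1), (⟨7, -350, 1249⟩, 0, 2)]
  T₁ := ⟨-1829, 65940, 9999⟩
  T₂ := ⟨-2947, -12840, 2499⟩
  S₁ := ⟨1497, -2789, 999⟩
  S₂ := ⟨1426, 3325, 999⟩
  mu := ⟨4039, 0, 4999⟩
  th := ⟨427, 0, 4999⟩
  y₀ := ⟨7820, -23249, 999⟩
  R := ⟨49342, -155903, 9999⟩
  bnd := QP.ofNum 999999999 [[43067], [5191646]]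
  ka := QP.ofNum 999999 [[1046916], [-4106352]]
  I := 10
  J := 6
  N := 30

end Vale.Agent.P237.Quant
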