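import Vale.Agent.P237.Quant.PosData.SR37SuperPolys

/-!
Parts of the heavy checks of a spectral certificate, evaluated in the kernel.
-/

namespace Vale.Agent.P237.Quant

open Four.Checker

theorem superSR37_2_c8 : QP.checkTree elemSR37_2_0 ⟨81513152512, 2071461888, 2137260032, 0, 10189144064⟩
    (.cutT 2104360960 (.cutY 5094572032 .leaf .leaf) (.cutY 5094572032 .leaf .leaf)) = true := by decide +kernel

theorem superSR37_2_c9 : QP.checkTree elemSR37_2_0 ⟨81513152512, 2071461888, 2137260032, 10189144064, 20378288128⟩
    .leaf = true := by decide +kernel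

theorem superSR37_2_c10 : QP.checkTree elemSR37_2_0 ⟨81513152512, 2137260032, 2170159104, 0, 10189144064⟩
    (.cutY 5094572032 .leaf .leaf) = true := by decide +kernel

theorem superSR37_2_c11 : QP.checkTree elemSR37_2_0 ⟨81513152512, 2170159104, 2203058176, 0, 10189144064⟩
    (.cutY 5094572032 (.cutT 2186608640 .leaf (.cutY 2547286016 .leaf .leaf)) .leaf) = true := by decide +kernel

theorem superSR37_2_c12 : QP.checkTree elemSR37_2_0 ⟨81513152512, 2137260032, 2203058176, 10189144064, 20378288128⟩
    .leaf = true := by decide +kernel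

theorem superSR37_2_c13 : QP.checkTree elemSR37_2_0 ⟨81513152512, 2071461888, 2203058176, 20378288128, 40756576256⟩
    .leaf = true := by decide +kernel

theorem superSR37_2_c14 : QP.checkTree elemSR37_2_0 ⟨81513152512, 1939865600, 2203058176, 40756576256, 81513152512⟩
    (.cutT 2071461888 (.cutY 61134864384 .leaf .leaf) (.cutY 61134864384 .leaf .leaf)) = true := by decide +kernel

theorem superSR37_2_c15 : QP.checkTree elemSR37_2_1 ⟨81513152512, 1939865600, 2203058176, 0, 40756576256⟩
    (.cutT 2071461888 (.cutY 20378288128 .leaf .leaf) (.cutY 20378288128 .leaf .leaf)) = true := by decide +kernel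

end Vale.Agent.P237.Quant
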