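import Vale.Agent.P237.Quant.PosData.SR37SuperPolys

/-!
Parts of the heavy checks of a spectral certificate, evaluated in the kernel.
-/

namespace Vale.Agent.P237.Quant

open Four.Checker

theorem superSR37_2_c16 : QP.checkTree elemSR37_2_1 ⟨81513152512, 1939865600, 2203058176, 40756576256, 81513152512⟩
    .leaf = true := by decide +kernel

theorem superSR37_2_rest : checkAll ⟨81513152512, 1939865600, 2203058176, 0, 81513152512⟩ (polysSR37_2.tail.tail)
    [.leaf, .leaf, .leaf] = true := by decide +kernel

end Vale.Agent.P237.Quant
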