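import Vale.Agent.P237.Quant.PosData.SR37SuperPart0
import Vale.Agent.P237.Quant.PosData.SR37SuperPart1
import Vale.Agent.P237.Quant.PosData.SR37SuperPart2

/-!
Data of a spectral certificate, checked by evaluation in the kernel.
-/

namespace Vale.Agent.P237.Quant

open Four.Checker

theorem superSR37_g : checkAll gridSR37.box (potSR37.cen.qp QP.X :: potSR37.s0.qp QP.X :: (((junctionSR37.qp QP.X).sub (gridSR37.Y₂.qp QP.X)).sub (QP.const 1 999999)) :: (((gridSR37.Y₃.qp QP.X).sub (junctionSR37.qp QP.X)).sub (QP.const 1 999999)) :: (((QP.const 1 0).sub (QP.X.mul (junctionSR37.qp QP.X))).sub (QP.const 1 999999)) :: gridSR37.gridPolys)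
    [.leaf, .leaf, .leaf, .leaf, .leaf, .leaf, .leaf, .leaf, .leaf, .leaf, .leaf, .leaf, .leaf] = true := by decide +kernel

theorem superSR37_0 : checkAll gridSR37.box (superPolys potSR37 famSR370 (CertGrid.chart (QP.const 0 0) (gridSR37.Y₁.qp QP.X)))
    [.leaf, .leaf, .leaf, .leaf, .leaf] = true := by decide +kernel

theorem superSR37_1 : checkAll gridSR37.box (superPolys potSR37 famSR371 (CertGrid.chart (gridSR37.Y₁.qp QP.X) (gridSR37.Y₂.qp QP.X)))
    [.leaf, .leaf, .leaf, .leaf, .leaf] = true := by decide +kernel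

theorem superSR37_2 : checkAll gridSR37.box (superPolys potSR37 famSR372 (CertGrid.chart (gridSR37.Y₂.qp QP.X) (junctionSR37.qp QP.X)))
    [(.cutY 40756576256 (.cutT 2071461888 (.cutY 20378288128 (.cutT 2005663744 (.cutY 10189144064 (.cutT 1972764672 (.cutY 5094572032 .leaf (.cutT 1956315136 (.cutY 7641858048 (.cutT 1948090368 (.cutY 6368215040 .leaf .leaf) .leaf) .leaf) (.cutY 7641858048 .leaf .leaf))) (.cutY 5094572032 .leaf .leaf)) .leaf) (.cutY 10189144064 (.cutT 2038562816 (.cutY 5094572032 .leaf .leaf) (.cutY 5094572032 .leaf .leaf)) .leaf)) .leaf) (.cutY 20378288128 (.cutT 2137260032 (.cutY 10189144064 (.cutT 2104360960 (.cutY 5094572032 .leaf .leaf) (.cutY 5094572032 .leaf .leaf)) .leaf) (.cutY 10189144064 (.cutT 2170159104 (.cutY 5094572032 .leaf .leaf) (.cutY 5094572032 (.cutT 2186608640 .leaf (.cutY 2547286016 .leaf .leaf)) .leaf)) .leaf)) .leaf)) (.cutT 2071461888 (.cutY 61134864384 .leaf .leaf) (.cutY 61134864384 .leaf .leaf))), (.cutY 40756576256 (.cutT 2071461888 (.cutY 20378288128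 .leaf .leaf) (.cutY 20378288128 .leaf .leaf)) .leaf), .leaf, .leaf, .leaf] = true :=
  (checkAll_headTail (by decide +kernel)
    (checkTree_cutY (by decide +kernel) (checkTree_cutT (by decide +kernel) (checkTree_cutY (by decide +kernel) (checkTree_cutT (by decide +kernel) (checkTree_cutY (by decide +kernel) (checkTree_cutT (by decide +kernel) (checkTree_cutY (by decide +kernel) superSR37_2_c0 (checkTree_cutT (by decide +kernel) superSR37_2_c1 superSR37_2_c2)) superSR37_2_c3) superSR37_2_c4) (checkTree_cutY (by decide +kernel) superSR37_2_c5 superSR37_2_c6)) superSR37_2_c7) (checkTree_cutY (by decide +kernel) (checkTree_cutT (by decide +kernel) (checkTree_cutY (by decide +kernel) superSR37_2_c8 superSR37_2_c9) (checkTree_cutY (by decide +kernel) (checkTree_cutT (by decide +kernel) superSR37_2_c10 superSR37_2_c11) superSR37_2_c12)) superSR37_2_c13)) superSR37_2_c14)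
    (checkAll_headTail (by decide +kernel)
    (checkTree_cutY (by decide +kernel) superSR37_2_c15 superSR37_2_c16)
    superSR37_2_rest))

theorem superSR37_j : checkAll gridSR37.box ([junctionPoly famSR372 famSR373 (CertGrid.chart (junctionSR37.qp QP.X) (junctionSR37.qp QP.X))])
    [.leaf] = true := by decide +kernel

theorem superSR37_3 : checkAll gridSR37.box (fluxPoly famSR373 (CertGrid.chart (junctionSR37.qp QP.X) (gridSR37.Y₃.qp QP.X)) :: superPolys potSR37 famSR373 (CertGrid.chart (junctionSR37.qp QP.X) (gridSR37.Y₃.qp QP.X)))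
    [.leaf, .leaf, (.cutY 40756576256 .leaf (.cutT 2071461888 (.cutY 61134864384 .leaf .leaf) (.cutY 61134864384 .leaf .leaf))), .leaf, .leaf, .leaf] = true := by decide +kernel

theorem superSR37_4 : checkAll gridSR37.farBoxS (fluxPoly famSR373 CertGrid.farChartS :: superPolys potSR37 famSR373 CertGrid.farChartS)
    [.leaf, .leaf, .leaf, .leaf, .leaf, .leaf] = true := by decide +kernel

/-- The supersolutions of the data. -/
theorem superSR37_check : splitCheck potSR37 famSR370 famSR371 famSR372 famSR373 gridSR37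
    junctionSR37
    [.leaf, .leaf, .leaf, .leaf, .leaf, .leaf, .leaf, .leaf, .leaf, .leaf, .leaf, .leaf, .leaf]
    [.leaf, .leaf, .leaf, .leaf, .leaf]
    [.leaf, .leaf, .leaf, .leaf, .leaf]
    [(.cutY 40756576256 (.cutT 2071461888 (.cutY 20378288128 (.cutT 2005663744 (.cutY 10189144064 (.cutT 1972764672 (.cutY 5094572032 .leaf (.cutT 1956315136 (.cutY 7641858048 (.cutT 1948090368 (.cutY 6368215040 .leaf .leaf) .leaf) .leaf) (.cutY 7641858048 .leaf .leaf))) (.cutY 5094572032 .leaf .leaf)) .leaf) (.cutY 10189144064 (.cutT 2038562816 (.cutY 5094572032 .leaf .leaf) (.cutY 5094572032 .leaf .leaf)) .leaf)) .leaf) (.cutY 20378288128 (.cutT 2137260032 (.cutY 10189144064 (.cutT 2104360960 (.cutY 5094572032 .leaf .leaf) (.cutY 5094572032 .leaf .leaf)) .leaf) (.cutY 10189144064 (.cutT 2170159104 (.cutY 5094572032 .leaf .leaf) (.cutY 5094572032 (.cutT 2186608640 .leaf (.cutY 2547286016 .leaf .leaf)) .leaf)) .leaf)) .leaf)) (.cutT 2071461888 (.cutY 61134864384 .leaf .leaf) (.cutY 61134864384 .leaf .leaf))),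 (.cutY 40756576256 (.cutT 2071461888 (.cutY 20378288128 .leaf .leaf) (.cutY 20378288128 .leaf .leaf)) .leaf), .leaf, .leaf, .leaf]
    [.leaf]
    [.leaf, .leaf, (.cutY 40756576256 .leaf (.cutT 2071461888 (.cutY 61134864384 .leaf .leaf) (.cutY 61134864384 .leaf .leaf))), .leaf, .leaf, .leaf]
    [.leaf, .leaf, .leaf, .leaf, .leaf, .leaf] = true :=
  splitCheck_of_parts superSR37_g superSR37_0 superSR37_1 superSR37_2 superSR37_j superSR37_3
    ((if_neg (by decide)).trans superSR37_4)

end Vale.Agent.P237.Quant
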