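import Vale.Agent.P237.Quant.PosData.SR37SuperPolys

/-!
Parts of the heavy checks of a spectral certificate, evaluated in the kernel.
-/

namespace Vale.Agent.P237.Quant

open Four.Checker

theorem superSR37_2_c0 : QP.checkTree elemSR37_2_0 ⟨81513152512, 1939865600, 1972764672, 0, 5094572032⟩
    .leaf = true := by decide +kernel

theorem superSR37_2_c1 : QP.checkTree elemSR37_2_0 ⟨81513152512, 1939865600, 1956315136, 5094572032, 10189144064⟩
    (.cutY 7641858048 (.cutT 1948090368 (.cutY 6368215040 .leaf .leaf) .leaf) .leaf) = true := by decide +kernel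

theorem superSR37_2_c2 : QP.checkTree elemSR37_2_0 ⟨81513152512, 1956315136, 1972764672, 5094572032, 10189144064⟩
    (.cutY 7641858048 .leaf .leaf) = true := by decide +kernel

theorem superSR37_2_c3 : QP.checkTree elemSR37_2_0 ⟨81513152512, 1972764672, 2005663744, 0, 10189144064⟩
    (.cutY 5094572032 .leaf .leaf) = true := by decide +kernel

theorem superSR37_2_c4 : QP.checkTree elemSR37_2_0 ⟨81513152512, 1939865600, 2005663744, 10189144064, 20378288128⟩
    .leaf = true := by decide +kernel

theorem superSR37_2_c5 : QP.checkTree elemSR37_2_0 ⟨81513152512, 2005663744, 2071461888, 0, 10189144064⟩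
    (.cutT 2038562816 (.cutY 5094572032 .leaf .leaf) (.cutY 5094572032 .leaf .leaf)) = true := by decide +kernel

theorem superSR37_2_c6 : QP.checkTree elemSR37_2_0 ⟨81513152512, 2005663744, 2071461888, 10189144064, 20378288128⟩
    .leaf = true := by decide +kernel

theorem superSR37_2_c7 : QP.checkTree elemSR37_2_0 ⟨81513152512, 1939865600, 2071461888, 20378288128, 40756576256⟩
    .leaf = true := by decide +kernel

end Vale.Agent.P237.Quant
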