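import Vale.Agent.P237.Quant.PosData.SR37Defs
import Vale.Agent.P237.Quant.CertSplit

/-!
The polynomials of the heavy checks of a spectral certificate, one by one.
-/

namespace Vale.Agent.P237.Quant

open Four.Checker

/-- Polynomials of a check of `SR37`. -/
def polysSR37_2 : List QP := (superPolys potSR37 famSR372 (CertGrid.chart (gridSR37.Y₂.qp QP.X) (junctionSR37.qp QP.X)))

/-- Polynomials of a check of `SR37`. -/
def elemSR37_2_0 : QP := (polysSR37_2).headD (QP.const 0 0)

/-- Polynomials of a check of `SR37`. -/
def elemSR37_2_1 : QP := (polysSR37_2.tail).headD (QP.const 0 0)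

end Vale.Agent.P237.Quant
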