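import Vale.Agent.P237.Quant.CertDefs

/-!
Data of a spectral certificate, checked by evaluation in the kernel.
-/

namespace Vale.Agent.P237.Quant

open Four.Checker

def potSR43 : CertPot := ⟨⟨7953, 0, 4999⟩, ⟨8029, 0, 39999⟩, ⟨-397, 398, 1999⟩, ⟨5837, -5837, 399999⟩, ⟨-605850, 496797, 39999999⟩, ⟨171497, 0, 199999⟩, ⟨41, 4745, 4999⟩⟩

def famSR430 : CertFam := ⟨⟨331064, -419417, 999999⟩, ⟨-1, 0, 0⟩, ⟨1, 0, 0⟩, ⟨-115997, -33109, 499999⟩, ⟨1, 0, 0⟩, ⟨0, 0, 0⟩, ⟨1, 0, 0⟩, ⟨1, 0, 0⟩, ⟨0, 0, 0⟩, ⟨0, 0, 0⟩⟩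

def famSR431 : CertFam := ⟨⟨-41315, 52808, 124999⟩, ⟨1, 0, 0⟩, ⟨1689489, -4443578, 499999⟩, ⟨-1, 0, 0⟩, ⟨1, 0, 0⟩, ⟨66681, 342868, 999999⟩, ⟨1, 0, 0⟩, ⟨1, 0, 0⟩, ⟨-1891929, -116797, 999999⟩, ⟨100951, 211994, 499999⟩⟩

def famSR432 : CertFam := ⟨⟨-1, 0, 0⟩, ⟨295043, 870115, 999999⟩, ⟨-1, 0, 0⟩, ⟨495290, -5806723, 999999⟩, ⟨1, 0, 0⟩, ⟨357291, -8260157, 499999⟩, ⟨506812, -3530893, 499999⟩, ⟨1039116, -23325557, 999999⟩, ⟨-3306341, 22135276, 999999⟩, ⟨558583, -3087027, 999999⟩⟩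

def famSR433 : CertFam := ⟨⟨1, 0, 0⟩, ⟨287022, 11188687, 999999⟩, ⟨1, 0, 0⟩, ⟨225, -995083, 999999⟩, ⟨1, 0, 0⟩, ⟨-863, -916301, 999999⟩, ⟨391141, -4390215, 249999⟩, ⟨1905677, -30394574, 999999⟩, ⟨2277878, -31443579, 999999⟩, ⟨235918, 183903, 499999⟩⟩

def junctionSR43 : Lin := ⟨15751, -49758, 1999⟩

def gridSR43 : CertGrid := ⟨⟨827, -1054, 2499⟩, ⟨33779, -88530, 9999⟩, ⟨43, 0, 0⟩, 121784762368, 2254438400, 2832203776, 2832204032, 24843911169⟩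

def testsSR43 : CertTests where
  P₁ := [(⟨1, 0, 0⟩, 2, 0), (⟨133, -5535, 4999⟩, 2, 2)]
  P₂ := [(⟨1, 0, 0⟩, 0, 1), (⟨157, -5780, 9999⟩, 0, 2)]
  T₁ := ⟨-928, 35805, 4999⟩
  T₂ := ⟨-6227, -14195, 4999⟩
  S₁ := ⟨7498, -16525, 4999⟩
  S₂ := ⟨589, 722, 399⟩
  mu := ⟨4039, 0, 4999⟩
  th := ⟨683, 2820, 9999⟩
  y₀ := ⟨7857, -24829, 999⟩
  R := ⟨9902, -32625, 1999⟩
  bnd := QP.ofNum 999999999 [[54951], [4686538]]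
  ka := QP.ofNum 999999 [[1015239], [-3481662]]
  I := 10
  J := 6
  N := 30

end Vale.Agent.P237.Quant
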