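import Vale.Agent.P237.Quant.PosData.SR43SuperPolys

/-!
Parts of the heavy checks of a spectral certificate, evaluated in the kernel.
-/

namespace Vale.Agent.P237.Quant

open Four.Checker

theorem superSR43_2_c0 : QP.checkTree elemSR43_2_0 ⟨121784762368, 2254438400, 2326659072, 0, 7611547648⟩
    .leaf = true := by decide +kernel

theorem superSR43_2_c1 : QP.checkTree elemSR43_2_0 ⟨121784762368, 2254438400, 2290548736, 7611547648, 15223095296⟩
    (.cutY 11417321472 (.cutT 2272493568 (.cutY 9514434560 .leaf .leaf) .leaf) .leaf) = true := by decide +kernel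

theorem superSR43_2_c2 : QP.checkTree elemSR43_2_0 ⟨121784762368, 2290548736, 2326659072, 7611547648, 15223095296⟩
    .leaf = true := by decide +kernel

theorem superSR43_2_c3 : QP.checkTree elemSR43_2_0 ⟨121784762368, 2326659072, 2398879744, 0, 15223095296⟩
    (.cutY 7611547648 .leaf .leaf) = true := by decide +kernel

theorem superSR43_2_c4 : QP.checkTree elemSR43_2_0 ⟨121784762368, 2254438400, 2398879744, 15223095296, 30446190592⟩
    .leaf = true := by decide +kernel

theorem superSR43_2_c5 : QP.checkTree elemSR43_2_0 ⟨121784762368, 2398879744, 2543321088, 0, 15223095296⟩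
    (.cutT 2471100416 (.cutY 7611547648 .leaf .leaf) (.cutY 7611547648 .leaf .leaf)) = true := by decide +kernel

theorem superSR43_2_c6 : QP.checkTree elemSR43_2_0 ⟨121784762368, 2398879744, 2543321088, 15223095296, 30446190592⟩
    .leaf = true := by decide +kernel

theorem superSR43_2_c7 : QP.checkTree elemSR43_2_0 ⟨121784762368, 2254438400, 2543321088, 30446190592, 60892381184⟩
    .leaf = true := by decide +kernel

end Vale.Agent.P237.Quant
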