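import Vale.Agent.P237.Quant.PosData.SR43Defs
import Vale.Agent.P237.Quant.CertSplit

/-!
One entry of the quadratic condition of a spectral certificate, evaluated in the kernel.
-/

namespace Vale.Agent.P237.Quant

open Four.Checker

theorem testsSR43_e0 : QP.checkTree ((testsSR43.matrix potSR43).headD (QP.const 0 0)) gridSR43.box .leaf = true := by decide +kernel

end Vale.Agent.P237.Quant
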