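import Vale.Agent.P237.Quant.CertDefs

/-!
Data of a spectral certificate, checked by evaluation in the kernel.
-/

namespace Vale.Agent.P237.Quant

open Four.Checker

def potSR55 : CertPot := ⟨⟨7953, 0, 4999⟩, ⟨8029, 0, 39999⟩, ⟨-2050, 2055, 9999⟩, ⟨145925, -145925, 9999999⟩, ⟨-1514625, 1242000, 99999999⟩, ⟨857485, 0, 999999⟩, ⟨139, 4250, 9999⟩⟩

def famSR550 : CertFam := ⟨⟨331003, -366667, 999999⟩, ⟨-1, 0, 0⟩, ⟨1, 0, 0⟩, ⟨-114419, 38562, 499999⟩, ⟨1, 0, 0⟩, ⟨0, 0, 0⟩, ⟨1, 0, 0⟩, ⟨1, 0, 0⟩, ⟨0, 0, 0⟩, ⟨0, 0, 0⟩⟩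

def famSR551 : CertFam := ⟨⟨-330452, 371576, 999999⟩, ⟨1000000, 0, 999999⟩, ⟨3401417, -8751448, 999999⟩, ⟨-1000000, 0, 999999⟩, ⟨1000000, 0, 999999⟩, ⟨109699, -14524, 999999⟩, ⟨1000000, 0, 999999⟩, ⟨1000000, 0, 999999⟩, ⟨-1203376, -286040, 999999⟩, ⟨197964, 89805, 999999⟩⟩

def famSR552 : CertFam := ⟨⟨-1000032, 0, 999999⟩, ⟨293781, 808244, 999999⟩, ⟨-1003806, 0, 999999⟩, ⟨416438, -2325339, 999999⟩, ⟨826680, -56515703, 999999⟩, ⟨974431, 0, 999999⟩, ⟨900597, 1945454, 999999⟩, ⟨790736, -10902664, 999999⟩, ⟨-2066645, 3321676, 999999⟩, ⟨471389, 94366, 999999⟩⟩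

def famSR553 : CertFam := ⟨⟨792870, 0, 999999⟩, ⟨598786, -22976617, 999999⟩, ⟨1007798, 0, 999999⟩, ⟨262, -1015074, 999999⟩, ⟨987898, 0, 999999⟩, ⟨-725, -896294, 999999⟩, ⟨963661, 20133260, 999999⟩, ⟨2373489, -38201958, 999999⟩, ⟨2971715, -53916760, 999999⟩, ⟨489948, -189155, 999999⟩⟩

def junctionSR55 : Lin := ⟨7914869, -27144079, 999999⟩

def gridSR55 : CertGrid := ⟨⟨3307, -3712, 9999⟩, ⟨3399500, -8660300, 999999⟩, ⟨55, 0, 0⟩, 285532487680, 2883584000, 5191499776, 5191500032, 126935367681⟩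

def testsSR55 : CertTests where
  P₁ := [(⟨1, 0, 0⟩, 2, 0), (⟨342, -10517, 9999⟩, 2, 2)]
  P₂ := [(⟨1, 0, 0⟩, 0, 1), (⟨321, -11226, 9999⟩, 0, 2)]
  T₁ := ⟨-2189, 99626, 9999⟩
  T₂ := ⟨-13072, 20471, 9999⟩
  S₁ := ⟨15418, -35371, 9999⟩
  S₂ := ⟨15601, -16829, 9999⟩
  mu := ⟨4039, 0, 4999⟩
  th := ⟨632, -2298, 9999⟩
  y₀ := ⟨1973, -6707, 249⟩
  R := ⟨49688, -173311, 9999⟩
  bnd := QP.ofNum 999999999 [[68907], [3938193]]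
  ka := QP.ofNum 999999 [[1019589], [-1888205], [-100424263]]
  I := 10
  J := 6
  N := 30

end Vale.Agent.P237.Quant
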