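import Vale.Agent.P237.Quant.PosData.SR55SuperPolys

/-!
Parts of the heavy checks of a spectral certificate, evaluated in the kernel.
-/

namespace Vale.Agent.P237.Quant

open Four.Checker

theorem superSR55_2_c0 : QP.checkTree elemSR55_2_0 ⟨285532487680, 2883584000, 3172073472, 0, 17845780480⟩
    .leaf = true := by decide +kernel

theorem superSR55_2_c1 : QP.checkTree elemSR55_2_0 ⟨285532487680, 2883584000, 2919645184, 17845780480, 22307225600⟩
    (.cutY 20076503040 (.cutT 2901614592 (.cutY 18961141760 .leaf .leaf) .leaf) .leaf) = true := by decide +kernel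

theorem superSR55_2_c2 : QP.checkTree elemSR55_2_0 ⟨285532487680, 2919645184, 2955706368, 17845780480, 22307225600⟩
    .leaf = true := by decide +kernel

theorem superSR55_2_c3 : QP.checkTree elemSR55_2_0 ⟨285532487680, 2883584000, 2955706368, 22307225600, 26768670720⟩
    .leaf = true := by decide +kernel

theorem superSR55_2_c4 : QP.checkTree elemSR55_2_0 ⟨285532487680, 2955706368, 3027828736, 17845780480, 26768670720⟩
    .leaf = true := by decide +kernel

theorem superSR55_2_c5 : QP.checkTree elemSR55_2_0 ⟨285532487680, 2883584000, 3027828736, 26768670720, 35691560960⟩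
    .leaf = true := by decide +kernel

theorem superSR55_2_c6 : QP.checkTree elemSR55_2_0 ⟨285532487680, 3027828736, 3172073472, 17845780480, 35691560960⟩
    .leaf = true := by decide +kernel

theorem superSR55_2_c7 : QP.checkTree elemSR55_2_0 ⟨285532487680, 3172073472, 3460562944, 0, 35691560960⟩
    (.cutY 17845780480 .leaf .leaf) = true := by decide +kernel

end Vale.Agent.P237.Quant
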