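import Vale.Agent.P237.Quant.PosData.SR55Defs
import Vale.Agent.P237.Quant.CertSplit

/-!
The polynomials of the heavy checks of a spectral certificate, one by one.
-/

namespace Vale.Agent.P237.Quant

open Four.Checker

/-- Polynomials of a check of `SR55`. -/
def polysSR55_2 : List QP := (superPolys potSR55 famSR552 (CertGrid.chart (gridSR55.Y₂.qp QP.X) (junctionSR55.qp QP.X)))

/-- Polynomials of a check of `SR55`. -/
def elemSR55_2_0 : QP := (polysSR55_2).headD (QP.const 0 0)

/-- Polynomials of a check of `SR55`. -/
def elemSR55_2_1 : QP := (polysSR55_2.tail).headD (QP.const 0 0)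

/-- Polynomials of a check of `SR55`. -/
def polysSR55_4 : List QP := (fluxPoly famSR553 CertGrid.farChartS :: superPolys potSR55 famSR553 CertGrid.farChartS)

/-- Polynomials of a check of `SR55`. -/
def elemSR55_4_0 : QP := (polysSR55_4).headD (QP.const 0 0)

/-- Polynomials of a check of `SR55`. -/
def elemSR55_4_1 : QP := (polysSR55_4.tail).headD (QP.const 0 0)

/-- Polynomials of a check of `SR55`. -/
def elemSR55_4_2 : QP := (polysSR55_4.tail.tail).headD (QP.const 0 0)

end Vale.Agent.P237.Quant
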