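import Vale.Agent.P237.Quant.CertDefs

/-!
Data of a spectral certificate, checked by evaluation in the kernel.
-/

namespace Vale.Agent.P237.Quant

open Four.Checker

def potSU100 : CertPot := ⟨⟨3, 0, 1⟩, ⟨31, 0, 159⟩, ⟨31, -30, 1999⟩, ⟨289, -289, 7999⟩, ⟨-14450, 11849, 799999⟩, ⟨3909, 0, 3999⟩, ⟨118, 1735, 2499⟩⟩

def famSU1000 : CertFam := ⟨⟨42434, -87297, 124999⟩, ⟨-1, 0, 0⟩, ⟨1, 0, 0⟩, ⟨-109239, 373828, 499999⟩, ⟨1, 0, 0⟩, ⟨0, 0, 0⟩, ⟨1, 0, 0⟩, ⟨1, 0, 0⟩, ⟨0, 0, 0⟩, ⟨0, 0, 0⟩⟩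

def famSU1001 : CertFam := ⟨⟨-339327, 762730, 999999⟩, ⟨1, 0, 0⟩, ⟨427559, -964478, 124999⟩, ⟨-1, 0, 0⟩, ⟨1, 0, 0⟩, ⟨84883, -298432, 999999⟩, ⟨1, 0, 0⟩, ⟨1, 0, 0⟩, ⟨-1581853, -3706626, 999999⟩, ⟨206695, 218422, 999999⟩⟩

def famSU1002 : CertFam := ⟨⟨-1, 0, 0⟩, ⟨146146, 342533, 499999⟩, ⟨-1, 0, 0⟩, ⟨358729, -676824, 999999⟩, ⟨1, 0, 0⟩, ⟨107038, 11791971, 499999⟩, ⟨958698, -4800691, 999999⟩, ⟨28407, 875200, 99999⟩, ⟨-1424276, -2507813, 999999⟩, ⟨398196, 402587, 999999⟩⟩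

def famSU1003 : CertFam := ⟨⟨1, 0, 0⟩, ⟨-59, -455757, 499999⟩, ⟨1, 0, 0⟩, ⟨-38, -471151, 499999⟩, ⟨-1, 0, 0⟩, ⟨715664, -12351469, 999999⟩, ⟨1490128, -33650937, 999999⟩, ⟨1629981, -34426095, 999999⟩, ⟨1218377, -11467381, 999999⟩, ⟨367028, 2102981, 999999⟩⟩

def junctionSU100 : Lin := ⟨38707, -133785, 4999⟩

def gridSU100 : CertGrid := ⟨⟨3397, -7711, 9999⟩, ⟨34201, -77110, 9999⟩, ⟨100, 0, 0⟩, 707893657600, 5242880000, 7078936576, 7078936832, 183605657601⟩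

def testsSU100 : CertTests where
  P₁ := [(⟨1, 0, 0⟩, 2, 0), (⟨-41, 1665, 2499⟩, 2, 2)]
  P₂ := [(⟨1, 0, 0⟩, 0, 1), (⟨41, 4370, 9999⟩, 0, 2)]
  T₁ := ⟨473, -27250, 4999⟩
  T₂ := ⟨-13187, -100090, 9999⟩
  S₁ := ⟨7417, 20140, 4999⟩
  S₂ := ⟨16183, 62390, 9999⟩
  mu := ⟨17, 0, 19⟩
  th := ⟨1032, -2075, 4999⟩
  y₀ := ⟨1931, -6676, 249⟩
  R := ⟨49198, -174425, 9999⟩
  bnd := QP.ofNum 999999999 [[90168], [3912433]]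
  ka := QP.ofNum 999999 [[918580], [-765624]]
  I := 10
  J := 6
  N := 30

end Vale.Agent.P237.Quant
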