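import Vale.Agent.P237.Quant.PosData.SU100SuperPolys

/-!
Parts of the heavy checks of a spectral certificate, evaluated in the kernel.
-/

namespace Vale.Agent.P237.Quant

open Four.Checker

theorem superSU100_2_c0 : QP.checkTree elemSU100_2_0 ⟨707893657600, 5242880000, 5472387072, 0, 44243353600⟩
    .leaf = true := by decide +kernel

theorem superSU100_2_c1 : QP.checkTree elemSU100_2_0 ⟨707893657600, 5242880000, 5357633536, 44243353600, 66365030400⟩
    (.cutT 5300256768 (.cutY 55304192000 .leaf .leaf) (.cutY 55304192000 .leaf .leaf)) = true := by decide +kernel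

theorem superSU100_2_c2 : QP.checkTree elemSU100_2_0 ⟨707893657600, 5242880000, 5357633536, 66365030400, 88486707200⟩
    .leaf = true := by decide +kernel

theorem superSU100_2_c3 : QP.checkTree elemSU100_2_0 ⟨707893657600, 5357633536, 5472387072, 44243353600, 88486707200⟩
    (.cutY 66365030400 .leaf .leaf) = true := by decide +kernel

theorem superSU100_2_c4 : QP.checkTree elemSU100_2_0 ⟨707893657600, 5472387072, 5701894144, 0, 44243353600⟩
    .leaf = true := by decide +kernel

theorem superSU100_2_c5 : QP.checkTree elemSU100_2_0 ⟨707893657600, 5472387072, 5701894144, 44243353600, 88486707200⟩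
    (.cutT 5587140608 (.cutY 66365030400 .leaf .leaf) (.cutY 66365030400 .leaf .leaf)) = true := by decide +kernel

theorem superSU100_2_c6 : QP.checkTree elemSU100_2_0 ⟨707893657600, 5242880000, 5701894144, 88486707200, 176973414400⟩
    .leaf = true := by decide +kernel

theorem superSU100_2_c7 : QP.checkTree elemSU100_2_0 ⟨707893657600, 5701894144, 6160908288, 0, 88486707200⟩
    (.cutT 5931401216 (.cutY 44243353600 .leaf .leaf) (.cutY 44243353600 .leaf .leaf)) = true := by decide +kernel

end Vale.Agent.P237.Quant
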