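import Vale.Agent.P237.Quant.PosData.SU100Defs
import Vale.Agent.P237.Quant.CertSplit

/-!
The polynomials of the heavy checks of a spectral certificate, one by one.
-/

namespace Vale.Agent.P237.Quant

open Four.Checker

/-- Polynomials of a check of `SU100`. -/
def polysSU100_2 : List QP := (superPolys potSU100 famSU1002 (CertGrid.chart (gridSU100.Y₂.qp QP.X) (junctionSU100.qp QP.X)))

/-- Polynomials of a check of `SU100`. -/
def elemSU100_2_0 : QP := (polysSU100_2).headD (QP.const 0 0)

/-- Polynomials of a check of `SU100`. -/
def elemSU100_2_1 : QP := (polysSU100_2.tail).headD (QP.const 0 0)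

end Vale.Agent.P237.Quant
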