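import Vale.Agent.P237.Quant.CertDefs

/-!
Data of a spectral certificate, checked by evaluation in the kernel.
-/

namespace Vale.Agent.P237.Quant

open Four.Checker

def potSU135 : CertPot := ⟨⟨3, 0, 1⟩, ⟨31, 0, 159⟩, ⟨47, -46, 1999⟩, ⟨289, -289, 7999⟩, ⟨-14450, 11849, 799999⟩, ⟨3909, 0, 3999⟩, ⟨439, 3400, 9999⟩⟩

def famSU1350 : CertFam := ⟨⟨328717, 753737, 999999⟩, ⟨-1, 0, 0⟩, ⟨1, 0, 0⟩, ⟨-213090, 20277, 999999⟩, ⟨1, 0, 0⟩, ⟨0, 0, 0⟩, ⟨1, 0, 0⟩, ⟨1, 0, 0⟩, ⟨0, 0, 0⟩, ⟨0, 0, 0⟩⟩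

def famSU1351 : CertFam := ⟨⟨-328214, -732241, 999999⟩, ⟨1, 0, 0⟩, ⟨3424975, -8326107, 999999⟩, ⟨-1, 0, 0⟩, ⟨1, 0, 0⟩, ⟨59171, -964787, 499999⟩, ⟨1, 0, 0⟩, ⟨1, 0, 0⟩, ⟨-1165454, -5137211, 999999⟩, ⟨192591, 1382491, 999999⟩⟩

def famSU1352 : CertFam := ⟨⟨-1, 0, 0⟩, ⟨145982, 364413, 499999⟩, ⟨-1, 0, 0⟩, ⟨344402, 176727, 999999⟩, ⟨1, 0, 0⟩, ⟨223511, 1392934, 999999⟩, ⟨878729, -764879, 999999⟩, ⟨403604, 3219117, 999999⟩, ⟨-2180729, -52340838, 999999⟩, ⟨222937, 1426074, 499999⟩⟩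

def famSU1353 : CertFam := ⟨⟨-1, 0, 0⟩, ⟨493305, 9311819, 999999⟩, ⟨1, 0, 0⟩, ⟨41, -1001344, 999999⟩, ⟨1, 0, 0⟩, ⟨94, -993941, 999999⟩, ⟨1006643, 10170252, 999999⟩, ⟨1275095, 20584546, 999999⟩, ⟨2190353, -16277342, 999999⟩, ⟨376999, 2283542, 999999⟩⟩

def junctionSU135 : Lin := ⟨77428, -269521, 9999⟩

def gridSU135 : CertGrid := ⟨⟨3284, 7559, 9999⟩, ⟨17123, -41573, 4999⟩, ⟨135, 0, 0⟩, 1486498037760, 7077888000, 11011096576, 11011096832, 530983157761⟩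

def testsSU135 : CertTests where
  P₁ := [(⟨1, 0, 0⟩, 2, 0), (⟨-57, 14075, 4999⟩, 2, 2)]
  P₂ := [(⟨1, 0, 0⟩, 0, 1), (⟨22, 11305, 4999⟩, 0, 2)]
  T₁ := ⟨134, -54395, 2499⟩
  T₂ := ⟨-6671, -125375, 4999⟩
  S₁ := ⟨15133, 137320, 9999⟩
  S₂ := ⟨8123, 74615, 4999⟩
  mu := ⟨17, 0, 19⟩
  th := ⟨1144, -20065, 4999⟩
  y₀ := ⟨7725, -26898, 999⟩
  R := ⟨49214, -176747, 9999⟩
  bnd := QP.ofNum 999999999 [[92667], [3582349]]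
  ka := QP.ofNum 999999 [[949806], [0]]
  I := 10
  J := 6
  N := 30

end Vale.Agent.P237.Quant
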