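import Vale.Agent.P237.Quant.PosData.SU135SuperPolys

/-!
Parts of the heavy checks of a spectral certificate, evaluated in the kernel.
-/

namespace Vale.Agent.P237.Quant

open Four.Checker

theorem superSU135_2_c0 : QP.checkTree elemSU135_2_0 ⟨1486498037760, 7077888000, 7569539072, 0, 92906127360⟩
    .leaf = true := by decide +kernel

theorem superSU135_2_c1 : QP.checkTree elemSU135_2_0 ⟨1486498037760, 7077888000, 7323713536, 92906127360, 139359191040⟩
    (.cutT 7200800768 (.cutY 116132659200 .leaf .leaf) (.cutY 116132659200 .leaf .leaf)) = true := by decide +kernel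

theorem superSU135_2_c2 : QP.checkTree elemSU135_2_0 ⟨1486498037760, 7077888000, 7323713536, 139359191040, 185812254720⟩
    .leaf = true := by decide +kernel

theorem superSU135_2_c3 : QP.checkTree elemSU135_2_0 ⟨1486498037760, 7323713536, 7569539072, 92906127360, 139359191040⟩
    (.cutT 7446626304 (.cutY 116132659200 .leaf .leaf) (.cutY 116132659200 .leaf .leaf)) = true := by decide +kernel

theorem superSU135_2_c4 : QP.checkTree elemSU135_2_0 ⟨1486498037760, 7323713536, 7569539072, 139359191040, 185812254720⟩
    .leaf = true := by decide +kernel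

theorem superSU135_2_c5 : QP.checkTree elemSU135_2_0 ⟨1486498037760, 7569539072, 8061190144, 0, 92906127360⟩
    .leaf = true := by decide +kernel

theorem superSU135_2_c6 : QP.checkTree elemSU135_2_0 ⟨1486498037760, 7569539072, 7815364608, 92906127360, 139359191040⟩
    (.cutT 7692451840 (.cutY 116132659200 .leaf .leaf) (.cutY 116132659200 .leaf .leaf)) = true := by decide +kernel

theorem superSU135_2_c7 : QP.checkTree elemSU135_2_0 ⟨1486498037760, 7569539072, 7815364608, 139359191040, 185812254720⟩
    .leaf = true := by decide +kernel

end Vale.Agent.P237.Quant
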