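import Vale.Agent.P237.Quant.PosData.SU135Defs
import Vale.Agent.P237.Quant.CertSplit

/-!
The polynomials of the heavy checks of a spectral certificate, one by one.
-/

namespace Vale.Agent.P237.Quant

open Four.Checker

/-- Polynomials of a check of `SU135`. -/
def polysSU135_2 : List QP := (superPolys potSU135 famSU1352 (CertGrid.chart (gridSU135.Y₂.qp QP.X) (junctionSU135.qp QP.X)))

/-- Polynomials of a check of `SU135`. -/
def elemSU135_2_0 : QP := (polysSU135_2).headD (QP.const 0 0)

/-- Polynomials of a check of `SU135`. -/
def elemSU135_2_1 : QP := (polysSU135_2.tail).headD (QP.const 0 0)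

/-- Polynomials of a check of `SU135`. -/
def polysSU135_3 : List QP := (fluxPoly famSU1353 (CertGrid.chart (junctionSU135.qp QP.X) (gridSU135.Y₃.qp QP.X)) :: superPolys potSU135 famSU1353 (CertGrid.chart (junctionSU135.qp QP.X) (gridSU135.Y₃.qp QP.X)))

/-- Polynomials of a check of `SU135`. -/
def elemSU135_3_0 : QP := (polysSU135_3).headD (QP.const 0 0)

/-- Polynomials of a check of `SU135`. -/
def elemSU135_3_1 : QP := (polysSU135_3.tail).headD (QP.const 0 0)

/-- Polynomials of a check of `SU135`. -/
def elemSU135_3_2 : QP := (polysSU135_3.tail.tail).headD (QP.const 0 0)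

/-- Polynomials of a check of `SU135`. -/
def polysSU135_4 : List QP := (fluxPoly famSU1353 CertGrid.farChartS :: superPolys potSU135 famSU1353 CertGrid.farChartS)

/-- Polynomials of a check of `SU135`. -/
def elemSU135_4_0 : QP := (polysSU135_4).headD (QP.const 0 0)

/-- Polynomials of a check of `SU135`. -/
def elemSU135_4_1 : QP := (polysSU135_4.tail).headD (QP.const 0 0)

/-- Polynomials of a check of `SU135`. -/
def elemSU135_4_2 : QP := (polysSU135_4.tail.tail).headD (QP.const 0 0)

end Vale.Agent.P237.Quant
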