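import Vale.Agent.P237.Quant.CertDefs

/-!
Data of a spectral certificate, checked by evaluation in the kernel.
-/

namespace Vale.Agent.P237.Quant

open Four.Checker

def potSU210 : CertPot := ⟨⟨3, 0, 1⟩, ⟨31, 0, 159⟩, ⟨41, -40, 1999⟩, ⟨289, -289, 7999⟩, ⟨-14450, 11849, 799999⟩, ⟨3909, 0, 3999⟩, ⟨233, 2835, 4999⟩⟩

def famSU2100 : CertFam := ⟨⟨67660, -251973, 199999⟩, ⟨-1, 0, 0⟩, ⟨1, 0, 0⟩, ⟨-214843, 15241, 999999⟩, ⟨1, 0, 0⟩, ⟨0, 0, 0⟩, ⟨1, 0, 0⟩, ⟨1, 0, 0⟩, ⟨0, 0, 0⟩, ⟨0, 0, 0⟩⟩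

def famSU2101 : CertFam := ⟨⟨-84400, 309733, 249999⟩, ⟨1, 0, 0⟩, ⟨3421407, -7580037, 999999⟩, ⟨-1, 0, 0⟩, ⟨1, 0, 0⟩, ⟨13227, -60032, 124999⟩, ⟨1, 0, 0⟩, ⟨1, 0, 0⟩, ⟨-1259231, 1696696, 999999⟩, ⟨200557, -68758, 999999⟩⟩

def famSU2102 : CertFam := ⟨⟨-1, 0, 0⟩, ⟨73075, 164349, 249999⟩, ⟨-1, 0, 0⟩, ⟨166817, 9960190, 499999⟩, ⟨1, 0, 0⟩, ⟨907901, -19528226, 999999⟩, ⟨921121, 6390663, 999999⟩, ⟨351059, 67029800, 999999⟩, ⟨-1291363, -159921342, 999999⟩, ⟨411089, 4871567, 999999⟩⟩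

def famSU2103 : CertFam := ⟨⟨-1, 0, 0⟩, ⟨493537, 8067192, 999999⟩, ⟨1, 0, 0⟩, ⟨545, -1056011, 999999⟩, ⟨1, 0, 0⟩, ⟨413, -1036423, 999999⟩, ⟨497807, 6511384, 499999⟩, ⟨2381523, -86410361, 999999⟩, ⟨2409570, 86839641, 999999⟩, ⟨375991, 3614792, 999999⟩⟩

def junctionSU210 : Lin := ⟨77428, -269409, 9999⟩

def gridSU210 : CertGrid := ⟨⟨169, -630, 499⟩, ⟨3421, -7560, 999⟩, ⟨210, 0, 0⟩, 660602880, 2097152, 3145728, 3145984, 220200961⟩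

def testsSU210 : CertTests where
  P₁ := [(⟨1, 0, 0⟩, 2, 0), (⟨-87, 7140, 4999⟩, 2, 2)]
  P₂ := [(⟨1, 0, 0⟩, 0, 1), (⟨7, 11300, 9999⟩, 0, 2)]
  T₁ := ⟨1053, -116910, 9999⟩
  T₂ := ⟨-13021, -153750, 9999⟩
  S₁ := ⟨7409, 38400, 4999⟩
  S₂ := ⟨4017, 23585, 2499⟩
  mu := ⟨17, 0, 19⟩
  th := ⟨1022, 4425, 4999⟩
  y₀ := ⟨7725, -26887, 999⟩
  R := ⟨49221, -178114, 9999⟩
  bnd := QP.ofNum 999999999 [[93923], [3317078]]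
  ka := QP.ofNum 999999 [[927972], [-47673]]
  I := 10
  J := 6
  N := 30

end Vale.Agent.P237.Quant
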