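import Vale.Agent.P237.Quant.PosData.SU210SuperPolys

/-!
Parts of the heavy checks of a spectral certificate, evaluated in the kernel.
-/

namespace Vale.Agent.P237.Quant

open Four.Checker

theorem superSU210_2_c0 : QP.checkTree elemSU210_2_0 ⟨660602880, 2097152, 2228224, 0, 41287680⟩
    .leaf = true := by decide +kernel

theorem superSU210_2_c1 : QP.checkTree elemSU210_2_0 ⟨660602880, 2097152, 2162688, 41287680, 82575360⟩
    (.cutY 61931520 (.cutT 2129920 (.cutY 51609600 .leaf .leaf) .leaf) .leaf) = true := by decide +kernel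

theorem superSU210_2_c2 : QP.checkTree elemSU210_2_0 ⟨660602880, 2162688, 2228224, 41287680, 82575360⟩
    (.cutY 61931520 .leaf .leaf) = true := by decide +kernel

theorem superSU210_2_c3 : QP.checkTree elemSU210_2_0 ⟨660602880, 2228224, 2359296, 0, 41287680⟩
    .leaf = true := by decide +kernel

theorem superSU210_2_c4 : QP.checkTree elemSU210_2_0 ⟨660602880, 2228224, 2359296, 41287680, 82575360⟩
    (.cutT 2293760 (.cutY 61931520 .leaf .leaf) (.cutY 61931520 .leaf .leaf)) = true := by decide +kernel

theorem superSU210_2_c5 : QP.checkTree elemSU210_2_0 ⟨660602880, 2097152, 2359296, 82575360, 165150720⟩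
    .leaf = true := by decide +kernel

theorem superSU210_2_c6 : QP.checkTree elemSU210_2_0 ⟨660602880, 2359296, 2621440, 0, 82575360⟩
    (.cutT 2490368 (.cutY 41287680 .leaf .leaf) (.cutY 41287680 .leaf .leaf)) = true := by decide +kernel

theorem superSU210_2_c7 : QP.checkTree elemSU210_2_0 ⟨660602880, 2359296, 2621440, 82575360, 165150720⟩
    .leaf = true := by decide +kernel

end Vale.Agent.P237.Quant
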