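import Vale.Agent.P237.Quant.CertDefs

/-!
Data of a spectral certificate, checked by evaluation in the kernel.
-/

namespace Vale.Agent.P237.Quant

open Four.Checker

def potSU315 : CertPot := ⟨⟨3, 0, 1⟩, ⟨31, 0, 159⟩, ⟨31, -30, 1999⟩, ⟨289, -289, 7999⟩, ⟨-14450, 11849, 799999⟩, ⟨3909, 0, 3999⟩, ⟨441, 0, 9999⟩⟩

def famSU3150 : CertFam := ⟨⟨165551, 503747, 499999⟩, ⟨-1, 0, 0⟩, ⟨1, 0, 0⟩, ⟨-214385, -128842, 999999⟩, ⟨1, 0, 0⟩, ⟨0, 0, 0⟩, ⟨1, 0, 0⟩, ⟨1, 0, 0⟩, ⟨0, 0, 0⟩, ⟨0, 0, 0⟩⟩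

def famSU3151 : CertFam := ⟨⟨-330366, -1050189, 999999⟩, ⟨1, 0, 0⟩, ⟨3410611, -4189867, 999999⟩, ⟨-1, 0, 0⟩, ⟨1, 0, 0⟩, ⟨55473, -1310936, 499999⟩, ⟨1, 0, 0⟩, ⟨1, 0, 0⟩, ⟨-1245423, 874569, 999999⟩, ⟨25016, -33317, 124999⟩⟩

def famSU3152 : CertFam := ⟨⟨-1, 0, 0⟩, ⟨293241, 361562, 999999⟩, ⟨-1, 0, 0⟩, ⟨210774, -5927347, 499999⟩, ⟨1, 0, 0⟩, ⟨72387, 8197272, 249999⟩, ⟨481969, -241900, 499999⟩, ⟨448086, -8400355, 999999⟩, ⟨-1780340, -113081377, 999999⟩, ⟨203289, 7401075, 499999⟩⟩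

def famSU3153 : CertFam := ⟨⟨1, 0, 0⟩, ⟨37, -992419, 999999⟩, ⟨1, 0, 0⟩, ⟨14, -997197, 999999⟩, ⟨-1, 0, 0⟩, ⟨128577, -57945, 249999⟩, ⟨713961, -44724012, 499999⟩, ⟨1389259, -90576726, 999999⟩, ⟨504978, 3736059, 499999⟩, ⟨94771, 134923, 249999⟩⟩

def junctionSU315 : Lin := ⟨77425, -268438, 9999⟩

def gridSU315 : CertGrid := ⟨⟨3307, 10500, 9999⟩, ⟨34103, -42000, 9999⟩, ⟨315, 0, 0⟩, 3303014400, 7340032, 10485760, 10486016, 990904321⟩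

def testsSU315 : CertTests where
  P₁ := [(⟨1, 0, 0⟩, 2, 0), (⟨-51, 12105, 2499⟩, 2, 2)]
  P₂ := [(⟨1, 0, 0⟩, 0, 1), (⟨-14, 21305, 4999⟩, 0, 2)]
  T₁ := ⟨319, -96015, 2499⟩
  T₂ := ⟨-12631, -401910, 9999⟩
  S₁ := ⟨7301, 117865, 4999⟩
  S₂ := ⟨1582, 24165, 999⟩
  mu := ⟨17, 0, 19⟩
  th := ⟨413, 156, 1999⟩
  y₀ := ⟨1545, -5358, 199⟩
  R := ⟨49223, -178651, 9999⟩
  bnd := QP.ofNum 999999999 [[94395], [3158401]]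
  ka := QP.ofNum 999999 [[938768], [691018]]
  I := 10
  J := 6
  N := 30

end Vale.Agent.P237.Quant
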