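import Vale.Agent.P237.Quant.PosData.SU315SuperPolys

/-!
Parts of the heavy checks of a spectral certificate, evaluated in the kernel.
-/

namespace Vale.Agent.P237.Quant

open Four.Checker

theorem superSU315_2_c0 : QP.checkTree elemSU315_2_0 ⟨3303014400, 7340032, 8126464, 0, 412876800⟩
    (.cutT 7733248 (.cutY 206438400 .leaf .leaf) (.cutY 206438400 .leaf .leaf)) = true := by decide +kernel

theorem superSU315_2_c1 : QP.checkTree elemSU315_2_0 ⟨3303014400, 7340032, 8126464, 412876800, 825753600⟩
    .leaf = true := by decide +kernel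

theorem superSU315_2_c2 : QP.checkTree elemSU315_2_0 ⟨3303014400, 8126464, 8912896, 0, 412876800⟩
    (.cutT 8519680 (.cutY 206438400 .leaf .leaf) (.cutY 206438400 .leaf .leaf)) = true := by decide +kernel

theorem superSU315_2_c3 : QP.checkTree elemSU315_2_0 ⟨3303014400, 8126464, 8912896, 412876800, 825753600⟩
    .leaf = true := by decide +kernel

theorem superSU315_2_c4 : QP.checkTree elemSU315_2_0 ⟨3303014400, 7340032, 8912896, 825753600, 1651507200⟩
    .leaf = true := by decide +kernel

theorem superSU315_2_c5 : QP.checkTree elemSU315_2_0 ⟨3303014400, 8912896, 9699328, 0, 412876800⟩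
    (.cutT 9306112 (.cutY 206438400 .leaf .leaf) (.cutY 206438400 .leaf .leaf)) = true := by decide +kernel

theorem superSU315_2_c6 : QP.checkTree elemSU315_2_0 ⟨3303014400, 8912896, 9699328, 412876800, 825753600⟩
    .leaf = true := by decide +kernel

theorem superSU315_2_c7 : QP.checkTree elemSU315_2_0 ⟨3303014400, 9699328, 10485760, 0, 412876800⟩
    (.cutT 10092544 (.cutY 206438400 .leaf .leaf) (.cutY 206438400 .leaf .leaf)) = true := by decide +kernel

end Vale.Agent.P237.Quant
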