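import Vale.Agent.P237.Quant.PosData.SU315Defs
import Vale.Agent.P237.Quant.CertSplit

/-!
The polynomials of the heavy checks of a spectral certificate, one by one.
-/

namespace Vale.Agent.P237.Quant

open Four.Checker

/-- Polynomials of a check of `SU315`. -/
def polysSU315_2 : List QP := (superPolys potSU315 famSU3152 (CertGrid.chart (gridSU315.Y₂.qp QP.X) (junctionSU315.qp QP.X)))

/-- Polynomials of a check of `SU315`. -/
def elemSU315_2_0 : QP := (polysSU315_2).headD (QP.const 0 0)

/-- Polynomials of a check of `SU315`. -/
def elemSU315_2_1 : QP := (polysSU315_2.tail).headD (QP.const 0 0)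

/-- Polynomials of a check of `SU315`. -/
def polysSU315_3 : List QP := (fluxPoly famSU3153 (CertGrid.chart (junctionSU315.qp QP.X) (gridSU315.Y₃.qp QP.X)) :: superPolys potSU315 famSU3153 (CertGrid.chart (junctionSU315.qp QP.X) (gridSU315.Y₃.qp QP.X)))

/-- Polynomials of a check of `SU315`. -/
def elemSU315_3_0 : QP := (polysSU315_3).headD (QP.const 0 0)

/-- Polynomials of a check of `SU315`. -/
def elemSU315_3_1 : QP := (polysSU315_3.tail).headD (QP.const 0 0)

/-- Polynomials of a check of `SU315`. -/
def elemSU315_3_2 : QP := (polysSU315_3.tail.tail).headD (QP.const 0 0)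

/-- Polynomials of a check of `SU315`. -/
def polysSU315_4 : List QP := (fluxPoly famSU3153 CertGrid.farChartS :: superPolys potSU315 famSU3153 CertGrid.farChartS)

/-- Polynomials of a check of `SU315`. -/
def elemSU315_4_0 : QP := (polysSU315_4).headD (QP.const 0 0)

/-- Polynomials of a check of `SU315`. -/
def elemSU315_4_1 : QP := (polysSU315_4.tail).headD (QP.const 0 0)

/-- Polynomials of a check of `SU315`. -/
def elemSU315_4_2 : QP := (polysSU315_4.tail.tail).headD (QP.const 0 0)

end Vale.Agent.P237.Quant
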