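import Vale.Agent.P237.Quant.PosData.SU315Defs
import Vale.Agent.P237.Quant.CertSplit

/-!
One entry of the quadratic condition of a spectral certificate, evaluated in the kernel.
-/

namespace Vale.Agent.P237.Quant

open Four.Checker

theorem testsSU315_e1 : QP.checkTree ((testsSU315.matrix potSU315).tail.headD (QP.const 0 0)) gridSU315.box .leaf = true := by decide +kernel

end Vale.Agent.P237.Quant
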