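import Vale.Agent.P237.Quant.PosData.SU315TestsEntry0
import Vale.Agent.P237.Quant.PosData.SU315TestsEntry1
import Vale.Agent.P237.Quant.CertSplitTests

/-!
Data of a spectral certificate, checked by evaluation in the kernel.
-/

namespace Vale.Agent.P237.Quant

open Four.Checker

theorem testsSU315_shape : testsSU315.shapeOK potSU315 = true := by decide +kernel

theorem testsSU315_scalars : checkAll gridSU315.box (testsSU315.scalars potSU315 gridSU315)
    [.leaf, .leaf, .leaf, .leaf, .leaf, .leaf, .leaf, .leaf, .leaf, .leaf, .leaf, .leaf, .leaf] = true := by decide +kernel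

theorem testsSU315_rest : checkAll gridSU315.box (testsSU315.matrix potSU315).tail.tail [.leaf, .leaf] = true := by decide +kernel

/-- The quadratic condition of the data. -/
theorem testsSU315_check : testsSU315.check potSU315 gridSU315
    [.leaf, .leaf, .leaf, .leaf, .leaf, .leaf, .leaf, .leaf, .leaf, .leaf, .leaf, .leaf, .leaf]
    [.leaf, .leaf, .leaf, .leaf] = true :=
  CertTests.check_of_parts testsSU315_shape testsSU315_scalars
    (checkAll_headTail (by decide +kernel) testsSU315_e0
      (checkAll_headTail (by decide +kernel) testsSU315_e1 testsSU315_rest))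

end Vale.Agent.P237.Quant
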