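import Vale.Agent.P237.Quant.CertDefs

/-!
Data of a spectral certificate, checked by evaluation in the kernel.
-/

namespace Vale.Agent.P237.Quant

open Four.Checker

def potSU450 : CertPot := ⟨⟨3, 0, 1⟩, ⟨31, 0, 159⟩, ⟨31, -30, 1999⟩, ⟨289, -289, 7999⟩, ⟨-14450, 11849, 799999⟩, ⟨3909, 0, 3999⟩, ⟨11, 0, 249⟩⟩

def famSU4500 : CertFam := ⟨⟨16715, -6612, 49999⟩, ⟨-1, 0, 0⟩, ⟨1, 0, 0⟩, ⟨-216197, 2079487, 999999⟩, ⟨1, 0, 0⟩, ⟨0, 0, 0⟩, ⟨1, 0, 0⟩, ⟨1, 0, 0⟩, ⟨0, 0, 0⟩, ⟨0, 0, 0⟩⟩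

def famSU4501 : CertFam := ⟨⟨-333700, 460697, 999999⟩, ⟨1, 0, 0⟩, ⟨3418301, -7639476, 999999⟩, ⟨-1, 0, 0⟩, ⟨1, 0, 0⟩, ⟨87453, -1685311, 999999⟩, ⟨1, 0, 0⟩, ⟨1, 0, 0⟩, ⟨-901339, -1549815, 499999⟩, ⟨224041, -1351586, 999999⟩⟩

def famSU4502 : CertFam := ⟨⟨-1, 0, 0⟩, ⟨292584, 658323, 999999⟩, ⟨1, 0, 0⟩, ⟨151050, -1601739, 999999⟩, ⟨-93459, 49854862, 999999⟩, ⟨1, 0, 0⟩, ⟨996820, -781371, 999999⟩, ⟨-1632605, 4688223, 999999⟩, ⟨379407, -4376343, 999999⟩, ⟨378279, -736288, 999999⟩⟩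

def famSU4503 : CertFam := ⟨⟨1, 0, 0⟩, ⟨165, -998486, 999999⟩, ⟨1, 0, 0⟩, ⟨61, -999441, 999999⟩, ⟨-1, 0, 0⟩, ⟨541622, -4169265, 999999⟩, ⟨849139, -4688223, 999999⟩, ⟨1858383, -4688223, 999999⟩, ⟨977477, 4688223, 999999⟩, ⟨378459, 781371, 999999⟩⟩

def junctionSU450 : Lin := ⟨77419, -266025, 9999⟩

def gridSU450 : CertGrid := ⟨⟨167, -225, 499⟩, ⟨1709, -3825, 499⟩, ⟨450, 0, 0⟩, 471859200, 0, 1048576, 1048832, 471859201⟩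

def testsSU450 : CertTests where
  P₁ := [(⟨1, 0, 0⟩, 2, 0), (⟨-87, 18065, 4999⟩, 2, 2)]
  P₂ := [(⟨1, 0, 0⟩, 0, 1), (⟨0, 1537, 499⟩, 0, 2)]
  T₁ := ⟨21, -5844, 199⟩
  T₂ := ⟨-6433, -151650, 4999⟩
  S₁ := ⟨14741, 178620, 9999⟩
  S₂ := ⟨798, 9133, 499⟩
  mu := ⟨17, 0, 19⟩
  th := ⟨997, 16670, 4999⟩
  y₀ := ⟨7724, -26549, 999⟩
  R := ⟨49222, -178921, 9999⟩
  bnd := QP.ofNum 499999999 [[47437], [1482369]]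
  ka := QP.ofNum 999999 [[938134], [604071]]
  I := 10
  J := 6
  N := 30

end Vale.Agent.P237.Quant
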