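import Vale.Agent.P237.Quant.PosData.SU450SuperPolys

/-!
Parts of the heavy checks of a spectral certificate, evaluated in the kernel.
-/

namespace Vale.Agent.P237.Quant

open Four.Checker

theorem superSU450_3_c0 : QP.checkTree elemSU450_3_0 ⟨471859200, 0, 1048576, 0, 471859200⟩
    .leaf = true := by decide +kernel

theorem superSU450_3_c1 : QP.checkTree elemSU450_3_1 ⟨471859200, 0, 1048576, 0, 471859200⟩
    .leaf = true := by decide +kernel

theorem superSU450_3_c2 : QP.checkTree elemSU450_3_2 ⟨471859200, 0, 524288, 0, 235929600⟩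
    (.cutY 117964800 .leaf .leaf) = true := by decide +kernel

theorem superSU450_3_c3 : QP.checkTree elemSU450_3_2 ⟨471859200, 524288, 1048576, 0, 117964800⟩
    (.cutT 786432 (.cutY 58982400 .leaf .leaf) (.cutY 58982400 .leaf .leaf)) = true := by decide +kernel

theorem superSU450_3_c4 : QP.checkTree elemSU450_3_2 ⟨471859200, 524288, 1048576, 117964800, 235929600⟩
    .leaf = true := by decide +kernel

theorem superSU450_3_c5 : QP.checkTree elemSU450_3_2 ⟨471859200, 0, 1048576, 235929600, 471859200⟩
    .leaf = true := by decide +kernel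

theorem superSU450_3_rest : checkAll ⟨471859200, 0, 1048576, 0, 471859200⟩ (polysSU450_3.tail.tail.tail)
    [.leaf, .leaf, .leaf] = true := by decide +kernel

end Vale.Agent.P237.Quant
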